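import Vale.Agent.P193.Gen.Cent
import Vale.Agent.P193.Gen.Graph
import Vale.Agent.P193.Gen.EmbDefs
import Vale.Agent.P193.Gen.MultiDefs
import Vale.Agent.P193.Mach.Defs
import Mathlib.Algebra.Group.Subgroup.Basic
import Mathlib.Algebra.Ring.Divisibility.Basic
import Mathlib.Data.Fintype.Pi

/-!
P193: the layers `Gb, K, L, U, K1, Bt, H0, H` of the design note, for a machine `M`, a parameter `e`, and a
quotient `π : FreeGroup (Fin n) →* B`.
-/

namespace Vale.P193

noncomputable section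

variable {n : ℕ} (M : Mach (Fin n))

/-- `ℤ^d`, multiplicatively. -/
abbrev Lat (d : ℕ) := Multiplicative (Cfg d)

/-- Vectors divisible coordinatewise by `p`. -/
def divSub {d : ℕ} (p : Fin d → ℕ) : Subgroup (Lat d) where
  carrier := {x | ∀ j, (p j : ℤ) ∣ x.toAdd j}
  mul_mem' hx hy j := dvd_add (hx j) (hy j)
  one_mem' j := dvd_zero _
  inv_mem' hx j := dvd_neg.2 (hx j)

/-- Change of scale. -/
def rescale {d : ℕ} (p q : Fin d → ℕ) (x : Lat d) : Lat d :=
  Multiplicative.ofAdd fun j => x.toAdd j / (p j : ℤ) * (q j : ℤ)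

theorem rescale_mem {d : ℕ} (p q : Fin d → ℕ) (x : Lat d) : rescale p q x ∈ divSub q :=
  fun _ => dvd_mul_left _ _

theorem rescale_rescale {d : ℕ} {p q : Fin d → ℕ} (h : ∀ j, p j = 0 ↔ q j = 0) {x : Lat d}
    (hx : x ∈ divSub p) : rescale q p (rescale p q x) = x := by
  apply Multiplicative.toAdd.injective
  funext j
  show x.toAdd j / (p j : ℤ) * (q j : ℤ) / (q j : ℤ) * (p j : ℤ) = x.toAdd j
  obtain ⟨u, hu⟩ := hx j
  rw [hu]
  by_cases hp : p j = 0
  · simp [hp]
  · have hq : q j ≠ 0 := fun e => hp ((h j).2 e)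
    rw [Int.mul_ediv_cancel_left _ (by exact_mod_cast hp), Int.mul_ediv_cancel _ (by exact_mod_cast hq),
      mul_comm]

/-- The isomorphism of lattices of a rule. -/
def latEquiv {d : ℕ} (ρ : Rule d) : divSub ρ.p ≃* divSub ρ.p' where
  toFun x := ⟨rescale ρ.p ρ.p' x, rescale_mem _ _ _⟩
  invFun x := ⟨rescale ρ.p' ρ.p x, rescale_mem _ _ _⟩
  left_inv x := Subtype.ext (rescale_rescale ρ.zero_iff x.2)
  right_inv x := Subtype.ext (rescale_rescale (fun j => (ρ.zero_iff j).symm) x.2)
  map_mul' x y := by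
    apply Subtype.ext
    apply Multiplicative.toAdd.injective
    funext j
    show ((x : Lat d).toAdd j + (y : Lat d).toAdd j) / (ρ.p j : ℤ) * (ρ.p' j : ℤ) =
      (x : Lat d).toAdd j / (ρ.p j : ℤ) * (ρ.p' j : ℤ) + (y : Lat d).toAdd j / (ρ.p j : ℤ) * (ρ.p' j : ℤ)
    rw [Int.add_ediv_of_dvd_left (x.2 j), add_mul]

/-- The rules group. -/
abbrev Gb : Type :=
  MultiHNN (fun i => divSub (M.rule i).p) (fun i => divSub (M.rule i).p') (fun i => latEquiv (M.rule i))

/-- `y^c`. -/
def Y (c : Cfg M.d) : Gb M := MultiHNN.of _ _ _ (Multiplicative.ofAdd c)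

/-- A rule letter. -/
def R (i : Fin M.nr) : Gb M := MultiHNN.t _ _ _ i

/-- `h_i = y^(-c1) r_i y^(c0)`. -/
def hRule (i : Fin M.nr) : Gb M := Y M (-(M.rule i).c1) * R M i * Y M (M.rule i).c0

/-- Lift of a word of rules. -/
def liftR (w : Wd (Fin M.nr)) : Gb M := wev (R M) w

/-- The word in the `h_i`. -/
def liftH (w : Wd (Fin M.nr)) : Gb M := wev (hRule M) w

/-- `Gb × F(X)`. -/
abbrev M0 : Type := Gb M × FreeGroup (Fin n)

/-- `⟨h_i⟩ × 1`. -/
def Hh : Subgroup (M0 M) := Subgroup.closure (Set.range fun i => (hRule M i, (1 : FreeGroup (Fin n))))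

/-- The machine group. -/
abbrev K : Type := Cent (M0 M) (Hh M)

/-- Embedding of the rules group into `K`. -/
def gbK : Gb M →* K M := Cent.base.comp (MonoidHom.inl _ _)

/-- Embedding of the input letters into `K`. -/
def xK : FreeGroup (Fin n) →* K M := Cent.base.comp (MonoidHom.inr _ _)

/-- `y^c t y^(-c)`. -/
def tau (c : Cfg M.d) : K M := gbK M (Y M c) * Cent.k * (gbK M (Y M c))⁻¹

/-- The subgroup centralised by `k`. -/
def Lsub (e : ℕ) : Subgroup (K M) :=
  Subgroup.closure (insert (tau M (M.root1 e))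
    (Set.range fun i => gbK M (R M i) * xK M (FreeGroup.mk (M.tw i))))

/-- `⟨tau root0, X⟩`. -/
def Usub (e : ℕ) : Subgroup (K M) :=
  Subgroup.closure (insert (tau M (M.root0 e)) (Set.range fun x => xK M (FreeGroup.of x)))

/-- `k` centralises `L`. -/
abbrev K1 (e : ℕ) : Type := Cent (K M) (Lsub M e)

/-- `⟨U, k U k⁻¹⟩`. -/
def Uk (e : ℕ) : Subgroup (K1 M e) :=
  Subgroup.closure ((Cent.base '' (Usub M e : Set (K M))) ∪
    ((fun u => Cent.k * Cent.base u * Cent.k⁻¹) '' (Usub M e : Set (K M))))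

variable {B : Type} [Group B] (π : FreeGroup (Fin n) →* B)

/-- `x ↦ x̄` on the whole free group. -/
def piTop : (⊤ : Subgroup (FreeGroup (Fin n))) →* B := π.comp (Subgroup.subtype _)

/-- `⟨F(X) × B, β⟩`. -/
abbrev Bt : Type := GraphHNN (piTop π)

/-- The letter `β`, oriented so that `x β x⁻¹ = β x̄`. -/
def beta : Bt π := (GraphHNN.r (piTop π))⁻¹

/-- Root selection: a `t`-letter over `root0` with input coordinate `g` goes to `g β g⁻¹` (`left`) or to `β`. -/
def rootVal (e : ℕ) (left : Bool) (z : M0 M ⧸ Hh M) : Bt π :=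
  open Classical in
  if h : ∃ g : FreeGroup (Fin n), z = ((Y M (M.root0 e), g) : M0 M) then
    (if left then GraphHNN.inM (piTop π) h.choose * beta π * (GraphHNN.inM (piTop π) h.choose)⁻¹
      else beta π)
  else 1

/-- `φ_L`, defined on all of `K`; multiplicative on `U`. -/
def phiL (e : ℕ) (v : K M) : Bt π :=
  FreeGroup.lift (rootVal M π e true) v.left * GraphHNN.inM (piTop π) v.right.2

/-- `φ_R`. -/
def phiR (e : ℕ) (v : K M) : Bt π := FreeGroup.lift (rootVal M π e false) v.left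

/-- The value of a coset letter of `K1`. -/
def cosetVal (e : ℕ) (q : K M ⧸ Lsub M e) : Bt π :=
  open Classical in
  if h : ∃ u ∈ Usub M e, (u : K M ⧸ Lsub M e) = q then phiL M π e h.choose * (phiR M π e h.choose)⁻¹ else 1

/-- `φ`, defined on all of `K1`; multiplicative on `Uk`. -/
def phi (e : ℕ) (v : K1 M e) : Bt π :=
  FreeGroup.lift (cosetVal M π e) v.left * phiL M π e v.right

/-- `π` kills exactly the accepted words. -/
def Good (e : ℕ) : Prop := ∀ v : Wd (Fin n), Acc e v ↔ π (FreeGroup.mk v) = 1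

/-- What must be proved for the rope to exist. -/
def PhiHom (e : ℕ) : Prop :=
  ∀ a b : K1 M e, a ∈ Uk M e → b ∈ Uk M e → phi M π e (a * b) = phi M π e a * phi M π e b

/-- `φ` as a homomorphism. -/
def phiHom (e : ℕ) (h : PhiHom M π e) : Uk M e →* Bt π :=
  MonoidHom.mk' (fun u => phi M π e u) fun a b => h a b a.2 b.2

/-- The rope. -/
abbrev H0 (e : ℕ) (h : PhiHom M π e) : Type := GraphHNN (phiHom M π e h)

/-- Alphabet of `H0`: lattice unit vectors, rules, inputs, `t`, `k`, inputs of `Bt`, images in `B`, `β`, rope. -/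
inductive G0 (d nr n : ℕ) where
  | y (j : Fin d)
  | r (i : Fin nr)
  | x (a : Fin n)
  | t
  | k
  | xa (a : Fin n)
  | xb (a : Fin n)
  | beta
  | rope
deriving DecidableEq

/-- Values of the letters of `H0`. -/
def g0Val (e : ℕ) (h : PhiHom M π e) : G0 M.d M.nr n → H0 M π e h
  | .y j => GraphHNN.inM _ (Cent.base (gbK M (Y M (Pi.single j 1))))
  | .r i => GraphHNN.inM _ (Cent.base (gbK M (R M i)))
  | .x a => GraphHNN.inM _ (Cent.base (xK M (FreeGroup.of a)))
  | .t => GraphHNN.inM _ (Cent.base Cent.k)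
  | .k => GraphHNN.inM _ Cent.k
  | .xa a => GraphHNN.inB _ (GraphHNN.inM (piTop π) (FreeGroup.of a))
  | .xb a => GraphHNN.inB _ (GraphHNN.inB (piTop π) (π (FreeGroup.of a)))
  | .beta => GraphHNN.inB _ (beta π)
  | .rope => GraphHNN.r _

/-- A code of the letters. -/
def g0Code {d nr n : ℕ} : G0 d nr n → ℕ
  | .t => 0
  | .k => 1
  | .beta => 2
  | .rope => 3
  | .y j => 4 + 5 * j
  | .r i => 5 + 5 * i
  | .x a => 6 + 5 * a
  | .xa a => 7 + 5 * a
  | .xb a => 8 + 5 * a

theorem g0Code_injective {d nr n : ℕ} : Function.Injective (g0Code (d := d) (nr := nr) (n := n)) := by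
  intro a b h
  cases a <;> cases b <;> simp [g0Code] at h ⊢ <;> first | exact Fin.ext (by omega) | omega

/-- The stretching data: every letter of `H0` has the weight `L0`. -/
def stretch (e : ℕ) (h : PhiHom M π e) (L0 : ℕ) : EmbData (H0 M π e h) where
  ι := G0 M.d M.nr n
  code := g0Code
  code_inj := g0Code_injective
  val := g0Val M π e h
  m _ := L0

/-- The five-generator group `H`. -/
abbrev HTower (e : ℕ) (h : PhiHom M π e) (L0 : ℕ) : Type := (stretch M π e h L0).Emb

end

end Vale.P193
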