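import Vale.Agent.P193.Gen.GraphRed
import Vale.Agent.P193.Layer.Defs

/-!
P193 M5: the two corollaries of the rope certificates that are used, and the layer `Bt`: certificates for `≠ 1` and
for `not in the image of B`, relative to an oracle for `≠ 1 in B` with atoms of bounded length.
-/

namespace Vale.P193

noncomputable section

namespace GraphHNN

open HNNExtension

variable {M B : Type} [Group M] [Group B] {U : Subgroup M} {φ : U →* B}
variable {αM αB : Type} {vM : αM → M} {vB : αB → B}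
variable (NU NM : Wd αM → Prop) (NB NB' : Wd αB → Prop) (Dr : Wd (GLet αM αB) → Prop)

/-- Certificate for `≠ 1`. -/
def NegG (w : Wd (GLet αM αB)) : Prop := Cert NU NB Dr (fun s => NM s.1 ∨ NB s.2) w

/-- Certificate for lying outside a subset of the second factor, whose complement is refuted by `NB'`. -/
def NotG (w : Wd (GLet αM αB)) : Prop := Cert NU NB Dr (fun s => NM s.1 ∨ NB' s.2) w

variable {NU NM NB NB' Dr}

theorem negG_sound (hNU : ∀ m, NU m → wev vM m ∉ U) (hNM : ∀ m, NM m → wev vM m ≠ 1)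
    (hNB : ∀ b, NB b → wev vB b ≠ 1) (hDr : ∀ w, Dr w → wev (gVal φ vM vB) w = 1)
    {w : Wd (GLet αM αB)} (h : NegG NU NM NB Dr w) : wev (gVal φ vM vB) w ≠ 1 := by
  intro h1
  obtain ⟨s, hs, hv⟩ := cert_sound hNU hNB hDr h (x := 1) (by rw [h1, map_one])
  rcases hs with hs | hs
  · exact hNM _ hs (congrArg Prod.fst hv)
  · exact hNB _ hs (congrArg Prod.snd hv)

theorem negG_complete {C : ℕ} (hC : WordBound φ vM vB C) {w : Wd (GLet αM αB)}
    (hNU : ∀ m, m.length ≤ w.length → wev vM m ∉ U → NU m)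
    (hNM : ∀ m, m.length ≤ w.length → wev vM m ≠ 1 → NM m)
    (hNB : ∀ b, b.length ≤ (2 * C + 1) * w.length → wev vB b ≠ 1 → NB b)
    (hDr : ∀ v, wev (gVal φ vM vB) v = 1 → Dr v) (h : wev (gVal φ vM vB) w ≠ 1) :
    NegG NU NM NB Dr w := by
  refine cert_complete hC w hNU hNB hDr _ fun s h1 h2 hw => ?_
  by_cases hm : wev vM s.1 = 1
  · refine Or.inr (hNB _ (h2.trans (Nat.mul_le_mul_right _ (by omega))) fun hb => h ?_)
    rw [hw, show segVal vM vB s = 1 from Prod.ext hm hb, map_one]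
  · exact Or.inl (hNM _ h1 hm)

theorem notG_sound (hNU : ∀ m, NU m → wev vM m ∉ U) (hNM : ∀ m, NM m → wev vM m ≠ 1)
    (hNB : ∀ b, NB b → wev vB b ≠ 1) {P : Set B} (hNB' : ∀ b, NB' b → wev vB b ∉ P)
    (hDr : ∀ w, Dr w → wev (gVal φ vM vB) w = 1)
    {w : Wd (GLet αM αB)} (h : NotG NU NM NB NB' Dr w) {b : B} (hb : b ∈ P) :
    wev (gVal φ vM vB) w ≠ inB φ b := by
  intro h1
  obtain ⟨s, hs, hv⟩ := cert_sound hNU hNB hDr h (x := (1, b)) h1
  rcases hs with hs | hs
  · exact hNM _ hs (congrArg Prod.fst hv)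
  · exact hNB' _ hs (by rw [show wev vB s.2 = b from congrArg Prod.snd hv]; exact hb)

theorem notG_complete {C : ℕ} (hC : WordBound φ vM vB C) {w : Wd (GLet αM αB)} {P : Set B}
    (hNU : ∀ m, m.length ≤ w.length → wev vM m ∉ U → NU m)
    (hNM : ∀ m, m.length ≤ w.length → wev vM m ≠ 1 → NM m)
    (hNB : ∀ b, b.length ≤ (2 * C + 1) * w.length → wev vB b ≠ 1 → NB b)
    (hNB' : ∀ b, b.length ≤ (C + 1) * w.length → wev vB b ∉ P → NB' b)
    (hDr : ∀ v, wev (gVal φ vM vB) v = 1 → Dr v)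
    (h : ∀ b ∈ P, wev (gVal φ vM vB) w ≠ inB φ b) : NotG NU NM NB NB' Dr w := by
  refine cert_complete hC w hNU hNB hDr _ fun s h1 h2 hw => ?_
  by_cases hm : wev vM s.1 = 1
  · refine Or.inr (hNB' _ h2 fun hb => h _ hb ?_)
    rw [hw, show segVal vM vB s = (1, wev vB s.2) from Prod.ext hm rfl]
    rfl
  · exact Or.inl (hNM _ h1 hm)

end GraphHNN

open GraphHNN

/-- An oracle atom: a short word that the oracle declares nontrivial. -/
def Atom {n : ℕ} (O : Wd (Fin n) → Prop) (N : ℕ) (v : Wd (Fin n)) : Prop := v.length ≤ N ∧ O v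

/-- The word is nontrivial in the free group. -/
def FreeNe {α : Type} (w : Wd α) : Prop := FreeGroup.mk w ≠ 1

theorem wev_of {α : Type} (w : Wd α) : wev (FreeGroup.of : α → FreeGroup α) w = FreeGroup.mk w := by
  show FreeGroup.lift FreeGroup.of (FreeGroup.mk w) = _
  have h : (FreeGroup.lift (FreeGroup.of : α → FreeGroup α)) = MonoidHom.id _ :=
    FreeGroup.ext_hom _ _ fun a => by simp
  rw [h]; rfl

section Bt

variable {n : ℕ} {B : Type} [Group B] (π : FreeGroup (Fin n) →* B)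

/-- Alphabet of `Bt`: inputs, their images in `B`, and `β⁻¹`. -/
abbrev BL (n : ℕ) := GLet (Fin n) (Fin n)

/-- Values of the letters of `Bt`. -/
def blVal : BL n → Bt π := gVal (piTop π) FreeGroup.of fun a => π (FreeGroup.of a)

theorem wev_piOf (w : Wd (Fin n)) : wev (fun a => π (FreeGroup.of a)) w = π (FreeGroup.mk w) := by
  rw [← hom_wev, wev_of]

theorem bt_bound : WordBound (piTop π) FreeGroup.of (fun a => π (FreeGroup.of a)) 1 := fun m _ =>
  ⟨m, by simp, by rw [wev_piOf]; simp [piTop, wev_of]⟩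

/-- A short word for an element of `B`. -/
theorem bt_bWord (w : Wd (BL n)) {b : B} (h : wev (blVal π) w = inB (piTop π) b) :
    ∃ v : Wd (Fin n), v.length ≤ 2 * w.length ∧ π (FreeGroup.mk v) = b := by
  obtain ⟨v, hv, e⟩ := GraphHNN.bWord (bt_bound π) w h
  exact ⟨v, hv, by rw [← wev_piOf]; exact e⟩

variable (O : Wd (Fin n) → Prop) (N : ℕ) (Dr : Wd (BL n) → Prop)

/-- `≠ 1` in `Bt`. -/
def NegBt (w : Wd (BL n)) : Prop := NegG (fun _ => False) FreeNe (Atom O N) Dr w

/-- Not in the image of `B` in `Bt`. -/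
def NotBt (w : Wd (BL n)) : Prop := NotG (fun _ => False) FreeNe (Atom O N) (fun _ => False) Dr w

variable {π O N Dr}

theorem negBt_sound (hO : ∀ v : Wd (Fin n), v.length ≤ N → O v → π (FreeGroup.mk v) ≠ 1)
    (hDr : ∀ w, Dr w → wev (blVal π) w = 1) {w : Wd (BL n)} (h : NegBt O N Dr w) :
    wev (blVal π) w ≠ 1 :=
  negG_sound (φ := piTop π) (vM := FreeGroup.of) (vB := fun a => π (FreeGroup.of a))
    (fun _ h => h.elim) (fun m hm => by rw [wev_of]; exact hm)
    (fun b hb => by rw [wev_piOf]; exact hO b hb.1 hb.2) hDr h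

theorem negBt_complete (hO : ∀ v : Wd (Fin n), v.length ≤ N → π (FreeGroup.mk v) ≠ 1 → O v)
    (hDr : ∀ w, wev (blVal π) w = 1 → Dr w) {w : Wd (BL n)} (hN : 3 * w.length ≤ N)
    (h : wev (blVal π) w ≠ 1) : NegBt O N Dr w :=
  negG_complete (bt_bound π) (fun m _ hm => (hm (Subgroup.mem_top _)).elim)
    (fun m _ hm => by rw [wev_of] at hm; exact hm)
    (fun b hb h1 => ⟨by omega, hO b (by omega) (by rwa [wev_piOf] at h1)⟩) hDr h

theorem notBt_sound (hO : ∀ v : Wd (Fin n), v.length ≤ N → O v → π (FreeGroup.mk v) ≠ 1)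
    (hDr : ∀ w, Dr w → wev (blVal π) w = 1) {w : Wd (BL n)} (h : NotBt O N Dr w) :
    wev (blVal π) w ∉ (inB (piTop π)).range := by
  rintro ⟨b, hb⟩
  exact notG_sound (φ := piTop π) (vM := FreeGroup.of) (vB := fun a => π (FreeGroup.of a))
    (fun _ h => h.elim) (fun m hm => by rw [wev_of]; exact hm)
    (fun v hv => by rw [wev_piOf]; exact hO v hv.1 hv.2) (P := Set.univ) (fun _ h => h.elim) hDr h
    (Set.mem_univ b) hb.symm

theorem notBt_complete (hO : ∀ v : Wd (Fin n), v.length ≤ N → π (FreeGroup.mk v) ≠ 1 → O v)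
    (hDr : ∀ w, wev (blVal π) w = 1 → Dr w) {w : Wd (BL n)} (hN : 3 * w.length ≤ N)
    (h : wev (blVal π) w ∉ (inB (piTop π)).range) : NotBt O N Dr w :=
  notG_complete (bt_bound π) (P := Set.univ) (fun m _ hm => (hm (Subgroup.mem_top _)).elim)
    (fun m _ hm => by rw [wev_of] at hm; exact hm)
    (fun b hb h1 => ⟨by omega, hO b (by omega) (by rwa [wev_piOf] at h1)⟩)
    (fun b _ hb => (hb (Set.mem_univ _)).elim) hDr fun b _ hb => h ⟨b, hb.symm⟩

end Bt

end

end Vale.P193
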