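import Vale.Agent.P193.Layer.CoreDefs

/-!
P193 (M4): the core lemma. A word of `K1` with value in `Uk` has image under `φ` equal to a word in the letters of
`Bt` of linearly bounded length.
-/

namespace Vale.P193

noncomputable section

variable {n : ℕ} {M : Mach (Fin n)}

namespace Core

theorem wev_cons {α G : Type*} [Group G] (f : α → G) (a : α) (b : Bool) (w : Wd α) :
    wev f ((a, b) :: w) = cond b (f a) (f a)⁻¹ * wev f w := by
  simp [wev]

theorem wev_invRev {α G : Type*} [Group G] (f : α → G) (w : Wd α) :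
    wev f (FreeGroup.invRev w) = (wev f w)⁻¹ := by
  rw [wev, ← FreeGroup.inv_mk, map_inv, wev]

theorem exists_word {α G : Type*} [Group G] (f : α → G) {x : G}
    (hx : x ∈ Subgroup.closure (Set.range f)) : ∃ q : Wd α, wev f q = x := by
  rw [← FreeGroup.range_lift_eq_closure] at hx
  obtain ⟨y, rfl⟩ := hx
  obtain ⟨q, rfl⟩ := Quot.exists_rep y
  exact ⟨q, rfl⟩

theorem path_append {X : Type} (M : Mach X) {c d : Cfg M.d} :
    ∀ {p : Wd (Fin M.nr)} {w : Wd (Fin M.nr)} {a : Cfg M.d},
      M.Path w a c → M.Path p c d → M.Path (p ++ w) a d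
  | [], w, a, h, h' => by subst h'; exact h
  | l :: p, w, a, h, ⟨m, hm, hs⟩ => ⟨m, path_append M h hm, hs⟩

end Core

open Core

theorem gK_apply (v : K M) : gK M v = (v.right : M0 M).1 := rfl

theorem sigK_apply (v : K M) : sigK M v = monoG M (v.right : M0 M).1 := rfl

theorem gK_gbK (g : Gb M) : gK M (gbK M g) = g := rfl

theorem gK_xK (x : FreeGroup (Fin n)) : gK M (xK M x) = 1 := rfl

theorem gK_k : gK M (Cent.k : K M) = 1 := rfl

theorem gK_tau (c : Cfg M.d) : gK M (tau M c) = 1 := by
  simp [tau, gK_gbK, gK_k]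

theorem gK_usub {e : ℕ} {u : K M} (hu : u ∈ Usub M e) : gK M u = 1 := by
  have : Usub M e ≤ (gK M).ker := by
    refine (Subgroup.closure_le _).2 ?_
    rintro _ (rfl | ⟨x, rfl⟩)
    · exact gK_tau _
    · exact gK_xK _
  exact this hu

theorem gK_lsub {e : ℕ} {l : K M} (hl : l ∈ Lsub M e) : gK M l ∈ Rsub M := by
  have : Lsub M e ≤ (Rsub M).comap (gK M) := by
    refine (Subgroup.closure_le _).2 ?_
    rintro _ (rfl | ⟨i, rfl⟩)
    · simp [gK_tau]
    · rw [SetLike.mem_coe, Subgroup.mem_comap, map_mul, gK_gbK, gK_xK, mul_one]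
      exact ⟨FreeGroup.of i, by simp⟩
  exact this hl

variable {B : Type} [Group B] (π : FreeGroup (Fin n) →* B)

variable (M) in
/-- `φ_L` with the monodromy of the rule part removed. -/
def Zval (e : ℕ) (v : K M) : Bt π :=
  phiL M π e v * (GraphHNN.inM (piTop π) (sigK M v))⁻¹

variable (M) in
/-- The value of the coset of `v`, defined on all of `K`. -/
def Psi (e : ℕ) (v : K M) : Bt π := Zval M π e v * (phiR M π e v)⁻¹

variable {S : M.Spec} {e : ℕ}

/-- A hit over `root1` has monodromy in the kernel. -/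
theorem pi_sigK_of_hit (hF : GbFacts M S) (hG : Good π e) {v : K M} (hv : gK M v ∈ Rsub M)
    (h : Hit M e ((v * gbK M (Y M (M.root1 e))).right)) : π (sigK M v) = 1 := by
  obtain ⟨y, hy⟩ := hv
  have hw : liftR M y.toWord = gK M v := by
    rw [← hy, liftR, wev, FreeGroup.mk_toWord]
  rw [hit_iff_fst] at h
  have hp := hF.valid y.toWord (M.root1 e) (M.root0 e) FreeGroup.isReduced_toWord (by
    rw [hw, mul_assoc]; exact h)
  have hs := S.sound e π.ker (fun v hv => (hG v).1 hv) _ _ hp
  rw [S.off_root0, ← FreeGroup.one_eq_mk, inv_one, one_mul, MonoidHom.mem_ker] at hs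
  rwa [← monoG_liftR, hw] at hs

theorem phiL_mul_gbK (v : K M) (g : Gb M) :
    phiL M π e (v * gbK M g) = phiL M π e v := by
  show phiL M π e (v * Cent.base (g, 1)) = _
  rw [phiL_mul_base, map_one, mul_one]

theorem phiR_mul_gbK (v : K M) (g : Gb M) : phiR M π e (v * gbK M g) = phiR M π e v :=
  phiR_mul_base M π e v _

theorem sigK_mul_gbK (v : K M) (g : Gb M) :
    sigK M (v * gbK M g) = sigK M v * monoG M g := by
  rw [map_mul]; rfl

theorem psi_mul_tau (hF : GbFacts M S) (hG : Good π e) {v : K M} (hv : gK M v ∈ Rsub M) :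
    Psi M π e (v * tau M (M.root1 e)) = Psi M π e v := by
  have hs : sigK M (tau M (M.root1 e)) = 1 := by
    show monoG M (gK M (tau M (M.root1 e))) = 1
    rw [gK_tau, map_one]
  have hr : tau M (M.root1 e) = gbK M (Y M (M.root1 e)) * Cent.k * gbK M (Y M (M.root1 e))⁻¹ := by
    rw [tau, map_inv]
  have hL : phiL M π e (v * tau M (M.root1 e)) =
      phiL M π e v * tStep M π e (v * gbK M (Y M (M.root1 e))).right := by
    rw [hr, ← mul_assoc, ← mul_assoc, phiL_mul_gbK, phiL_mul_k, phiL_mul_gbK]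
  have hR : phiR M π e (v * tau M (M.root1 e)) =
      phiR M π e v * tStep M π e (v * gbK M (Y M (M.root1 e))).right := by
    rw [hr, ← mul_assoc, ← mul_assoc, phiR_mul_gbK, phiR_mul_k, phiR_mul_gbK]
  rw [Psi, Zval, map_mul (sigK M), hs, mul_one, hL, hR, Psi, Zval]
  by_cases hh : Hit M e (v * gbK M (Y M (M.root1 e))).right
  · have hc : Commute (beta π) (GraphHNN.inM (piTop π) (sigK M v)) :=
      beta_comm_of_ker π (pi_sigK_of_hit π hF hG hv hh)
    rw [tStep, if_pos hh, mul_assoc (phiL M π e v), hc.inv_right.eq]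
    group
  · rw [tStep, if_neg hh]; simp

theorem psi_mul_rule (v : K M) (i : Fin M.nr) :
    Psi M π e (v * (gbK M (R M i) * xK M (FreeGroup.mk (M.tw i)))) = Psi M π e v := by
  have h : gbK M (R M i) * xK M (FreeGroup.mk (M.tw i)) =
      Cent.base ((R M i, FreeGroup.mk (M.tw i)) : M0 M) := by
    rw [gbK, xK, MonoidHom.comp_apply, MonoidHom.comp_apply, ← map_mul]
    congr 1
  have hs : sigK M (Cent.base ((R M i, FreeGroup.mk (M.tw i)) : M0 M)) = FreeGroup.mk (M.tw i) :=
    monoG_R M i
  rw [h, Psi, Zval, phiL_mul_base, phiR_mul_base, map_mul (sigK M), hs, Psi, Zval]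
  simp [mul_assoc]

theorem psi_mul_lsub (hF : GbFacts M S) (hG : Good π e) {l : K M} (hl : l ∈ Lsub M e) :
    ∀ v, gK M v ∈ Rsub M → Psi M π e (v * l) = Psi M π e v := by
  induction hl using Subgroup.closure_induction with
  | mem x hx =>
    rcases hx with rfl | ⟨i, rfl⟩
    · exact fun v hv => psi_mul_tau π hF hG hv
    · exact fun v _ => psi_mul_rule π v i
  | one => exact fun v _ => by rw [mul_one]
  | mul x y hx hy ihx ihy =>
    intro v hv
    rw [← mul_assoc, ihy _ (by rw [map_mul]; exact mul_mem hv (gK_lsub hx)), ihx v hv]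
  | inv x hx ihx =>
    intro v hv
    have := ihx (v * x⁻¹) (by rw [map_mul, map_inv]; exact mul_mem hv (inv_mem (gK_lsub hx)))
    rw [inv_mul_cancel_right] at this
    exact this.symm

theorem gK_of_coe {v : K M} (h : ∃ u ∈ Usub M e, (u : K M ⧸ Lsub M e) = v) :
    gK M v ∈ Rsub M := by
  obtain ⟨u, hu, huv⟩ := h
  have := gK_lsub (QuotientGroup.eq.1 huv)
  rwa [map_mul, map_inv, gK_usub hu, inv_one, one_mul] at this

theorem cosetVal_eq_psi (hF : GbFacts M S) (hG : Good π e) {v : K M}
    (h : ∃ u ∈ Usub M e, (u : K M ⧸ Lsub M e) = v) :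
    cosetVal M π e (v : K M ⧸ Lsub M e) = Psi M π e v := by
  rw [cosetVal, dif_pos h]
  have hu := h.choose_spec
  have h1 : gK M h.choose = 1 := gK_usub hu.1
  have := psi_mul_lsub π hF hG (QuotientGroup.eq.1 hu.2) h.choose (by rw [h1]; exact one_mem _)
  rw [mul_inv_cancel_left] at this
  have hs : sigK M h.choose = 1 := by
    show monoG M (gK M h.choose) = 1
    rw [h1, map_one]
  rw [this, Psi, Zval, hs, map_one, inv_one, mul_one]

/-! ### Membership in `Uk` -/

/-- Alternating list of cosets of `U`, ending with a negative letter. -/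
inductive Alt (M : Mach (Fin n)) (e : ℕ) : Bool → List ((K M ⧸ Lsub M e) × Bool) → Prop
  | nil : Alt M e true []
  | cons {b : Bool} {q : K M ⧸ Lsub M e} {l : List ((K M ⧸ Lsub M e) × Bool)} :
      (∃ u ∈ Usub M e, (u : K M ⧸ Lsub M e) = q) → Alt M e (!b) l → Alt M e b ((q, b) :: l)

theorem Alt.append {b : Bool} {l t : List ((K M ⧸ Lsub M e) × Bool)} (h : Alt M e b l)
    (ht : Alt M e true t) : Alt M e b (l ++ t) := by
  induction h with
  | nil => exact ht
  | cons hq _ ih => exact .cons hq ih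

theorem Alt.invRev {b : Bool} {l : List ((K M ⧸ Lsub M e) × Bool)} (h : Alt M e b l) :
    ∀ t, Alt M e b t → Alt M e true (FreeGroup.invRev l ++ t) := by
  induction h with
  | nil => intro t ht; simpa [FreeGroup.invRev] using ht
  | @cons b q l hq _ ih =>
    intro t ht
    have := ih ((q, !b) :: t) (.cons hq (by simpa using ht))
    simpa [FreeGroup.invRev] using this

theorem Alt.smul {b : Bool} {l : List ((K M ⧸ Lsub M e) × Bool)} (h : Alt M e b l) {u : K M}
    (hu : u ∈ Usub M e) : Alt M e b (l.map fun x => (u • x.1, x.2)) := by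
  induction h with
  | nil => exact .nil
  | @cons b q l hq _ ih =>
    obtain ⟨u', hu', rfl⟩ := hq
    exact .cons ⟨u * u', mul_mem hu hu', rfl⟩ ih

theorem Alt.step {l l' : List ((K M ⧸ Lsub M e) × Bool)} (hs : FreeGroup.Red.Step l l') :
    ∀ {b : Bool}, Alt M e b l → Alt M e b l' := by
  cases hs with
  | @not L₁ L₂ x c =>
    induction L₁ with
    | nil =>
      intro b h
      cases c <;>
      · cases h with
        | cons _ h' =>
          rw [List.nil_append]
          cases h' with
          | cons _ h'' => simpa using h''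
    | cons a L₁ ih =>
      intro b h
      cases h with
      | cons hq h' => exact .cons hq (ih h')

theorem uk_alt {κ : K1 M e} (h : κ ∈ Uk M e) :
    κ.right ∈ Usub M e ∧ ∃ l, Alt M e true l ∧ κ.left = FreeGroup.mk l := by
  induction h using Subgroup.closure_induction with
  | mem x hx =>
    rcases hx with ⟨u, hu, rfl⟩ | ⟨u, hu, rfl⟩
    · exact ⟨hu, [], .nil, rfl⟩
    · refine ⟨by simpa [Cent.k] using hu,
        [(((1 : K M) : K M ⧸ Lsub M e), true), ((u : K M ⧸ Lsub M e), false)],
        .cons ⟨1, one_mem _, rfl⟩ (.cons ⟨u, hu, rfl⟩ .nil), ?_⟩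
      simp [Cent.k, Cent.centAct_of, MulAction.Quotient.smul_mk]
      rfl
  | one => exact ⟨one_mem _, [], .nil, rfl⟩
  | mul x y _ _ ihx ihy =>
    obtain ⟨hx, lx, hlx, ex⟩ := ihx
    obtain ⟨hy, ly, hly, ey⟩ := ihy
    refine ⟨by simpa using mul_mem hx hy, _, hlx.append (hly.smul hx), ?_⟩
    rw [SemidirectProduct.mul_left, ex, ey, ← FreeGroup.mul_mk]
    rfl
  | inv x _ ihx =>
    obtain ⟨hx, lx, hlx, ex⟩ := ihx
    refine ⟨by simpa using inv_mem hx, _, (hlx.smul (inv_mem hx)).invRev [] .nil, ?_⟩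
    rw [SemidirectProduct.inv_left, ex, List.append_nil, ← FreeGroup.inv_mk, map_inv]
    rfl

variable (M) in
/-- The cosets at the occurrences of `k`. -/
def occ (e : ℕ) : K M → Wd (K1L M) → List ((K M ⧸ Lsub M e) × Bool)
  | _, [] => []
  | v, (.inr (.inr (.inr true)), b) :: w => ((v : K M ⧸ Lsub M e), b) :: occ e v w
  | v, (a, b) :: w => occ e (v * cond b (kLet M a) (kLet M a)⁻¹) w

theorem kVal_cons (a : K1L M) (b : Bool) (w : Wd (K1L M)) :
    kVal M ((a, b) :: w) = cond b (kLet M a) (kLet M a)⁻¹ * kVal M w := Core.wev_cons _ _ _ _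

theorem kVal_cons_k (b : Bool) (w : Wd (K1L M)) :
    kVal M ((.inr (.inr (.inr true)), b) :: w) = kVal M w := by
  rw [kVal_cons]; cases b <;> simp [kLet]

theorem base_mul_k1Val (e : ℕ) (w : Wd (K1L M)) : ∀ v : K M,
    (Cent.base v * k1Val M e w).left = FreeGroup.mk (occ M e v w) ∧
      (Cent.base v * k1Val M e w).right = v * kVal M w := by
  induction w with
  | nil => intro v; simp [k1Val, kVal, occ, ← FreeGroup.one_eq_mk]
  | cons x w ih =>
    intro v
    obtain ⟨a, b⟩ := x
    have key : ∀ a', k1Let M e a' = Cent.base (kLet M a') →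
        Cent.base v * k1Val M e ((a', b) :: w) =
          Cent.base (v * cond b (kLet M a') (kLet M a')⁻¹) * k1Val M e w := by
      intro a' ha
      rw [k1Val, Core.wev_cons, ha, ← mul_assoc]
      cases b <;> simp [k1Val]
    rcases a with j | i | x | c
    · rw [key _ rfl]; have := ih (v * cond b (kLet M (.inl j)) (kLet M (.inl j))⁻¹)
      exact ⟨this.1, by rw [this.2, kVal_cons, mul_assoc]⟩
    · rw [key _ rfl]
      have := ih (v * cond b (kLet M (.inr (.inl i))) (kLet M (.inr (.inl i)))⁻¹)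
      exact ⟨this.1, by rw [this.2, kVal_cons, mul_assoc]⟩
    · rw [key _ rfl]
      have := ih (v * cond b (kLet M (.inr (.inr (.inl x)))) (kLet M (.inr (.inr (.inl x))))⁻¹)
      exact ⟨this.1, by rw [this.2, kVal_cons, mul_assoc]⟩
    · cases c
      · rw [key _ rfl]
        have := ih (v * cond b (kLet M (.inr (.inr (.inr false)))) (kLet M (.inr (.inr (.inr false))))⁻¹)
        exact ⟨this.1, by rw [this.2, kVal_cons, mul_assoc]⟩
      · obtain ⟨h1, h2⟩ := ih v
        have hk : Cent.base v * k1Val M e ((.inr (.inr (.inr true)), b) :: w) =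
            SemidirectProduct.inl (cond b (FreeGroup.of (v : K M ⧸ Lsub M e))
              (FreeGroup.of (v : K M ⧸ Lsub M e))⁻¹) * (Cent.base v * k1Val M e w) := by
          rw [k1Val, Core.wev_cons, ← mul_assoc, ← mul_assoc]
          congr 1
          have hc := Cent.conj_k (L := Lsub M e) v
          have hc' : Cent.base v * Cent.k = Cent.letter (v : K M ⧸ Lsub M e) * Cent.base v := by
            rw [← hc, inv_mul_cancel_right]
          cases b
          · show Cent.base v * (Cent.k)⁻¹ = _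
            rw [cond_false, map_inv]
            show _ = (Cent.letter (v : K M ⧸ Lsub M e))⁻¹ * Cent.base v
            rw [eq_inv_mul_iff_mul_eq, ← mul_assoc, ← hc', mul_inv_cancel_right]
          · exact hc'
        rw [hk]
        refine ⟨?_, ?_⟩
        · rw [SemidirectProduct.mul_left, SemidirectProduct.left_inl, SemidirectProduct.right_inl,
            map_one, MulAut.one_apply, h1]
          cases b <;> rfl
        · rw [SemidirectProduct.mul_right, SemidirectProduct.right_inl, one_mul, h2, kVal_cons_k]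

theorem occ_split : ∀ (w : Wd (K1L M)) (v : K M) {q : K M ⧸ Lsub M e} {b : Bool}
    {l : List ((K M ⧸ Lsub M e) × Bool)}, List.Sublist ((q, b) :: l) (occ M e v w) →
    ∃ w1 w2, w = w1 ++ (.inr (.inr (.inr true)), b) :: w2 ∧
      q = ((v * kVal M w1 : K M) : K M ⧸ Lsub M e) ∧ List.Sublist l (occ M e (v * kVal M w1) w2) := by
  intro w
  induction w with
  | nil => intro v q b l h; simp [occ] at h
  | cons x w ih =>
    intro v q b l h
    obtain ⟨a, c⟩ := x
    have step : ∀ a', List.Sublist ((q, b) :: l)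
        (occ M e (v * cond c (kLet M a') (kLet M a')⁻¹) w) →
        ∃ w1 w2, (a', c) :: w = w1 ++ (.inr (.inr (.inr true)), b) :: w2 ∧
          q = ((v * kVal M w1 : K M) : K M ⧸ Lsub M e) ∧
            List.Sublist l (occ M e (v * kVal M w1) w2) := by
      intro a' h
      obtain ⟨w1, w2, hw, hq, hl⟩ := ih _ h
      exact ⟨(a', c) :: w1, w2, by rw [hw]; rfl, by rw [kVal_cons, ← mul_assoc]; exact hq,
        by rw [kVal_cons, ← mul_assoc]; exact hl⟩
    rcases a with j | i | y | t
    · exact step _ h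
    · exact step _ h
    · exact step _ h
    · cases t
      · exact step _ h
      · rw [occ] at h
        cases h with
        | cons _ h =>
          obtain ⟨w1, w2, hw, hq, hl⟩ := ih _ h
          exact ⟨(.inr (.inr (.inr true)), c) :: w1, w2, by rw [hw]; rfl,
            by rw [kVal_cons_k]; exact hq, by rw [kVal_cons_k]; exact hl⟩
        | cons_cons _ h =>
          exact ⟨[], w, rfl, by simp [kVal], by simpa [kVal] using h⟩

/-! ### The three kinds of pieces -/

/-- A word of length at most `N` in the letters of `Bt` has this value. -/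
def Wordy (N : ℕ) (x : Bt π) : Prop := ∃ b : Wd (BtL n), b.length ≤ N ∧ btVal π b = x

theorem Wordy.mul {N N' : ℕ} {x y : Bt π} (hx : Wordy π N x) (hy : Wordy π N' y) :
    Wordy π (N + N') (x * y) := by
  obtain ⟨a, ha, rfl⟩ := hx
  obtain ⟨b, hb, rfl⟩ := hy
  exact ⟨a ++ b, by simp; omega, wev_append _ _ _⟩

theorem Wordy.inv {N : ℕ} {x : Bt π} (hx : Wordy π N x) : Wordy π N x⁻¹ := by
  obtain ⟨a, ha, rfl⟩ := hx
  exact ⟨FreeGroup.invRev a, by simpa using ha, Core.wev_invRev _ _⟩

theorem Wordy.mono {N N' : ℕ} {x : Bt π} (h : N ≤ N') (hx : Wordy π N x) : Wordy π N' x := by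
  obtain ⟨a, ha, rfl⟩ := hx
  exact ⟨a, ha.trans h, rfl⟩

theorem wordy_one : Wordy π 0 (1 : Bt π) := ⟨[], le_rfl, by simp [btVal]⟩

theorem wordy_mk (u : Wd (Fin n)) :
    Wordy π u.length (GraphHNN.inM (piTop π) (FreeGroup.mk u)) := by
  refine ⟨u.map fun x => (.inl x.1, x.2), by simp, ?_⟩
  induction u with
  | nil => simp [btVal, ← FreeGroup.one_eq_mk]
  | cons x u ih =>
    obtain ⟨a, b⟩ := x
    have h : FreeGroup.mk ((a, b) :: u) =
        cond b (FreeGroup.of a) (FreeGroup.of a)⁻¹ * FreeGroup.mk u := by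
      cases b <;> simp [FreeGroup.of, FreeGroup.invRev]
    rw [List.map_cons, btVal, Core.wev_cons, h, map_mul, ← ih, btVal]
    cases b <;> simp [btLet]

theorem wordy_beta_pow (m : ℤ) : Wordy π m.natAbs (beta π ^ m) := by
  have h : ∀ k : ℕ, btVal π (List.replicate k (.inr (), true)) = beta π ^ k := by
    intro k
    induction k with
    | zero => simp [btVal]
    | succ k ih =>
      rw [List.replicate_succ, btVal, Core.wev_cons, ← btVal, ih, pow_succ']
      rfl
  rcases Int.natAbs_eq m with hm | hm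
  · exact ⟨List.replicate m.natAbs (.inr (), true), by simp,
      by rw [h, ← zpow_natCast, ← hm]⟩
  · refine Wordy.mono π le_rfl ?_
    have := Wordy.inv π (N := m.natAbs) (x := beta π ^ m.natAbs)
      ⟨List.replicate m.natAbs (.inr (), true), by simp, h _⟩
    rwa [← zpow_natCast, ← zpow_neg, ← hm] at this

theorem wordy_tStep (m : M0 M) : Wordy π 1 (tStep M π e m) := by
  unfold tStep
  split_ifs
  · exact ⟨[(.inr (), true)], le_rfl, by simp [btVal, Core.wev_cons, btLet]⟩
  · exact (wordy_one π).mono π (Nat.zero_le _)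

/-- An `L`-piece is a literal word. -/
theorem phiL_piece (w : Wd (K1L M)) : ∀ v : K M,
    ∃ X, Wordy π w.length X ∧ phiL M π e (v * kVal M w) = phiL M π e v * X := by
  induction w with
  | nil => exact fun v => ⟨1, wordy_one π, by simp [kVal]⟩
  | cons x w ih =>
    intro v
    obtain ⟨a, b⟩ := x
    obtain ⟨X, hX, hv⟩ := ih (v * cond b (kLet M a) (kLet M a)⁻¹)
    have : ∃ Y, Wordy π 1 Y ∧
        phiL M π e (v * cond b (kLet M a) (kLet M a)⁻¹) = phiL M π e v * Y := by
      have h1 : Wordy π 1 (1 : Bt π) := (wordy_one π).mono π (Nat.zero_le _)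
      rcases a with j | i | y | t
      · exact ⟨1, h1, by cases b <;> simp [kLet, ← map_inv, phiL_mul_gbK]⟩
      · exact ⟨1, h1, by cases b <;> simp [kLet, ← map_inv, phiL_mul_gbK]⟩
      · refine ⟨_, (wordy_mk π [(y, b)]), ?_⟩
        have : cond b (kLet M (.inr (.inr (.inl y)))) (kLet M (.inr (.inr (.inl y))))⁻¹ =
            Cent.base ((1, FreeGroup.mk [(y, b)]) : M0 M) := by
          cases b
          · show (xK M (FreeGroup.of y))⁻¹ = _
            rw [← map_inv]; rfl
          · rfl
        rw [this, phiL_mul_base]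
      · cases t
        · cases b
          · exact ⟨_, (wordy_tStep π (e := e) v.right).inv π, phiL_mul_k_inv M π e v⟩
          · exact ⟨_, wordy_tStep π (e := e) v.right, phiL_mul_k M π e v⟩
        · exact ⟨1, h1, by cases b <;> simp [kLet]⟩
    obtain ⟨Y, hY, hv'⟩ := this
    refine ⟨Y * X, (hY.mul π hX).mono π (by simp; omega), ?_⟩
    rw [kVal_cons, ← mul_assoc, hv, hv', mul_assoc]

/-- An `R`-piece is a power of `β`, trivial unless the piece meets `root0`. -/
theorem phiR_piece (w : Wd (K1L M)) : ∀ v : K M,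
    ∃ m : ℤ, m.natAbs ≤ w.length ∧ phiR M π e (v * kVal M w) = phiR M π e v * beta π ^ m ∧
      (m ≠ 0 → ∃ w', w'.length ≤ w.length ∧ Hit M e (v * kVal M w').right) := by
  induction w with
  | nil => exact fun v => ⟨0, le_rfl, by simp [kVal], fun h => absurd rfl h⟩
  | cons x w ih =>
    intro v
    obtain ⟨a, b⟩ := x
    obtain ⟨m, hm, hv, hh⟩ := ih (v * cond b (kLet M a) (kLet M a)⁻¹)
    have : ∃ m' : ℤ, m'.natAbs ≤ 1 ∧
        phiR M π e (v * cond b (kLet M a) (kLet M a)⁻¹) = phiR M π e v * beta π ^ m' ∧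
          (m' ≠ 0 → Hit M e v.right) := by
      rcases a with j | i | y | t
      · exact ⟨0, by simp, by cases b <;> simp [kLet, ← map_inv, phiR_mul_gbK], fun h => absurd rfl h⟩
      · exact ⟨0, by simp, by cases b <;> simp [kLet, ← map_inv, phiR_mul_gbK], fun h => absurd rfl h⟩
      · refine ⟨0, by simp, ?_, fun h => absurd rfl h⟩
        cases b <;> simp [kLet, xK, ← map_inv, phiR_mul_base]
      · cases t
        · by_cases hit : Hit M e v.right
          · cases b
            · exact ⟨-1, by simp, by simp [kLet, phiR_mul_k_inv, tStep, hit], fun _ => hit⟩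
            · exact ⟨1, by simp, by simp [kLet, phiR_mul_k, tStep, hit], fun _ => hit⟩
          · refine ⟨0, by simp, ?_, fun h => absurd rfl h⟩
            cases b <;> simp [kLet, phiR_mul_k, phiR_mul_k_inv, tStep, hit]
        · exact ⟨0, by simp, by cases b <;> simp [kLet], fun h => absurd rfl h⟩
    obtain ⟨m', hm', hv', hh'⟩ := this
    refine ⟨m' + m, (Int.natAbs_add_le m' m).trans (by simp; omega), ?_, fun h => ?_⟩
    · rw [kVal_cons, ← mul_assoc, hv, hv', zpow_add, mul_assoc]
    · by_cases h0 : m' = 0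
      · obtain ⟨w', hw', h'⟩ := hh (by simpa [h0] using h)
        refine ⟨(a, b) :: w', by simpa using hw', ?_⟩
        rwa [kVal_cons, ← mul_assoc]
      · exact ⟨[], by simp, by simpa [kVal] using hh' h0⟩

theorem sigK_piece (S : M.Spec) (w : Wd (K1L M)) :
    ∃ u : Wd (Fin n), u.length ≤ w.length ∧ sigK M (kVal M w) = FreeGroup.mk u := by
  induction w with
  | nil => exact ⟨[], le_rfl, by simp [kVal, ← FreeGroup.one_eq_mk]⟩
  | cons x w ih =>
    obtain ⟨a, b⟩ := x
    obtain ⟨u, hu, he⟩ := ih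
    have : ∃ u' : Wd (Fin n), u'.length ≤ 1 ∧
        sigK M (cond b (kLet M a) (kLet M a)⁻¹) = FreeGroup.mk u' := by
      have h1 : ∀ g : FreeGroup (Fin n), g = 1 →
          ∃ u' : Wd (Fin n), u'.length ≤ 1 ∧ g = FreeGroup.mk u' :=
        fun g hg => ⟨[], by simp, by rw [hg, FreeGroup.one_eq_mk]⟩
      rcases a with j | i | y | t
      · exact h1 _ (by cases b <;> simp [kLet, sigK, gK_gbK])
      · cases b
        · exact ⟨FreeGroup.invRev (M.tw i), by simpa using S.tw_len i,
            by simp [kLet, sigK, gK_gbK, ← FreeGroup.inv_mk]⟩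
        · exact ⟨M.tw i, S.tw_len i, by simp [kLet, sigK, gK_gbK]⟩
      · exact h1 _ (by cases b <;> simp [kLet, sigK, gK_xK])
      · cases t <;> exact h1 _ (by cases b <;> simp [kLet, sigK, gK_k])
    obtain ⟨u', hu', he'⟩ := this
    exact ⟨u' ++ u, by simp; omega, by rw [kVal_cons, map_mul, he, he', FreeGroup.mul_mk]⟩

theorem gK_piece (w : Wd (K1L M)) :
    ∃ s : Wd (Fin M.d ⊕ Fin M.nr), s.length ≤ w.length ∧ gK M (kVal M w) = gVal M s := by
  induction w with
  | nil => exact ⟨[], le_rfl, by simp [kVal, gVal]⟩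
  | cons x w ih =>
    obtain ⟨a, b⟩ := x
    obtain ⟨s, hs, he⟩ := ih
    have : ∃ s' : Wd (Fin M.d ⊕ Fin M.nr), s'.length ≤ 1 ∧
        gK M (cond b (kLet M a) (kLet M a)⁻¹) = gVal M s' := by
      rcases a with j | i | y | t
      · refine ⟨[(.inl j, b)], le_rfl, ?_⟩
        cases b <;> simp [gVal, Core.wev_cons, kLet, gK_gbK]
      · refine ⟨[(.inr i, b)], le_rfl, ?_⟩
        cases b <;> simp [gVal, Core.wev_cons, kLet, gK_gbK]
      · exact ⟨[], by simp, by cases b <;> simp [gVal, kLet, gK_xK]⟩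
      · exact ⟨[], by simp, by cases b <;> cases t <;> simp [gVal, kLet, gK_k]⟩
    obtain ⟨s', hs', he'⟩ := this
    exact ⟨s' ++ s, by simp; omega, by
      rw [kVal_cons, map_mul, he, he', gVal, gVal, gVal, wev_append]⟩

/-- A piece meeting `root0` starts at a monodromy short modulo the kernel. -/
theorem pi_sigK_short (hF : GbFacts M S) (hG : Good π e) {v : K M} (hv : gK M v ∈ Rsub M)
    {w : Wd (K1L M)} (h : Hit M e (v * kVal M w).right) :
    ∃ g : Wd (Fin n), g.length ≤ 6 * w.length + 2 ∧ π (sigK M v) = π (FreeGroup.mk g) := by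
  obtain ⟨s, hs, hgs⟩ := gK_piece w
  obtain ⟨y, hy⟩ := hv
  have hw : liftR M y.toWord = gK M v := by rw [← hy, liftR, wev, FreeGroup.mk_toWord]
  rw [hit_iff_fst] at h
  obtain ⟨q0, hq0⟩ := Core.exists_word (hRule M) h
  have hroot : gK M v * gVal M s = Y M (M.root0 e) * liftH M q0 := by
    rw [liftH, hq0, mul_inv_cancel_left, ← hgs, ← map_mul]
    rfl
  have hsplit : gVal M s = liftR M (FreeGroup.invRev y.toWord) * Y M (M.root0 e) * liftH M q0 := by
    rw [mul_assoc, ← hroot, liftR, Core.wev_invRev, ← liftR, hw, inv_mul_cancel_left]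
  obtain ⟨u, q, p, c, hu, hq, hp, hmk, hc⟩ := hF.split s _ q0 (M.root0 e) hsplit
    (by rw [(S.root_V e).1]; simp)
  obtain ⟨w0, hw0, hm0⟩ := S.reach e [] ((hG []).2 (by rw [← FreeGroup.one_eq_mk, map_one]))
  have hsound := S.sound e π.ker (fun v hv => (hG v).1 hv) _ _ (Core.path_append M hw0 hp)
  rw [MonoidHom.mem_ker, map_mul, map_inv, inv_mul_eq_one] at hsound
  have hmono : M.mono (p ++ w0) = M.mono p := by
    rw [Mach.mono, wev_append, ← Mach.mono, ← Mach.mono, hm0, ← FreeGroup.one_eq_mk, mul_one]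
  rw [hmono] at hsound
  have hsig : (sigK M v)⁻¹ = M.mono u * M.mono p := by
    have h1 : sigK M v = M.mono y.toWord := by rw [← monoG_liftR, hw]; rfl
    rw [h1, Mach.mono, ← Core.wev_invRev, wev, hmk, map_mul]
    rfl
  obtain ⟨a, ha, hma⟩ : ∃ a : Wd (Fin n), a.length ≤ u.length ∧ M.mono u = FreeGroup.mk a := by
    clear hu hmk hsig hq
    induction u with
    | nil => exact ⟨[], le_rfl, by simp [Mach.mono, ← FreeGroup.one_eq_mk]⟩
    | cons x u ih =>
      obtain ⟨i, b⟩ := x
      obtain ⟨a, ha, hma⟩ := ih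
      have := S.tw_len i
      rw [Mach.mono, Core.wev_cons, ← Mach.mono, hma]
      cases b
      · exact ⟨FreeGroup.invRev (M.tw i) ++ a, by simp; omega,
          by rw [cond_false, FreeGroup.inv_mk, FreeGroup.mul_mk]⟩
      · exact ⟨M.tw i ++ a, by simp; omega, by rw [cond_true, FreeGroup.mul_mk]⟩
  refine ⟨FreeGroup.invRev (a ++ S.off c), ?_, ?_⟩
  · have := S.off_len c _ hc
    simp only [FreeGroup.invRev_length, List.length_append]
    omega
  · rw [← inv_inj, ← map_inv, hsig, map_mul, ← hsound, ← FreeGroup.inv_mk, map_inv, inv_inv,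
      ← FreeGroup.mul_mk, map_mul, hma]

/-! ### The core lemma -/

/-- The constant of the core lemma. -/
def C1 : ℕ := 18

theorem mk_cons_lift {α G : Type*} [Group G] (f : α → G) (q : α) (b : Bool) (l : Wd α) :
    FreeGroup.lift f (FreeGroup.mk ((q, b) :: l)) =
      cond b (f q) (f q)⁻¹ * FreeGroup.lift f (FreeGroup.mk l) := Core.wev_cons f q b l

theorem core_aux (hF : GbFacts M S) (hG : Good π e) :
    ∀ (N : ℕ) (l : List ((K M ⧸ Lsub M e) × Bool)), l.length ≤ N → Alt M e true l →
    ∀ (v : K M) (w : Wd (K1L M)), List.Sublist l (occ M e v w) →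
    ∃ X, Wordy π (C1 * w.length) X ∧
      FreeGroup.lift (cosetVal M π e) (FreeGroup.mk l) * phiL M π e (v * kVal M w) =
        phiL M π e v * X := by
  intro N
  induction N with
  | zero =>
    intro l hl _ v w _
    obtain ⟨X, hX, hv⟩ := phiL_piece π (e := e) w v
    rw [List.length_eq_zero_iff.1 (Nat.le_zero.1 hl)]
    exact ⟨X, hX.mono π (by simp [C1]; omega), by rw [← FreeGroup.one_eq_mk, map_one, one_mul, hv]⟩
  | succ N ih =>
    intro l hl hA v w hsub
    cases hA with
    | nil =>
      obtain ⟨X, hX, hv⟩ := phiL_piece π (e := e) w v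
      exact ⟨X, hX.mono π (by simp [C1]; omega),
        by rw [← FreeGroup.one_eq_mk, map_one, one_mul, hv]⟩
    | @cons _ q1 l1 hq1 hA1 =>
      cases hA1 with
      | @cons _ q2 l2 hq2 hA2 =>
        obtain ⟨w1, w2, rfl, rfl, hs1⟩ := occ_split w v hsub
        set v1 := v * kVal M w1 with hv1
        obtain ⟨s, w3, rfl, rfl, hs2⟩ := occ_split w2 v1 hs1
        set v2 := v1 * kVal M s with hv2
        obtain ⟨X3, hX3, he3⟩ := ih l2 (by simp at hl; omega) (by simpa using hA2) v2 w3 hs2
        obtain ⟨X1, hX1, he1⟩ := phiL_piece π (e := e) w1 v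
        obtain ⟨m, hm, hR, hhit⟩ := phiR_piece π (e := e) s v1
        obtain ⟨u, hu, hsig⟩ := sigK_piece S s
        have hg1 : gK M v1 ∈ Rsub M := gK_of_coe hq1
        have hend : v * kVal M (w1 ++ (.inr (.inr (.inr true)), true) ::
            (s ++ (.inr (.inr (.inr true)), false) :: w3)) = v2 * kVal M w3 := by
          simp [kVal, wev_append, Core.wev_cons, kLet, hv2, hv1, mul_assoc]
        have hY : ∃ Y, Wordy π (18 * s.length) Y ∧
            (GraphHNN.inM (piTop π) (sigK M v1))⁻¹ * beta π ^ m * GraphHNN.inM (piTop π) (sigK M v2) =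
              Y := by
          have h2 : sigK M v2 = sigK M v1 * FreeGroup.mk u := by rw [hv2, map_mul, hsig]
          rw [h2, map_mul (GraphHNN.inM (piTop π)), ← mul_assoc]
          have hu' := (wordy_mk π u).mono π hu
          by_cases hm0 : m = 0
          · subst hm0
            refine ⟨_, hu'.mono π (by omega), ?_⟩
            simp
          · obtain ⟨s', hs', hh⟩ := hhit hm0
            obtain ⟨g, hg, hpi⟩ := pi_sigK_short π hF hG hg1 hh
            rw [beta_zpow_conj_eq π hpi]
            refine ⟨_, ((((wordy_mk π g).inv π).mul π ((wordy_beta_pow π m).mul π (wordy_mk π g))).mul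
              π hu').mono π ?_, by simp [mul_assoc]⟩
            have : 1 ≤ s.length := le_trans (Nat.one_le_iff_ne_zero.2 (by simpa using hm0)) hm
            omega
        obtain ⟨Y, hYw, hYe⟩ := hY
        refine ⟨X1 * (Y * X3), ((hX1.mul π (hYw.mul π hX3))).mono π ?_, ?_⟩
        · simp [C1]; omega
        · rw [Bool.not_true, hend, mk_cons_lift, mk_cons_lift, cond_true, cond_false, mul_assoc, mul_assoc, he3,
            cosetVal_eq_psi π hF hG hq1, cosetVal_eq_psi π hF hG hq2, ← hYe, Psi, Psi, Zval, Zval, hR,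
            ← mul_assoc (phiL M π e v) X1, ← he1, ← hv1]
          group

/-- **Core lemma.** -/
theorem core (hF : GbFacts M S) (hG : Good π e) {w : Wd (K1L M)}
    (hw : k1Val M e w ∈ Uk M e) :
    ∃ b : Wd (BtL n), b.length ≤ C1 * w.length ∧ btVal π b = phi M π e (k1Val M e w) := by
  classical
  obtain ⟨hr, l, hl, he⟩ := uk_alt hw
  obtain ⟨h1, h2⟩ := base_mul_k1Val e w 1
  rw [map_one, one_mul] at h1 h2
  have hA : Alt M e true (FreeGroup.reduce l) := by
    have := (FreeGroup.reduce.red : FreeGroup.Red l (FreeGroup.reduce l))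
    generalize FreeGroup.reduce l = r at this ⊢
    induction this with
    | refl => exact hl
    | tail _ hs ih => exact Alt.step hs ih
  have hred : FreeGroup.reduce (occ M e 1 w) = FreeGroup.reduce l := by
    rw [← FreeGroup.toWord_mk, ← FreeGroup.toWord_mk, ← h1, he]
  have hsub : List.Sublist (FreeGroup.reduce l) (occ M e 1 w) :=
    hred ▸ FreeGroup.Red.sublist FreeGroup.reduce.red
  obtain ⟨X, ⟨b, hb, hbX⟩, hX⟩ := core_aux π hF hG _ _ le_rfl hA 1 w hsub
  refine ⟨b, hb, ?_⟩
  rw [one_mul, FreeGroup.reduce.self] at hX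
  have h0 : phiL M π e (1 : K M) = 1 := by simp [phiL]
  rw [h0, one_mul, ← hbX] at hX
  rw [phi, he, h2, one_mul]
  exact hX.symm

end

end Vale.P193
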