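import Vale.Agent.P193.Layer.Defs
import Mathlib.Tactic.Group

/-!
P193 (M4): letters of `K1` and of `Bt`, the monodromy homomorphism, and one letter steps of `φ_L`, `φ_R`.
-/

namespace Vale.P193

noncomputable section

variable {n : ℕ} (M : Mach (Fin n))

/-- Letters of `K1`: lattice, rules, inputs, `t` (`false`) and `k` (`true`). -/
abbrev K1L : Type := Fin M.d ⊕ Fin M.nr ⊕ Fin n ⊕ Bool

/-- Letters of `Bt`: inputs and `β`. -/
abbrev BtL (n : ℕ) : Type := Fin n ⊕ Unit

/-- Values of the letters of `K1` after deleting `k`. -/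
def kLet : K1L M → K M
  | .inl j => gbK M (Y M (Pi.single j 1))
  | .inr (.inl i) => gbK M (R M i)
  | .inr (.inr (.inl a)) => xK M (FreeGroup.of a)
  | .inr (.inr (.inr false)) => Cent.k
  | .inr (.inr (.inr true)) => 1

/-- Value in `K` of a word, `k` deleted. -/
def kVal (w : Wd (K1L M)) : K M := wev (kLet M) w

/-- Values of the letters in `K1`. -/
def k1Let (e : ℕ) : K1L M → K1 M e
  | .inr (.inr (.inr true)) => Cent.k
  | l => Cent.base (kLet M l)

/-- Value in `K1` of a word. -/
def k1Val (e : ℕ) (w : Wd (K1L M)) : K1 M e := wev (k1Let M e) w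

/-- Value of a word in the lattice and rule letters. -/
def gVal (s : Wd (Fin M.d ⊕ Fin M.nr)) : Gb M :=
  wev (Sum.elim (fun j => Y M (Pi.single j 1)) (R M)) s

/-- Monodromy on the rules group. -/
def monoG : Gb M →* FreeGroup (Fin n) :=
  (multiCon (fun i => divSub (M.rule i).p) (fun i => divSub (M.rule i).p')
      (fun i => latEquiv (M.rule i))).lift
    (Monoid.Coprod.lift 1 (FreeGroup.lift fun i => FreeGroup.mk (M.tw i))) (Con.conGen_le.mpr (by
      rintro x y ⟨i, a, rfl, rfl⟩
      simp [Con.ker_rel]))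

@[simp] theorem monoG_Y (c : Cfg M.d) : monoG M (Y M c) = 1 := by
  show Monoid.Coprod.lift (1 : Lat M.d →* FreeGroup (Fin n))
    (FreeGroup.lift fun i => FreeGroup.mk (M.tw i)) (Monoid.Coprod.inl (Multiplicative.ofAdd c : Lat M.d)) = 1
  simp

@[simp] theorem monoG_R (i : Fin M.nr) : monoG M (R M i) = FreeGroup.mk (M.tw i) := by
  show Monoid.Coprod.lift (1 : Lat M.d →* FreeGroup (Fin n))
    (FreeGroup.lift fun i => FreeGroup.mk (M.tw i)) (Monoid.Coprod.inr (FreeGroup.of i)) = _
  simp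

theorem monoG_liftR (w : Wd (Fin M.nr)) : monoG M (liftR M w) = M.mono w := by
  have : (monoG M).comp (FreeGroup.lift (R M)) = FreeGroup.lift fun i => FreeGroup.mk (M.tw i) :=
    FreeGroup.ext_hom _ _ fun i => by simp
  exact DFunLike.congr_fun this (FreeGroup.mk w)

/-- The `Gb` component. -/
def gK : K M →* Gb M := (MonoidHom.fst _ _).comp SemidirectProduct.rightHom

/-- The monodromy of the rule part. -/
def sigK : K M →* FreeGroup (Fin n) := (monoG M).comp (gK M)

/-- Lifted words of rules. -/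
def Rsub : Subgroup (Gb M) := (FreeGroup.lift (R M)).range

/-- A `t`-letter at this base point sits over `root0`. -/
def Hit (e : ℕ) (m : M0 M) : Prop :=
  ∃ g : FreeGroup (Fin n), (m : M0 M ⧸ Hh M) = ((Y M (M.root0 e), g) : M0 M)

/-- Facts about the rules group used by the core lemma. -/
structure GbFacts (S : M.Spec) : Prop where
  valid : ∀ v c c', FreeGroup.IsReduced v →
    ((Y M c')⁻¹ * liftR M v * Y M c ∈ Subgroup.closure (Set.range (hRule M))) → M.Path v c c'
  split : ∀ (s : Wd (Fin M.d ⊕ Fin M.nr)) (w q0 : Wd (Fin M.nr)) (c0 : Cfg M.d),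
    gVal M s = liftR M w * Y M c0 * liftH M q0 → |c0 S.Vj| < 1 →
    ∃ (v q p : Wd (Fin M.nr)) (c : Cfg M.d), v.length ≤ s.length ∧
      gVal M s = liftR M v * Y M c * liftH M q ∧ M.Path p c0 c ∧
      FreeGroup.mk w = FreeGroup.mk v * FreeGroup.mk p ∧
      |c S.Vj| < (S.D : ℤ) ^ (5 * s.length + 2)

theorem hh_snd {m : M0 M} (hm : m ∈ Hh M) : m.2 = 1 := by
  have : Hh M ≤ (MonoidHom.snd (Gb M) (FreeGroup (Fin n))).ker :=
    (Subgroup.closure_le _).2 (by rintro _ ⟨i, rfl⟩; simp [Subgroup.mem_prod])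
  exact MonoidHom.mem_ker.1 (this hm)

theorem hh_fst {m : M0 M} (hm : m ∈ Hh M) : m.1 ∈ Subgroup.closure (Set.range (hRule M)) := by
  have : Hh M ≤ (Subgroup.closure (Set.range (hRule M))).comap
      (MonoidHom.fst (Gb M) (FreeGroup (Fin n))) :=
    (Subgroup.closure_le _).2 (by
      rintro _ ⟨i, rfl⟩; exact Subgroup.subset_closure ⟨i, rfl⟩)
  exact this hm

theorem hit_iff_fst {e : ℕ} {m : M0 M} :
    Hit M e m ↔ (Y M (M.root0 e))⁻¹ * m.1 ∈ Subgroup.closure (Set.range (hRule M)) := by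
  constructor
  · rintro ⟨g, hg⟩
    exact hh_fst M (QuotientGroup.eq.1 hg.symm)
  · intro h
    refine ⟨m.2, (QuotientGroup.eq.2 ?_).symm⟩
    have : (Subgroup.closure (Set.range (hRule M))).map (MonoidHom.inl _ (FreeGroup (Fin n))) ≤ Hh M := by
      rw [MonoidHom.map_closure, Hh]
      exact Subgroup.closure_mono (by rintro _ ⟨_, ⟨i, rfl⟩, rfl⟩; exact ⟨i, rfl⟩)
    have := this ⟨_, h, rfl⟩
    convert this using 1
    ext <;> simp

variable {B : Type} [Group B] (π : FreeGroup (Fin n) →* B)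

/-- Values of the letters of `Bt`. -/
def btLet : BtL n → Bt π :=
  Sum.elim (fun a => GraphHNN.inM (piTop π) (FreeGroup.of a)) fun _ => beta π

/-- Value in `Bt` of a word. -/
def btVal (b : Wd (BtL n)) : Bt π := wev (btLet π) b

open Classical in
/-- The value of one `t` at a base point. -/
def tStep (e : ℕ) (m : M0 M) : Bt π := if Hit M e m then beta π else 1

theorem phiL_mul_base (e : ℕ) (v : K M) (m : M0 M) :
    phiL M π e (v * Cent.base m) = phiL M π e v * GraphHNN.inM (piTop π) m.2 := by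
  simp [phiL, mul_assoc]

theorem phiR_mul_base (e : ℕ) (v : K M) (m : M0 M) :
    phiR M π e (v * Cent.base m) = phiR M π e v := by
  simp [phiR]

theorem mul_k_left (v : K M) :
    (v * Cent.k).left = v.left * FreeGroup.of (v.right : M0 M ⧸ Hh M) := by
  simp [Cent.k, Cent.centAct_of]

theorem rootVal_coe (e : ℕ) (left : Bool) (m : M0 M) :
    rootVal M π e left (m : M0 M ⧸ Hh M) =
      if left then GraphHNN.inM (piTop π) m.2 * tStep M π e m * (GraphHNN.inM (piTop π) m.2)⁻¹
      else tStep M π e m := by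
  classical
  unfold rootVal tStep Hit
  split_ifs with h hl
  · have hg := hh_snd M (QuotientGroup.eq.1 h.choose_spec)
    have : h.choose = m.2 := by
      have := hg
      simp only [Prod.snd_mul, Prod.snd_inv] at this
      exact (inv_mul_eq_one.1 this).symm
    rw [this]
  all_goals simp

theorem phiL_mul_k (e : ℕ) (v : K M) :
    phiL M π e (v * Cent.k) = phiL M π e v * tStep M π e v.right := by
  have hr : (v * Cent.k).right = v.right := by simp [Cent.k]
  rw [phiL, hr, mul_k_left, map_mul, FreeGroup.lift_apply_of, rootVal_coe, phiL]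
  simp [mul_assoc]

theorem phiR_mul_k (e : ℕ) (v : K M) :
    phiR M π e (v * Cent.k) = phiR M π e v * tStep M π e v.right := by
  rw [phiR, mul_k_left, map_mul, FreeGroup.lift_apply_of, rootVal_coe, phiR]
  simp

theorem phiL_mul_k_inv (e : ℕ) (v : K M) :
    phiL M π e (v * Cent.k⁻¹) = phiL M π e v * (tStep M π e v.right)⁻¹ := by
  have h := phiL_mul_k M π e (v * Cent.k⁻¹)
  rw [inv_mul_cancel_right] at h
  have hr : (v * (Cent.k : K M)⁻¹).right = v.right := by simp [Cent.k]
  rw [h, hr, mul_inv_cancel_right]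

theorem phiR_mul_k_inv (e : ℕ) (v : K M) :
    phiR M π e (v * Cent.k⁻¹) = phiR M π e v * (tStep M π e v.right)⁻¹ := by
  have h := phiR_mul_k M π e (v * Cent.k⁻¹)
  rw [inv_mul_cancel_right] at h
  have hr : (v * (Cent.k : K M)⁻¹).right = v.right := by simp [Cent.k]
  rw [h, hr, mul_inv_cancel_right]

/-- `u⁻¹ β u = β (π u)⁻¹`. -/
theorem beta_conj (u : FreeGroup (Fin n)) :
    (GraphHNN.inM (piTop π) u)⁻¹ * beta π * GraphHNN.inM (piTop π) u =
      beta π * (GraphHNN.inB (piTop π) (π u))⁻¹ := by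
  have h : GraphHNN.r (piTop π) * GraphHNN.inM (piTop π) u =
      GraphHNN.inM (piTop π) u * GraphHNN.inB (piTop π) (π u) * GraphHNN.r (piTop π) :=
    GraphHNN.r_conj (piTop π) ⟨u, trivial⟩
  simp only [beta]
  generalize GraphHNN.inM (piTop π) u = a at h ⊢
  generalize GraphHNN.inB (piTop π) (π u) = b at h ⊢
  generalize GraphHNN.r (piTop π) = r at h ⊢
  apply mul_left_cancel (a := r)
  calc r * (a⁻¹ * r⁻¹ * a) = r * a⁻¹ * r⁻¹ * a := by group
    _ = (r * a * r⁻¹)⁻¹ * a := by group
    _ = (a * b * r * r⁻¹)⁻¹ * a := by rw [h]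
    _ = b⁻¹ := by group
    _ = r * (r⁻¹ * b⁻¹) := by group

/-- Conjugates of `β` depend on the conjugator only modulo `ker π`. -/
theorem beta_zpow_conj_eq {u u' : FreeGroup (Fin n)} (h : π u = π u') (m : ℤ) :
    (GraphHNN.inM (piTop π) u)⁻¹ * beta π ^ m * GraphHNN.inM (piTop π) u =
      (GraphHNN.inM (piTop π) u')⁻¹ * beta π ^ m * GraphHNN.inM (piTop π) u' := by
  have h' := (beta_conj π u).trans ((beta_conj π u').trans (by rw [h])).symm
  generalize GraphHNN.inM (piTop π) u = a at h' ⊢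
  generalize GraphHNN.inM (piTop π) u' = b at h' ⊢
  have ha := conj_zpow (i := m) (a := a⁻¹) (b := beta π)
  have hb := conj_zpow (i := m) (a := b⁻¹) (b := beta π)
  rw [inv_inv] at ha hb
  rw [← ha, ← hb, h']

theorem beta_comm_of_ker {u : FreeGroup (Fin n)} (h : π u = 1) :
    beta π * GraphHNN.inM (piTop π) u = GraphHNN.inM (piTop π) u * beta π := by
  have := beta_conj π u
  rw [h, map_one, inv_one, mul_one] at this
  calc beta π * GraphHNN.inM (piTop π) u
      = GraphHNN.inM (piTop π) u *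
          ((GraphHNN.inM (piTop π) u)⁻¹ * beta π * GraphHNN.inM (piTop π) u) := by group
    _ = _ := by rw [this]

end

end Vale.P193
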