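import Vale.Agent.P193.Layer.Sys
import Mathlib.Tactic.Linarith

/-!
P193, M9: at a fixed point of the formulas, the certified words are exactly those outside `Q`.
-/

namespace Vale.P193

noncomputable section

variable {nG : ℕ} (M : Mach (Fin (11 + nG))) (L0 : ℕ) {G : Type} [Group G] (gG : Fin nG → G)
  (F : HForm (11 + nG))

/-- What the token level gives, for the parameter `e`. -/
structure TFacts (e : ℕ) : Prop where
  negT_sound : ∀ O1 : Wd (Fin 5) → Prop, (∀ a, O1 a → wev (tpar M L0 gG e).five a ≠ 1) →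
    ∀ v, (tpar M L0 gG e).NegT O1 (DrTe M L0 gG e) v →
      wev ((tpar M L0 gG e).emb.eVal (tpar M L0 gG e).tokVal) v ≠ 1
  negT_complete : ∀ O1 : Wd (Fin 5) → Prop, ∀ v,
    (∀ a, mu5 a ≤ 16 * wsum (EmbData.wE (tpar M L0 gG e).tokW) v →
      wev (tpar M L0 gG e).five a ≠ 1 → O1 a) →
    wev ((tpar M L0 gG e).emb.eVal (tpar M L0 gG e).tokVal) v ≠ 1 →
      (tpar M L0 gG e).NegT O1 (DrTe M L0 gG e) v
  notQT_complete : ∀ O1 O2 : Wd (Fin 5) → Prop, ∀ v,
    (∀ a, mu5 a ≤ 16 * wsum (EmbData.wE (tpar M L0 gG e).tokW) v →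
      wev (tpar M L0 gG e).five a ≠ 1 → O1 a) →
    (∀ a, mu5 a ≤ 16 * wsum (EmbData.wE (tpar M L0 gG e).tokW) v →
      wev (tpar M L0 gG e).five a ∉ Qe M L0 gG e → O2 a) →
    wev ((tpar M L0 gG e).emb.eVal (tpar M L0 gG e).tokVal) v ∉ (tpar M L0 gG e).Qsub →
      (tpar M L0 gG e).NotQT O1 O2 (DrTe M L0 gG e) v
  notQT_sound_k : ∀ O1 O2 : Wd (Fin 5) → Prop, ∀ v, ∀ k,
    (∀ a, O1 a → wev (tpar M L0 gG e).five a ≠ 1) →
    (∀ a q, O2 a → q * L0 ≤ 4 * (k + wsum (EmbData.wE (tpar M L0 gG e).tokW) v) →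
      wev (tpar M L0 gG e).five a ∉ Parse.Qk (tpar M L0 gG e).qv q) →
    (∀ i q, CertAt e i → 8 * mu5 i.1 + q * L0 ≤ 4 * (k + wsum (EmbData.wE (tpar M L0 gG e).tokW) v) →
      wev (tpar M L0 gG e).five i.1 ∉ Parse.Qk (tpar M L0 gG e).qv q) →
    (tpar M L0 gG e).NotQT O1 O2 (DrTe M L0 gG e) v → ∀ w : Wd (Fin 5), w.length ≤ k →
      wev ((tpar M L0 gG e).emb.eVal (tpar M L0 gG e).tokVal) v ≠ wev (tpar M L0 gG e).emb.five w

theorem wev_xW (p : TPar nG) (v : Wd (Fin (11 + nG))) :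
    wev (p.emb.eVal p.tokVal) (xW v) = p.piT (FreeGroup.mk v) := by
  rw [xW, wev_map]
  show wev (fun a => p.emb.eVal p.tokVal (xTok a)) v = wev p.tVal v
  congr 1
  funext a
  exact p.eVal_xTok a

theorem wsum_xW (p : TPar nG) (v : Wd (Fin (11 + nG))) :
    wsum (EmbData.wE p.tokW) (xW v) ≤ v.length := by
  induction v with
  | nil => simp [xW]
  | cons l v ih =>
    have h1 : EmbData.wE p.tokW (xTok l.1) ≤ 1 := by
      simp only [xTok]
      split_ifs <;> simp [EmbData.wE, EmbData.w5, TPar.tokW] <;> split_ifs <;> simp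
    simp only [xW, List.map_cons, wsum_cons, List.length_cons] at ih ⊢
    omega

variable {e : ℕ}
variable (hfix : ∀ m, (Nat.Partrec.Code.eval (Denumerable.ofNat Nat.Partrec.Code e) m).Dom ↔
  SysF M L0 gG F e m)

include hfix in
theorem ans_neg1 (u : Wd (Fin 5)) : Ans e 2 u ↔ Neg1F M L0 gG F e u := by
  rw [Ans, hfix]
  refine ⟨?_, fun h => Or.inr (Or.inr ⟨u, rfl, h⟩)⟩
  rintro (⟨h, -⟩ | ⟨g, hg, -⟩ | ⟨g, hg, h⟩)
  · simp at h
  · simp [Nat.pair_eq_pair] at hg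
  · simp only [Nat.pair_eq_pair, true_and] at hg
    rwa [Encodable.encode_injective hg]

include hfix in
theorem ans_negQ (u : Wd (Fin 5)) : Ans e 1 u ↔ NegQF M L0 gG F e u := by
  rw [Ans, hfix]
  refine ⟨?_, fun h => Or.inr (Or.inl ⟨u, rfl, h⟩)⟩
  rintro (⟨h, -⟩ | ⟨g, hg, h⟩ | ⟨g, hg, -⟩)
  · simp at h
  · simp only [Nat.pair_eq_pair, true_and] at hg
    rwa [Encodable.encode_injective hg]
  · simp [Nat.pair_eq_pair] at hg

include hfix in
theorem good_of_fix (hinj : Function.Injective (nOf (n := 11 + nG))) :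
    Good (tpar M L0 gG e).piT e := by
  intro v
  rw [Acc, hfix]
  constructor
  · rintro (⟨-, w, hw, h⟩ | ⟨g, hg, -⟩ | ⟨g, hg, -⟩)
    · rw [Nat.unpair_pair] at hw
      rwa [← hinj hw]
    · simp [Nat.pair_eq_pair] at hg
    · simp [Nat.pair_eq_pair] at hg
  · intro h
    exact Or.inl ⟨by simp, v, by simp, h⟩

variable (T : TFacts M L0 gG e) (H : HFacts M L0 gG F e) (hL : 20 * F.C + 8 ≤ L0)

/-- A nonempty query is lighter than its word. -/
theorem bnd_lt {u : Wd (Fin 5)} {v : Wd (Fin (11 + nG))} (hL : 20 * F.C + 8 ≤ L0) (hv : v ≠ [])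
    (hb : Bnd F.C L0 u List.length v) : 1 ≤ mu5 u ∧ v.length ≤ mu5 u := by
  have h1 : 1 ≤ v.length := List.length_pos_iff.2 hv
  unfold Bnd at hb
  have h2 : L0 ≤ v.length * L0 := Nat.le_mul_of_pos_left _ h1
  refine ⟨Nat.pos_of_ne_zero fun e0 => by rw [e0] at hb; omega, ?_⟩
  by_contra hlt
  have : (mu5 u + 1) * L0 ≤ v.length * L0 := Nat.mul_le_mul_right _ (by omega)
  have : (mu5 u + 1) * F.C ≤ (mu5 u + 1) * L0 := Nat.mul_le_mul_left _ (by omega)
  nlinarith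

theorem atom_lt {u a : Wd (Fin 5)} (hL : 20 * F.C + 8 ≤ L0) (hu : 1 ≤ mu5 u)
    (hb : Bnd (16 * F.C) L0 u mu5 a) : mu5 a < mu5 u := by
  by_contra hlt
  unfold Bnd at hb
  have : mu5 u * L0 ≤ mu5 a * L0 := Nat.mul_le_mul_right _ (by omega)
  nlinarith

theorem atom_bnd {u a : Wd (Fin 5)} {v : Wd (Fin (11 + nG))} (p : TPar nG)
    (hb : Bnd F.C L0 u List.length v) (ha : mu5 a ≤ 16 * wsum (EmbData.wE p.tokW) (xW v)) :
    Bnd (16 * F.C) L0 u mu5 a := by
  have h := wsum_xW p v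
  unfold Bnd at hb ⊢
  calc mu5 a * L0 ≤ 16 * v.length * L0 := Nat.mul_le_mul_right _ (ha.trans (Nat.mul_le_mul_left _ h))
    _ = 16 * (v.length * L0) := Nat.mul_assoc _ _ _
    _ ≤ 16 * (F.C * mu5 u) := Nat.mul_le_mul_left _ hb
    _ = 16 * F.C * mu5 u := (Nat.mul_assoc _ _ _).symm

include T hL in
theorem oT_sound (u : Wd (Fin 5))
    (IH : ∀ a, mu5 a < mu5 u → Ans e 2 a → wev (tpar M L0 gG e).five a ≠ 1)
    (v : Wd (Fin (11 + nG))) (h : OT M L0 gG F e u v) :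
    (tpar M L0 gG e).piT (FreeGroup.mk v) ≠ 1 := by
  obtain ⟨hv, hb, hneg⟩ := h
  rw [← wev_xW]
  exact T.negT_sound _ (fun a ha => IH a (atom_lt L0 F hL (bnd_lt L0 F hL hv hb).1 ha.1) ha.2) _ hneg

include T hL in
theorem oT_complete (u : Wd (Fin 5))
    (IH : ∀ a, mu5 a < mu5 u → wev (tpar M L0 gG e).five a ≠ 1 → Ans e 2 a)
    (v : Wd (Fin (11 + nG))) (hb : Bnd F.C L0 u List.length v)
    (h : (tpar M L0 gG e).piT (FreeGroup.mk v) ≠ 1) : OT M L0 gG F e u v := by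
  have hv : v ≠ [] := by rintro rfl; exact h (by simp [← FreeGroup.one_eq_mk])
  refine ⟨hv, hb, T.negT_complete _ _ (fun a ha hne => ?_) (by rwa [wev_xW])⟩
  have hab := atom_bnd L0 F (tpar M L0 gG e) hb ha
  exact ⟨hab, IH a (atom_lt L0 F hL (bnd_lt L0 F hL hv hb).1 hab) hne⟩

include hfix T H hL in
theorem neg1_iff : ∀ u : Wd (Fin 5), Ans e 2 u ↔ wev (tpar M L0 gG e).five u ≠ 1 := by
  suffices ∀ m, ∀ u : Wd (Fin 5), mu5 u = m → (Ans e 2 u ↔ wev (tpar M L0 gG e).five u ≠ 1) from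
    fun u => this _ u rfl
  intro m
  induction m using Nat.strong_induction_on with | _ m IH => ?_
  rintro u rfl
  rw [ans_neg1 M L0 gG F hfix]
  exact ⟨H.negH_sound u _ fun v _ hv => oT_sound M L0 gG F T hL u (fun a ha => (IH _ ha a rfl).1) v hv,
    H.negH_complete u _ fun v hb hv => oT_complete M L0 gG F T hL u (fun a ha => (IH _ ha a rfl).2) v hb hv⟩

include hfix T H hL in
theorem ot_iff (u : Wd (Fin 5)) :
    (∀ v, OT M L0 gG F e u v → (tpar M L0 gG e).piT (FreeGroup.mk v) ≠ 1) ∧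
      ∀ v, Bnd F.C L0 u List.length v → (tpar M L0 gG e).piT (FreeGroup.mk v) ≠ 1 →
        OT M L0 gG F e u v :=
  ⟨oT_sound M L0 gG F T hL u fun a _ => (neg1_iff M L0 gG F hfix T H hL a).1,
    oT_complete M L0 gG F T hL u fun a _ => (neg1_iff M L0 gG F hfix T H hL a).2⟩

include H in
theorem th_five (j : Fin 5) : H.th ((tpar M L0 gG e).emb.five j) = (tpar M L0 gG e).qv j := by
  have h := H.th_val [(⟨6 + j, by omega⟩, true)]
  have h1 : (tpar M L0 gG e).piT (FreeGroup.mk [(⟨6 + j, by omega⟩, true)]) =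
      (tpar M L0 gG e).emb.five j := by
    show wev (tpar M L0 gG e).tVal [_] = _
    rw [wev_pos]
    simp [TPar.tVal, show ¬ 6 + (j : ℕ) < 5 from by omega, show ¬ 6 + (j : ℕ) = 5 from by omega,
      show 6 + (j : ℕ) < 11 from by omega]
  rw [h1] at h
  simpa [thW, letW] using h

include H in
theorem map_Qsub : (tpar M L0 gG e).Qsub.map H.th = Qe M L0 gG e := by
  rw [TPar.Qsub, MonoidHom.map_closure, Qe, ← Set.range_comp]
  congr 1
  exact congrArg Set.range (funext (th_five M L0 gG F H))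

include hfix T H hL in
theorem negQ_of_notMem : ∀ u : Wd (Fin 5), wev (tpar M L0 gG e).five u ∉ Qe M L0 gG e → Ans e 1 u := by
  suffices ∀ m, ∀ u : Wd (Fin 5), mu5 u = m → wev (tpar M L0 gG e).five u ∉ Qe M L0 gG e → Ans e 1 u from
    fun u => this _ u rfl
  intro m
  induction m using Nat.strong_induction_on with | _ m IH => ?_
  rintro u rfl hu
  rw [ans_negQ M L0 gG F hfix]
  by_cases hr : wev (tpar M L0 gG e).five u ∈ H.th.range
  · obtain ⟨x, hx⟩ := hr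
    obtain ⟨v, hb, hvx⟩ := H.bWord u x hx.symm
    have hxQ : x ∉ (tpar M L0 gG e).Qsub := fun h => hu (by
      rw [← map_Qsub M L0 gG F H, ← hx]; exact Subgroup.mem_map_of_mem _ h)
    have hv : v ≠ [] := by
      rintro rfl
      refine hxQ ?_
      rw [← hvx, ← FreeGroup.one_eq_mk, map_one]
      exact one_mem _
    refine Or.inr ⟨v, hv, hb, ?_, T.notQT_complete _ _ _ (fun a ha hne => ⟨atom_bnd L0 F _ hb ha,
      (neg1_iff M L0 gG F hfix T H hL a).2 hne⟩) (fun a ha hne => ?_) (by rwa [wev_xW, hvx])⟩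
    · rw [wev_weq, ← H.th_val, hvx]; exact hx
    · have hab := atom_bnd L0 F (tpar M L0 gG e) hb ha
      exact ⟨hab, IH _ (atom_lt L0 F hL (bnd_lt L0 F hL hv hb).1 hab) a rfl hne⟩
  · exact Or.inl (H.notTH_complete u _ (ot_iff M L0 gG F hfix T H hL u).2 hr)

include hfix T H hL in
theorem negQ_sound : ∀ (u : Wd (Fin 5)) (k : ℕ), Ans e 1 u →
    wev (tpar M L0 gG e).five u ∉ Parse.Qk (tpar M L0 gG e).qv k := by
  suffices ∀ N, ∀ (u : Wd (Fin 5)) (k : ℕ), mu5 u + k = N → Ans e 1 u →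
      wev (tpar M L0 gG e).five u ∉ Parse.Qk (tpar M L0 gG e).qv k from fun u k => this _ u k rfl
  intro N
  induction N using Nat.strong_induction_on with | _ N IH => ?_
  rintro u k rfl hA ⟨w, hw, he⟩
  rw [ans_negQ M L0 gG F hfix] at hA
  have hth : wev (tpar M L0 gG e).five u = H.th (wev (tpar M L0 gG e).emb.five w) := by
    rw [hom_wev, ← he]
    exact congrArg (fun f => wev f w) (funext fun j => (th_five M L0 gG F H j).symm)
  rcases hA with hA | ⟨v, hv, hb, heq, hN⟩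
  · exact H.notTH_sound u _ (fun v _ => (ot_iff M L0 gG F hfix T H hL u).1 v) hA ⟨_, hth.symm⟩
  · obtain ⟨hu1, hvu⟩ := bnd_lt L0 F hL hv hb
    have hW := (wsum_xW (tpar M L0 gG e) v).trans hvu
    rw [wev_weq, ← H.th_val] at heq
    refine T.notQT_sound_k _ _ _ k (fun a ha => (neg1_iff M L0 gG F hfix T H hL a).1 ha.2)
      (fun a q ha hq => ?_) (fun i q hi hq => ?_) hN w hw ?_
    · refine IH (mu5 a + q) ?_ a q rfl ha.2
      have hb' := ha.1
      have hlen := wsum_xW (tpar M L0 gG e) v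
      unfold Bnd at hb hb'
      have h8 : wsum (EmbData.wE (tpar M L0 gG e).tokW) (xW v) * L0 ≤ F.C * mu5 u :=
        (Nat.mul_le_mul_right _ hlen).trans hb
      by_contra hlt
      have : (mu5 u + k) * L0 ≤ (mu5 a + q) * L0 := Nat.mul_le_mul_right _ (by omega)
      have : 8 ≤ L0 := by omega
      nlinarith
    · refine IH (mu5 i.1 + q) ?_ i.1 q rfl ((ans_one_iff e i.1).2 ⟨i.2, hi⟩)
      have : 8 * q ≤ q * L0 := by nlinarith
      omega
    · rw [wev_xW]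
      exact H.th_inj (heq.trans hth)

include hfix T H hL in
/-- The certified words are exactly those outside `Q`. -/
theorem cert_iff (g : Wd (Fin 5)) :
    (∃ s, CertAt e (g, s)) ↔ wev (tpar M L0 gG e).five g ∉ Qe M L0 gG e := by
  rw [← ans_one_iff]
  refine ⟨fun h hmem => ?_, negQ_of_notMem M L0 gG F hfix T H hL g⟩
  rw [Qe, ← FreeGroup.range_lift_eq_closure] at hmem
  obtain ⟨x, hx⟩ := hmem
  obtain ⟨w, rfl⟩ : ∃ w, FreeGroup.mk w = x := Quot.exists_rep x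
  exact negQ_sound M L0 gG F hfix T H hL g w.length h ⟨w, le_rfl, hx⟩

end

end Vale.P193
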