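import Vale.Agent.P193.Layer.Defs
import Mathlib.Computability.Primrec.List

/-!
P193: the letters of `H0` as a sum type; their coding.
-/

namespace Vale.P193

/-- The letters of `H0` as a sum: letters of `K1`, letters of `Bt`, and the rope. -/
def g0Equiv (d nr n : ℕ) :
    G0 d nr n ≃ (Fin d ⊕ Fin nr ⊕ Fin n ⊕ Bool) ⊕ ((Fin n ⊕ (Fin n ⊕ Unit)) ⊕ Unit) where
  toFun
    | .y j => .inl (.inl j)
    | .r i => .inl (.inr (.inl i))
    | .x a => .inl (.inr (.inr (.inl a)))
    | .t => .inl (.inr (.inr (.inr false)))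
    | .k => .inl (.inr (.inr (.inr true)))
    | .xa a => .inr (.inl (.inl a))
    | .xb a => .inr (.inl (.inr (.inl a)))
    | .beta => .inr (.inl (.inr (.inr ())))
    | .rope => .inr (.inr ())
  invFun
    | .inl (.inl j) => .y j
    | .inl (.inr (.inl i)) => .r i
    | .inl (.inr (.inr (.inl a))) => .x a
    | .inl (.inr (.inr (.inr false))) => .t
    | .inl (.inr (.inr (.inr true))) => .k
    | .inr (.inl (.inl a)) => .xa a
    | .inr (.inl (.inr (.inl a))) => .xb a
    | .inr (.inl (.inr (.inr _))) => .beta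
    | .inr (.inr _) => .rope
  left_inv g := by cases g <;> rfl
  right_inv := by
    rintro ((j | i | a | b) | ((a | a | u) | u)) <;> first | rfl | (cases b <;> rfl)

instance g0Primcodable (d nr n : ℕ) : Primcodable (G0 d nr n) :=
  Primcodable.ofEquiv _ (g0Equiv d nr n)

theorem primrec_g0Equiv (d nr n : ℕ) : Primrec (g0Equiv d nr n) :=
  Primrec.of_equiv

theorem primrec_g0Equiv_symm (d nr n : ℕ) : Primrec (g0Equiv d nr n).symm :=
  Primrec.of_equiv_symm

end Vale.P193
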