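import Vale.Agent.P193.Layer.Split
import Vale.Agent.P193.WordLemmas
import Vale.Agent.P193.RE
import Vale.Agent.P193.Mach.Calc

/-!
P193: the word problem of the rules group is primitive recursive (push-left normal form), hence so are membership
in the subgroups `closure (range hRule)` and `range liftR`.
-/

namespace Vale.P193

open HNNExtension HNNExtension.NormalWord Encodable

namespace GbDec

/-- Cases over a finite first argument. -/
theorem primrec₂_finite {α β σ : Type*} [Primcodable α] [Finite α] [Primcodable β] [Primcodable σ]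
    {f : α → β → σ} (h : ∀ a, Primrec (f a)) : Primrec₂ f := by
  obtain ⟨k, ⟨e⟩⟩ := Finite.exists_equiv_fin α
  have h1 : Primrec₂ fun i b => f (e.symm i) b := Primrec.fin_curry₁.2 fun i => h (e.symm i)
  have h2 : Primrec fun p : α × β => f p.1 p.2 :=
    (h1.comp ((Primrec.dom_finite e).comp Primrec.fst) Primrec.snd).of_eq fun p => by simp
  exact h2.to₂

/-- Difference of naturals as an integer. -/
theorem primrec_diff : Primrec₂ fun p q : ℕ => (p : ℤ) - (q : ℤ) := by
  refine Primrec.encode_iff.1 (?_ : Primrec fun x : ℕ × ℕ => encode ((x.1 : ℤ) - (x.2 : ℤ)))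
  refine (Primrec.ite (Primrec.nat_le.comp Primrec.snd Primrec.fst)
    (Primrec.nat_mul.comp (Primrec.const 2) (Primrec.nat_sub.comp Primrec.fst Primrec.snd))
    (Primrec.nat_sub.comp (Primrec.nat_mul.comp (Primrec.const 2)
      (Primrec.nat_sub.comp Primrec.snd Primrec.fst)) (Primrec.const 1))).of_eq ?_
  rintro ⟨p, q⟩
  dsimp only
  split_ifs with h
  · rw [← Int.ofNat_sub h]
    rfl
  · obtain ⟨k, rfl⟩ : ∃ k, q = p + k + 1 := ⟨q - p - 1, by omega⟩
    rw [show ((p : ℤ) - ((p + k + 1 : ℕ) : ℤ)) = Int.negSucc k by omega,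
      show p + k + 1 - p = k + 1 by omega]
    show _ = 2 * k + 1
    omega

theorem primrec_negPart : Primrec fun x : ℤ => (-x).toNat := by
  refine (Primrec.ite (Primrec.eq.comp (Primrec.nat_mod.comp Primrec.encode (Primrec.const 2))
    (Primrec.const 0)) (Primrec.const 0)
    (Primrec.nat_div.comp (Primrec.nat_add.comp Primrec.encode (Primrec.const 1)) (Primrec.const 2))).of_eq ?_
  rintro (n | n)
  · show (if (2 * n) % 2 = 0 then 0 else (2 * n + 1) / 2) = _
    simp
  · show (if (2 * n + 1) % 2 = 0 then 0 else (2 * n + 1 + 1) / 2) = n + 1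
    rw [if_neg (by omega)]
    omega

theorem primrec_add : Primrec₂ fun x y : ℤ => x + y := by
  refine (?_ : Primrec fun p : ℤ × ℤ => p.1 + p.2).to₂
  refine (primrec_diff.comp
    (Primrec.nat_add.comp (Calc.primrec_toNat.comp Primrec.fst) (Calc.primrec_toNat.comp Primrec.snd))
    (Primrec.nat_add.comp (primrec_negPart.comp Primrec.fst) (primrec_negPart.comp Primrec.snd))).of_eq
      fun p => ?_
  push_cast
  omega

theorem primrec_scale (p q : ℕ) :
    Primrec fun x : ℤ => ((x.toNat / p * q : ℕ) : ℤ) - (((-x).toNat / p * q : ℕ) : ℤ) :=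
  primrec_diff.comp
    (Primrec.nat_mul.comp (Primrec.nat_div.comp Calc.primrec_toNat (Primrec.const p)) (Primrec.const q))
    (Primrec.nat_mul.comp (Primrec.nat_div.comp primrec_negPart (Primrec.const p)) (Primrec.const q))

theorem scale_eq {p q : ℕ} {x : ℤ} (h : (p : ℤ) ∣ x) :
    ((x.toNat / p * q : ℕ) : ℤ) - (((-x).toNat / p * q : ℕ) : ℤ) = (q : ℤ) * (x / (p : ℤ)) := by
  obtain ⟨u, rfl⟩ := h
  rcases Nat.eq_zero_or_pos p with rfl | hp
  · simp
  rw [Int.mul_ediv_cancel_left _ (by exact_mod_cast hp.ne')]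
  rcases Int.eq_nat_or_neg u with ⟨k, rfl | rfl⟩
  · rw [← Nat.cast_mul, Int.toNat_natCast, Int.toNat_neg_natCast, Nat.mul_div_cancel_left _ hp,
      Nat.zero_div, Nat.zero_mul, Nat.cast_zero, sub_zero, Nat.cast_mul, mul_comm]
  · rw [mul_neg, neg_neg, ← Nat.cast_mul, Int.toNat_natCast, Int.toNat_neg_natCast,
      Nat.mul_div_cancel_left _ hp, Nat.zero_div, Nat.zero_mul, Nat.cast_zero, zero_sub,
      Nat.cast_mul, mul_comm, mul_neg]

theorem primrec_dvd (p : ℕ) : Primrec fun x : ℤ => decide ((x.toNat + (-x).toNat) % p = 0) :=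
  (Primrec.eq.comp (Primrec.nat_mod.comp (Primrec.nat_add.comp Calc.primrec_toNat primrec_negPart)
    (Primrec.const p)) (Primrec.const 0)).decide

theorem dvd_iff (p : ℕ) (x : ℤ) : (x.toNat + (-x).toNat) % p = 0 ↔ (p : ℤ) ∣ x := by
  rw [← Nat.dvd_iff_mod_eq_zero, Int.natCast_dvd, show x.toNat + (-x).toNat = x.natAbs by omega]

theorem primrec_vec {α : Type*} [Primcodable α] {d : ℕ} {f : α → Fin d → ℤ}
    (h : ∀ j, Primrec fun a => f a j) : Primrec f :=
  Primrec.fin_curry.2 ((Primrec.fin_curry₁.2 h).comp Primrec.snd Primrec.fst).to₂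

end GbDec

open GbDec

variable {n : ℕ} (M : Mach (Fin n))

/-- A form: a lattice head and rule letters, each followed by a lattice entry. -/
abbrev GForm : Type := Cfg M.d × List ((Fin M.nr × Bool) × Cfg M.d)

/-- The empty form. -/
def gZero : GForm M := (0, [])

/-- Scales at the side of a signed rule that it leaves. -/
def srcP (a : Fin M.nr × Bool) : Fin M.d → ℕ := cond a.2 (M.rule a.1).p (M.rule a.1).p'

/-- Scales at the side that it enters. -/
def dstP (a : Fin M.nr × Bool) : Fin M.d → ℕ := cond a.2 (M.rule a.1).p' (M.rule a.1).p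

/-- The test of a pinch. -/
def inLat (a : Fin M.nr × Bool) (g : Cfg M.d) : Bool :=
  decide (∀ j, ((g j).toNat + (-(g j)).toNat) % srcP M a j = 0)

/-- The image of a lattice entry. -/
def latImg (a : Fin M.nr × Bool) (g : Cfg M.d) : Cfg M.d := fun j =>
  (((g j).toNat / srcP M a j * dstP M a j : ℕ) : ℤ) -
    (((-(g j)).toNat / srcP M a j * dstP M a j : ℕ) : ℤ)

/-- A lattice vector from the left. -/
def pushY (c : Cfg M.d) (f : GForm M) : GForm M := (fun j => c j + f.1 j, f.2)

/-- A rule letter from the left. -/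
def pushR (a : Fin M.nr × Bool) (f : GForm M) : GForm M :=
  match f.2 with
  | [] => (0, [(a, f.1)])
  | (b, k) :: l =>
    bif decide (b = (a.1, !a.2)) && inLat M a f.1 then (fun j => latImg M a f.1 j + k j, l)
    else (0, (a, f.1) :: (b, k) :: l)

/-- A letter of the alphabet from the left. -/
def pushL : (Fin M.d ⊕ Fin M.nr) × Bool → GForm M → GForm M
  | (.inl j, b) => pushY M (cond b (Pi.single j 1) (-Pi.single j 1))
  | (.inr i, b) => pushR M (i, b)

/-- A letter `h_i` from the left. -/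
def pushH (a : Fin M.nr × Bool) (f : GForm M) : GForm M :=
  pushY M (cond a.2 (-(M.rule a.1).c1) (-(M.rule a.1).c0))
    (pushR M a (pushY M (cond a.2 (M.rule a.1).c0 (M.rule a.1).c1) f))

theorem primrec_pushY (c : Cfg M.d) : Primrec (pushY M c) :=
  (primrec_vec fun j => primrec_add.comp (Primrec.const (c j))
    (Primrec.fin_app.comp Primrec.fst (Primrec.const j))).pair Primrec.snd

theorem primrec_pushR (a : Fin M.nr × Bool) : Primrec (pushR M a) := by
  have hlat : Primrec (inLat M a) := Calc.primrec_forall_fin fun j =>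
    (primrec_dvd (srcP M a j)).comp (Primrec.fin_app.comp Primrec.id (Primrec.const j))
  have himg : ∀ j, Primrec fun g : Cfg M.d => latImg M a g j := fun j =>
    (primrec_scale _ _).comp (Primrec.fin_app.comp Primrec.id (Primrec.const j))
  have hz : Primrec fun _ : GForm M => (0 : Cfg M.d) := Primrec.const _
  refine (Primrec.list_casesOn (f := fun f : GForm M => f.2)
    (g := fun f => ((0 : Cfg M.d), [(a, f.1)]))
    (h := fun f (p : ((Fin M.nr × Bool) × Cfg M.d) × List ((Fin M.nr × Bool) × Cfg M.d)) =>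
      bif decide (p.1.1 = (a.1, !a.2)) && inLat M a f.1 then
        ((fun j => latImg M a f.1 j + p.1.2 j), p.2)
      else (0, (a, f.1) :: p.1 :: p.2))
    Primrec.snd (hz.pair (Primrec.list_cons.comp ((Primrec.const a).pair Primrec.fst)
      (Primrec.const []))) ?_).of_eq fun f => ?_
  · have hf1 : Primrec fun x : GForm M ×
        (((Fin M.nr × Bool) × Cfg M.d) × List ((Fin M.nr × Bool) × Cfg M.d)) => x.1.1 :=
      Primrec.fst.comp Primrec.fst
    have hhd := Primrec.fst.comp (Primrec.snd (α := GForm M)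
      (β := ((Fin M.nr × Bool) × Cfg M.d) × List ((Fin M.nr × Bool) × Cfg M.d)))
    have htl := Primrec.snd.comp (Primrec.snd (α := GForm M)
      (β := ((Fin M.nr × Bool) × Cfg M.d) × List ((Fin M.nr × Bool) × Cfg M.d)))
    exact (Primrec.cond (Primrec.and.comp
        (Primrec.eq.comp (Primrec.fst.comp hhd) (Primrec.const (a.1, !a.2))).decide (hlat.comp hf1))
      ((primrec_vec fun j => primrec_add.comp ((himg j).comp hf1)
        (Primrec.fin_app.comp (Primrec.snd.comp hhd) (Primrec.const j))).pair htl)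
      ((Primrec.const (0 : Cfg M.d)).pair (Primrec.list_cons.comp ((Primrec.const a).pair hf1)
        (Primrec.list_cons.comp hhd htl)))).to₂
  · obtain ⟨g, l⟩ := f
    cases l <;> rfl

theorem primrec_pushL : Primrec₂ (pushL M) :=
  primrec₂_finite fun l => by
    obtain ⟨j | i, b⟩ := l
    · exact primrec_pushY M _
    · exact primrec_pushR M _

theorem primrec_pushH : Primrec₂ (pushH M) :=
  primrec₂_finite fun a =>
    (primrec_pushY M _).comp ((primrec_pushR M a).comp (primrec_pushY M _))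

/-- Push a word over a form. -/
def pushWord {β : Type} (push : β → GForm M → GForm M) (s : List β) (f : GForm M) : GForm M :=
  s.foldr push f

theorem primrec_pushWord {β : Type} [Primcodable β] {push : β → GForm M → GForm M}
    (h : Primrec₂ push) : Primrec₂ (pushWord M push) :=
  (Primrec.list_foldr Primrec.fst Primrec.snd
    (h.comp (Primrec.fst.comp Primrec.snd) (Primrec.snd.comp Primrec.snd)).to₂).to₂

noncomputable section

/-- A form as signed letters. -/
def formLett (l : List ((Fin M.nr × Bool) × Cfg M.d)) : List (Hnn.Lett (Lat M.d) M.nr) :=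
  l.map fun p => (p.1.1, sgnU p.1.2, Multiplicative.ofAdd p.2)

/-- Value of a form. -/
def gfVal (f : GForm M) : Gb M :=
  Hnn.val (gbModel M).ι (gbModel M).τ (Multiplicative.ofAdd f.1) (formLett M f.2)

/-- A form without pinch. -/
def GfRed (f : GForm M) : Prop := Hnn.Red (gbPairs M) (formLett M f.2)

theorem gfVal_eq_one_iff {f : GForm M} (h : GfRed M f) : gfVal M f = 1 ↔ f = gZero M := by
  constructor
  · intro h1
    obtain ⟨g, l⟩ := f
    have hl := (gbModel M).britton _ _ h ⟨1, by rw [map_one]; exact h1.symm⟩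
    obtain rfl : l = [] := List.map_eq_nil_iff.1 hl
    have hg : (gbModel M).ι (Multiplicative.ofAdd g) = (gbModel M).ι 1 := by
      rw [map_one]
      simpa [gfVal, formLett, Hnn.val] using h1
    have hg0 : g = 0 := Multiplicative.ofAdd.injective ((gbModel M).inj hg)
    rw [hg0]
    rfl
  · rintro rfl
    simp [gfVal, gZero, formLett, Hnn.val]

theorem pushY_spec (c : Cfg M.d) {f : GForm M} (h : GfRed M f) :
    GfRed M (pushY M c f) ∧ gfVal M (pushY M c f) = Y M c * gfVal M f := by
  refine ⟨h, ?_⟩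
  exact Hnn.val_mul_left (gbModel M) (Multiplicative.ofAdd c) (Multiplicative.ofAdd f.1) _

theorem sgnU_not (b : Bool) : sgnU (!b) = -sgnU b := by cases b <;> simp [sgnU]

theorem inLat_iff (a : Fin M.nr × Bool) (g : Cfg M.d) :
    inLat M a g = true ↔ Multiplicative.ofAdd g ∈
      toSubgroup (gbPairs M a.1).A (gbPairs M a.1).B (sgnU a.2) := by
  simp only [inLat, decide_eq_true_eq, dvd_iff]
  obtain ⟨i, b⟩ := a
  cases b <;> rfl

theorem latImg_eq (a : Fin M.nr × Bool) {g : Cfg M.d}
    (hg : Multiplicative.ofAdd g ∈ toSubgroup (gbPairs M a.1).A (gbPairs M a.1).B (sgnU a.2)) :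
    (toSubgroupEquiv (gbPairs M a.1).φ (sgnU a.2) ⟨_, hg⟩ : Lat M.d) =
      Multiplicative.ofAdd (latImg M a g) := by
  apply Multiplicative.toAdd.injective
  funext j
  obtain ⟨i, b⟩ := a
  cases b
  · exact (scale_eq (p := (M.rule i).p' j) (q := (M.rule i).p j) (x := g j) (hg j)).symm
  · exact (scale_eq (p := (M.rule i).p j) (q := (M.rule i).p' j) (x := g j) (hg j)).symm

theorem pushR_spec (a : Fin M.nr × Bool) {f : GForm M} (h : GfRed M f) :
    GfRed M (pushR M a f) ∧
      gfVal M (pushR M a f) = (gbModel M).τ a.1 ^ (sgnU a.2 : ℤ) * gfVal M f := by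
  obtain ⟨g, l⟩ := f
  have hcons : ∀ l', gfVal M ((0 : Cfg M.d), (a, g) :: l') =
      (gbModel M).τ a.1 ^ (sgnU a.2 : ℤ) * gfVal M (g, l') := fun l' => by
    show Hnn.val (gbModel M).ι (gbModel M).τ 1 ((a.1, sgnU a.2, Multiplicative.ofAdd g) :: formLett M l') = _
    rw [Hnn.val_cons, map_one, one_mul]
    rfl
  rcases l with _ | ⟨⟨b, k⟩, l⟩
  · exact ⟨List.isChain_singleton _, hcons []⟩
  simp only [pushR]
  cases hc : decide (b = (a.1, !a.2)) && inLat M a g
  · simp only [cond_false]
    refine ⟨List.isChain_cons.2 ⟨fun b' hb hm hi => ?_, h⟩, hcons _⟩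
    simp only [formLett, List.map_cons, List.head?_cons, Option.mem_def, Option.some.injEq] at hb
    subst hb
    by_contra hne
    dsimp only at hm hi hne
    have hb' : b = (a.1, !a.2) := by
      obtain ⟨i', b'⟩ := b
      obtain ⟨i, s⟩ := a
      dsimp only at hi hne
      subst hi
      cases b' <;> cases s <;> simp_all
    simp [hb', (inLat_iff M a g).2 hm] at hc
  · simp only [cond_true]
    simp only [Bool.and_eq_true, decide_eq_true_eq] at hc
    obtain ⟨rfl, hlat⟩ := hc
    have hm := (inLat_iff M a g).1 hlat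
    refine ⟨(List.isChain_cons.1 h).2, ?_⟩
    rw [← hcons]
    show Hnn.val _ _ (Multiplicative.ofAdd (fun j => latImg M a g j + k j)) _ =
      Hnn.val _ _ 1 ((a.1, sgnU a.2, Multiplicative.ofAdd g) ::
        (a.1, sgnU (!a.2), Multiplicative.ofAdd k) :: formLett M l)
    rw [sgnU_not, Hnn.val_pinch (gbModel M) hm, latImg_eq M a hm, one_mul, ← ofAdd_add]
    rfl

theorem pushL_spec (l : (Fin M.d ⊕ Fin M.nr) × Bool) {f : GForm M} (h : GfRed M f) :
    GfRed M (pushL M l f) ∧ gfVal M (pushL M l f) = gVal M [l] * gfVal M f := by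
  obtain ⟨j | i, b⟩ := l
  · obtain ⟨h1, h2⟩ := pushY_spec M (cond b (Pi.single j 1) (-Pi.single j 1)) h
    refine ⟨h1, h2.trans ?_⟩
    have hy : (Y M (Pi.single j 1))⁻¹ = Y M (-Pi.single j 1) :=
      (map_inv (MultiHNN.of _ _ _) (Multiplicative.ofAdd (Pi.single j 1))).symm
    cases b <;> simp [gVal, wev, hy]
  · obtain ⟨h1, h2⟩ := pushR_spec M (i, b) h
    refine ⟨h1, h2.trans ?_⟩
    cases b <;> simp [gVal, wev, sgnU, gbModel]

theorem pushH_spec (a : Fin M.nr × Bool) {f : GForm M} (h : GfRed M f) :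
    GfRed M (pushH M a f) ∧ gfVal M (pushH M a f) = liftH M [a] * gfVal M f := by
  obtain ⟨h1, e1⟩ := pushY_spec M (cond a.2 (M.rule a.1).c0 (M.rule a.1).c1) h
  obtain ⟨h2, e2⟩ := pushR_spec M a h1
  obtain ⟨h3, e3⟩ := pushY_spec M (cond a.2 (-(M.rule a.1).c1) (-(M.rule a.1).c0)) h2
  refine ⟨h3, e3.trans ?_⟩
  rw [e2, e1]
  have hy : ∀ c : Cfg M.d, (Y M c)⁻¹ = Y M (-c) := fun c =>
    (map_inv (MultiHNN.of _ _ _) (Multiplicative.ofAdd c)).symm
  obtain ⟨i, b⟩ := a
  cases b <;> simp [liftH, wev, hRule, sgnU, gbModel, ← hy, mul_assoc]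

theorem pushWord_spec {β α : Type} {push : β × Bool → GForm M → GForm M} {v : β → α}
    (val : Wd β → Gb M) (hnil : val [] = 1) (hc : ∀ l s, val (l :: s) = val [l] * val s)
    (h : ∀ l {f}, GfRed M f → GfRed M (push l f) ∧ gfVal M (push l f) = val [l] * gfVal M f) :
    ∀ (s : Wd β) {f}, GfRed M f →
      GfRed M (pushWord M push s f) ∧ gfVal M (pushWord M push s f) = val s * gfVal M f
  | [], f, hf => ⟨hf, by rw [hnil, one_mul]; rfl⟩
  | l :: s, f, hf => by
    obtain ⟨h1, h2⟩ := pushWord_spec (v := v) val hnil hc h s hf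
    obtain ⟨h3, h4⟩ := h l h1
    exact ⟨h3, h4.trans (by rw [h2, hc l s, mul_assoc])⟩

theorem gVal_spec (s : Wd (Fin M.d ⊕ Fin M.nr)) {f : GForm M} (h : GfRed M f) :
    GfRed M (pushWord M (pushL M) s f) ∧ gfVal M (pushWord M (pushL M) s f) = gVal M s * gfVal M f :=
  pushWord_spec M (v := id) (gVal M) (wev_nil _) (fun l s => by rw [gVal, gVal, gVal, ← wev_append, List.singleton_append])
    (fun l _ hf => pushL_spec M l hf) s h

theorem liftH_spec (q : Wd (Fin M.nr)) {f : GForm M} (h : GfRed M f) :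
    GfRed M (pushWord M (pushH M) q f) ∧ gfVal M (pushWord M (pushH M) q f) = liftH M q * gfVal M f :=
  pushWord_spec M (v := id) (liftH M) (wev_nil _)
    (fun l s => by rw [liftH, liftH, liftH, ← wev_append, List.singleton_append])
    (fun l _ hf => pushH_spec M l hf) q h

theorem gfRed_zero : GfRed M (gZero M) := List.isChain_nil

/-- The word problem. -/
theorem gVal_eq_one_iff (s : Wd (Fin M.d ⊕ Fin M.nr)) :
    gVal M s = 1 ↔ pushWord M (pushL M) s (gZero M) = gZero M := by
  obtain ⟨h1, h2⟩ := gVal_spec M s (gfRed_zero M)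
  rw [(gfVal_eq_one_iff M (gfRed_zero M)).2 rfl, mul_one] at h2
  rw [← h2]
  exact gfVal_eq_one_iff M h1

theorem primrec_gVal_eq_one :
    PrimrecPred fun s : Wd (Fin M.d ⊕ Fin M.nr) => gVal M s = 1 :=
  (Primrec.eq.comp ((primrec_pushWord M (primrec_pushL M)).comp Primrec.id (Primrec.const (gZero M)))
    (Primrec.const (gZero M))).of_eq fun s => (gVal_eq_one_iff M s).symm

theorem gVal_mem_lat_iff (s : Wd (Fin M.d ⊕ Fin M.nr)) :
    (∃ c, gVal M s = Y M c) ↔ (pushWord M (pushL M) s (gZero M)).2 = [] := by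
  obtain ⟨h1, h2⟩ := gVal_spec M s (gfRed_zero M)
  rw [(gfVal_eq_one_iff M (gfRed_zero M)).2 rfl, mul_one] at h2
  rw [← h2]
  generalize pushWord M (pushL M) s (gZero M) = f at h1 ⊢
  constructor
  · rintro ⟨c, hc⟩
    exact List.map_eq_nil_iff.1 ((gbModel M).britton _ _ h1 ⟨Multiplicative.ofAdd c, hc.symm⟩)
  · intro hl
    refine ⟨f.1, ?_⟩
    simp [gfVal, hl, formLett, Hnn.val]
    rfl

theorem gVal_eq_Y_iff (s : Wd (Fin M.d ⊕ Fin M.nr)) (c : Cfg M.d) :
    gVal M s = Y M c ↔ pushWord M (pushL M) s (gZero M) = (c, []) := by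
  obtain ⟨h1, h2⟩ := gVal_spec M s (gfRed_zero M)
  rw [(gfVal_eq_one_iff M (gfRed_zero M)).2 rfl, mul_one] at h2
  have hv : gfVal M (c, []) = Y M c := by
    simp [gfVal, formLett, Hnn.val]
    rfl
  constructor
  · intro h
    have hl := (gVal_mem_lat_iff M s).1 ⟨c, h⟩
    rw [← h2] at h
    generalize pushWord M (pushL M) s (gZero M) = f at h hl
    obtain ⟨g, l⟩ := f
    obtain rfl : l = [] := hl
    rw [← hv] at h
    simp only [gfVal, formLett, List.map_nil, Hnn.val] at h
    have hg : g = c := Multiplicative.ofAdd.injective ((gbModel M).inj (by simpa using h))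
    rw [hg]
  · intro h
    rw [← h2, h, hv]

theorem primrec_gVal_mem_lat :
    PrimrecPred fun s : Wd (Fin M.d ⊕ Fin M.nr) => ∃ c, gVal M s = Y M c :=
  (Primrec.eq.comp (Primrec.snd.comp
    ((primrec_pushWord M (primrec_pushL M)).comp Primrec.id (Primrec.const (gZero M))))
    (Primrec.const [])).of_eq fun s => (gVal_mem_lat_iff M s).symm

theorem primrec_gVal_eq_Y :
    PrimrecRel fun (s : Wd (Fin M.d ⊕ Fin M.nr)) (c : Cfg M.d) => gVal M s = Y M c :=
  PrimrecPred.of_eq (Primrec.eq.comp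
    ((primrec_pushWord M (primrec_pushL M)).comp Primrec.fst (Primrec.const (gZero M)))
    (Primrec.snd.pair (Primrec.const []))) fun x => (gVal_eq_Y_iff M x.1 x.2).symm

/-- The rule letters of a word. -/
def ruleWord (s : Wd (Fin M.d ⊕ Fin M.nr)) : Wd (Fin M.nr) :=
  s.flatMap fun l => Sum.elim (fun _ => []) (fun i => [(i, l.2)]) l.1

theorem primrec_ruleWord : Primrec (ruleWord M) :=
  Primrec.list_flatMap Primrec.id ((Primrec.dom_finite fun l : (Fin M.d ⊕ Fin M.nr) × Bool =>
    Sum.elim (fun _ => ([] : Wd (Fin M.nr))) (fun i => [(i, l.2)]) l.1).comp Primrec.snd).to₂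

theorem RP_gVal (s : Wd (Fin M.d ⊕ Fin M.nr)) : RP M (gVal M s) = FreeGroup.mk (ruleWord M s) := by
  have hY : ∀ c : Cfg M.d, RP M (Y M c) = 1 := fun c => RP_Y M c
  have hR : ∀ i, RP M (R M i) = FreeGroup.of i := fun i => RP_R M i
  induction s with
  | nil => simp [gVal, ruleWord, ← FreeGroup.one_eq_mk]
  | cons l s ih =>
    obtain ⟨j | i, b⟩ := l
    · rw [gVal, Core.wev_cons, map_mul, ← gVal, ih]
      cases b <;> simp [ruleWord, hY]
    · rw [gVal, Core.wev_cons, map_mul, ← gVal, ih,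
        show ruleWord M ((Sum.inr i, b) :: s) = [(i, b)] ++ ruleWord M s from rfl, ← FreeGroup.mul_mk]
      cases b <;> simp [hR, FreeGroup.of, FreeGroup.inv_mk, FreeGroup.invRev]

theorem gVal_mem_liftR_iff (s : Wd (Fin M.d ⊕ Fin M.nr)) :
    gVal M s ∈ (RHom M).range ↔
      pushWord M (pushL M) (s ++ (FreeGroup.invRev (ruleWord M s)).map fun l => (Sum.inr l.1, l.2))
        (gZero M) = gZero M := by
  have hm : ∀ w : Wd (Fin M.nr), gVal M (w.map fun l => (Sum.inr l.1, l.2)) = liftR M w := fun w => by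
    rw [gVal, wev_map]; rfl
  have ha : ∀ x, gVal M (s ++ x) = gVal M s * gVal M x := fun x => wev_append _ s x
  rw [← gVal_eq_one_iff, ha, hm, liftR, Core.wev_invRev,
    mul_inv_eq_one, ← liftR, liftR_eq]
  constructor
  · rintro ⟨y, hy⟩
    rw [← RP_gVal, ← hy, RP_RHom]
  · intro h
    exact ⟨_, h.symm⟩

theorem gVal_mem_Hh_iff (s : Wd (Fin M.d ⊕ Fin M.nr)) :
    gVal M s ∈ Subgroup.closure (Set.range (hRule M)) ↔
      pushWord M (pushL M) s (pushWord M (pushH M) (FreeGroup.invRev (ruleWord M s)) (gZero M)) =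
        gZero M := by
  obtain ⟨h1, e1⟩ := liftH_spec M (FreeGroup.invRev (ruleWord M s)) (gfRed_zero M)
  obtain ⟨h2, e2⟩ := gVal_spec M s h1
  rw [e1, (gfVal_eq_one_iff M (gfRed_zero M)).2 rfl, mul_one, liftH, Core.wev_invRev, ← liftH] at e2
  rw [← gfVal_eq_one_iff M h2, e2, mul_inv_eq_one]
  constructor
  · intro h
    obtain ⟨q, hq⟩ := Core.exists_word (hRule M) h
    have hRP : ∀ q, RP M (liftH M q) = FreeGroup.mk q := fun q => by
      rw [liftH, hom_wev]
      have : (fun i => RP M (hRule M i)) = FreeGroup.of := funext fun i => by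
        simp [hRule, RP_Y, RP_R]
      rw [this, wev]
      exact DFunLike.congr_fun (FreeGroup.lift_of_eq_id (Fin M.nr)) _
    have hmk : FreeGroup.mk q = FreeGroup.mk (ruleWord M s) := by
      rw [← hRP, liftH, hq, RP_gVal]
    rw [← hq, liftH, wev, wev, hmk]
  · intro h
    rw [h, liftH, wev]
    have : (FreeGroup.lift (hRule M)).range = Subgroup.closure (Set.range (hRule M)) :=
      FreeGroup.range_lift_eq_closure
    rw [← this]
    exact ⟨_, rfl⟩

theorem primrec_gVal_mem_liftR :
    PrimrecPred fun s : Wd (Fin M.d ⊕ Fin M.nr) => gVal M s ∈ (RHom M).range :=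
  (Primrec.eq.comp ((primrec_pushWord M (primrec_pushL M)).comp
    (Primrec.list_append.comp Primrec.id (Primrec.list_map (RE.primrec_invRev.comp (primrec_ruleWord M))
      ((Primrec.dom_finite fun l : Fin M.nr × Bool => ((Sum.inr l.1 : Fin M.d ⊕ Fin M.nr), l.2)).comp
        Primrec.snd).to₂))
    (Primrec.const (gZero M))) (Primrec.const (gZero M))).of_eq fun s => (gVal_mem_liftR_iff M s).symm

theorem primrec_gVal_mem_Hh :
    PrimrecPred fun s : Wd (Fin M.d ⊕ Fin M.nr) =>
      gVal M s ∈ Subgroup.closure (Set.range (hRule M)) :=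
  (Primrec.eq.comp ((primrec_pushWord M (primrec_pushL M)).comp Primrec.id
    ((primrec_pushWord M (primrec_pushH M)).comp (RE.primrec_invRev.comp (primrec_ruleWord M))
      (Primrec.const (gZero M)))) (Primrec.const (gZero M))).of_eq fun s => (gVal_mem_Hh_iff M s).symm

theorem re_gVal_ne_one : REPred fun s : Wd (Fin M.d ⊕ Fin M.nr) => gVal M s ≠ 1 :=
  RE.of_primrec (primrec_gVal_eq_one M).not

theorem re_gVal_not_mem_Hh :
    REPred fun s : Wd (Fin M.d ⊕ Fin M.nr) => gVal M s ∉ Subgroup.closure (Set.range (hRule M)) :=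
  RE.of_primrec (primrec_gVal_mem_Hh M).not

theorem re_gVal_not_mem_liftR :
    REPred fun s : Wd (Fin M.d ⊕ Fin M.nr) => gVal M s ∉ (RHom M).range :=
  RE.of_primrec (primrec_gVal_mem_liftR M).not

end

end Vale.P193
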