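import Vale.Agent.P193.Layer.KLBase

/-!
P193: structure of the subgroup `Uk` of `K1`; the rope map `phi` is a homomorphism.
-/

namespace Vale.P193

noncomputable section

open scoped Classical

variable {n : ℕ} (M : Mach (Fin n))

/-! ### The rope map -/

variable {B : Type} [Group B] (π : FreeGroup (Fin n) →* B)

/-- A `β` conjugated by an input word. -/
theorem conj_beta (g : FreeGroup (Fin n)) :
    GraphHNN.inM (piTop π) g * beta π * (GraphHNN.inM (piTop π) g)⁻¹ =
      beta π * GraphHNN.inB (piTop π) (π g) := by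
  have h := GraphHNN.r_conj (piTop π) ⟨g, Subgroup.mem_top g⟩
  have hp : piTop π ⟨g, Subgroup.mem_top g⟩ = π g := rfl
  rw [hp] at h
  simp only [beta] at h ⊢
  have hc := GraphHNN.inM_inB_comm (piTop π) g (π g)
  set r := GraphHNN.r (piTop π)
  set x := GraphHNN.inM (piTop π) g
  set b := GraphHNN.inB (piTop π) (π g)
  rw [mul_inv_eq_iff_eq_mul, mul_assoc, ← hc, eq_inv_mul_iff_mul_eq, ← mul_assoc, h,
    mul_inv_cancel_right]

theorem rootVal_root (e : ℕ) (left : Bool) (g : FreeGroup (Fin n)) :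
    rootVal M π e left (ptLetter M (M.root0 e) g) =
      if left then GraphHNN.inM (piTop π) g * beta π * (GraphHNN.inM (piTop π) g)⁻¹ else beta π := by
  unfold rootVal
  have h : ∃ g' : FreeGroup (Fin n), ptLetter M (M.root0 e) g = ((Y M (M.root0 e), g') : M0 M) :=
    ⟨g, rfl⟩
  rw [dif_pos h]
  have hg : h.choose = g := (ptLetter_snd M h.choose_spec).symm
  rw [hg]

theorem rootVal_not (e : ℕ) (left : Bool) {z : M0 M ⧸ Hh M} (hz : z ∉ RootSet M e) :
    rootVal M π e left z = 1 := by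
  unfold rootVal
  rw [dif_neg]
  rintro ⟨g, rfl⟩
  exact hz ⟨g, rfl⟩

theorem lift_root_act (e : ℕ) (g : FreeGroup (Fin n)) (x : FreeGroup (M0 M ⧸ Hh M)) :
    FreeGroup.lift (rootVal M π e true) (centAct (M0 M) (Hh M) (inX M g) x) =
        GraphHNN.inM (piTop π) g * FreeGroup.lift (rootVal M π e true) x *
          (GraphHNN.inM (piTop π) g)⁻¹ ∧
      FreeGroup.lift (rootVal M π e false) (centAct (M0 M) (Hh M) (inX M g) x) =
        FreeGroup.lift (rootVal M π e false) x := by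
  have h1 : (FreeGroup.lift (rootVal M π e true)).comp (centAct (M0 M) (Hh M) (inX M g)).toMonoidHom =
      (MulAut.conj (GraphHNN.inM (piTop π) g)).toMonoidHom.comp
        (FreeGroup.lift (rootVal M π e true)) :=
    FreeGroup.ext_hom _ _ fun z => by
      simp only [MonoidHom.comp_apply, MulEquiv.coe_toMonoidHom, Cent.centAct_of,
        FreeGroup.lift_apply_of, MulAut.conj_apply]
      by_cases hz : z ∈ RootSet M e
      · obtain ⟨h, rfl⟩ := hz
        rw [inX_smul_pt, rootVal_root, rootVal_root]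
        simp only [if_true, map_mul, mul_inv_rev, mul_assoc]
      · rw [rootVal_not M π e _ hz, rootVal_not M π e _ fun h => hz ((inX_mem_RootSet M g).1 h)]
        simp
  have h2 : (FreeGroup.lift (rootVal M π e false)).comp (centAct (M0 M) (Hh M) (inX M g)).toMonoidHom =
      FreeGroup.lift (rootVal M π e false) :=
    FreeGroup.ext_hom _ _ fun z => by
      simp only [MonoidHom.comp_apply, MulEquiv.coe_toMonoidHom, Cent.centAct_of,
        FreeGroup.lift_apply_of]
      by_cases hz : z ∈ RootSet M e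
      · obtain ⟨h, rfl⟩ := hz
        rw [inX_smul_pt, rootVal_root, rootVal_root]
        simp
      · rw [rootVal_not M π e _ hz, rootVal_not M π e _ fun h => hz ((inX_mem_RootSet M g).1 h)]
  exact ⟨DFunLike.congr_fun h1 x, DFunLike.congr_fun h2 x⟩

theorem phiL_mul (e : ℕ) {a : K M} (ha : a.right.1 = 1) (b : K M) :
    phiL M π e (a * b) = phiL M π e a * phiL M π e b := by
  simp only [phiL, SemidirectProduct.mul_left, SemidirectProduct.mul_right, map_mul, Prod.snd_mul]
  rw [eq_inX_of_fst M ha, (lift_root_act M π e a.right.2 b.left).1]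
  simp [mul_assoc]

theorem phiR_mul (e : ℕ) {a : K M} (ha : a.right.1 = 1) (b : K M) :
    phiR M π e (a * b) = phiR M π e a * phiR M π e b := by
  simp only [phiR, SemidirectProduct.mul_left, map_mul]
  rw [eq_inX_of_fst M ha, (lift_root_act M π e a.right.2 b.left).2]

theorem phiL_one (e : ℕ) : phiL M π e 1 = 1 := by simp [phiL]

theorem phiR_one (e : ℕ) : phiR M π e 1 = 1 := by simp [phiR]

theorem phiL_xK (e : ℕ) (g : FreeGroup (Fin n)) :
    phiL M π e (xK M g) = GraphHNN.inM (piTop π) g := by simp [phiL, xK]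

theorem phiR_xK (e : ℕ) (g : FreeGroup (Fin n)) : phiR M π e (xK M g) = 1 := by simp [phiR, xK]

theorem phiL_tau0 (e : ℕ) : phiL M π e (tau M (M.root0 e)) = beta π := by
  rw [tau_eq]
  simp [phiL, Cent.letter, rootVal_root]

theorem phiR_tau0 (e : ℕ) : phiR M π e (tau M (M.root0 e)) = beta π := by
  rw [tau_eq]
  simp [phiR, Cent.letter, rootVal_root]

variable {M π}

theorem phiL_eq_phiR {e : ℕ} (hG : GoodRoot M π e) {v : K M} (hU : v ∈ Usub M e) (hL : v ∈ Lsub M e) :
    phiL M π e v = phiR M π e v := by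
  have h1 := right_eq_one M hU hL
  obtain ⟨-, hu⟩ := (mem_Usub_iff M).1 hU
  obtain ⟨w, -, hl⟩ := (mem_Lsub_iff M).1 hL
  simp only [phiL, phiR, h1, Prod.snd_one, map_one, mul_one]
  refine hom_eq_of_lettersIn (S := RootSet M e ∩ Orb M e) ?_ fun l h => ⟨hu l h, hl l h⟩
  rintro z ⟨⟨g, rfl⟩, hz⟩
  simp only [FreeGroup.lift_apply_of, rootVal_root, if_true, Bool.false_eq_true, if_false]
  rw [conj_beta, (hG g).1 hz, map_one, mul_one]

/-- The coset value of a representative in `U`. -/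
theorem cosetVal_coe {e : ℕ} (hG : GoodRoot M π e) {u : K M} (hu : u ∈ Usub M e) :
    cosetVal M π e (u : K M ⧸ Lsub M e) = phiL M π e u * (phiR M π e u)⁻¹ := by
  unfold cosetVal
  have h : ∃ u' ∈ Usub M e, (u' : K M ⧸ Lsub M e) = (u : K M ⧸ Lsub M e) := ⟨u, hu, rfl⟩
  rw [dif_pos h]
  obtain ⟨h', heq⟩ := h.choose_spec
  have hl : h.choose⁻¹ * u ∈ Lsub M e := QuotientGroup.eq.1 heq
  have hlU : h.choose⁻¹ * u ∈ Usub M e := mul_mem (inv_mem h') hu
  have hr : h.choose.right.1 = 1 := ((mem_Usub_iff M).1 h').1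
  have e1 := phiL_mul M π e hr (h.choose⁻¹ * u)
  have e2 := phiR_mul M π e hr (h.choose⁻¹ * u)
  rw [mul_inv_cancel_left] at e1 e2
  rw [e1, e2, phiL_eq_phiR hG hlU hl]
  simp [mul_assoc]

variable (M π)

/-- The cosets meeting `U`. -/
def ULset (e : ℕ) : Set (K M ⧸ Lsub M e) := {q | ∃ u ∈ Usub M e, (u : K M ⧸ Lsub M e) = q}

theorem mem_ULset_coe {e : ℕ} {v : K M} : (v : K M ⧸ Lsub M e) ∈ ULset M e ↔ InUL M e v := by
  simp [ULset, InUL, QuotientGroup.eq]

/-- The left parts of `Uk`. -/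
def Epairs (e : ℕ) : Subgroup (FreeGroup (K M ⧸ Lsub M e)) :=
  Subgroup.closure {x | ∃ a b, a ∈ ULset M e ∧ b ∈ ULset M e ∧ x = FreeGroup.of a * (FreeGroup.of b)⁻¹}

theorem act_Epairs {e : ℕ} {u : K M} (hu : u ∈ Usub M e) {x : FreeGroup (K M ⧸ Lsub M e)}
    (hx : x ∈ Epairs M e) : centAct (K M) (Lsub M e) u x ∈ Epairs M e := by
  have hle : Epairs M e ≤ (Epairs M e).comap (centAct (K M) (Lsub M e) u).toMonoidHom := by
    conv_lhs => rw [Epairs]
    rw [Subgroup.closure_le]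
    rintro _ ⟨a, b, ⟨u1, h1, rfl⟩, ⟨u2, h2, rfl⟩, rfl⟩
    simp only [SetLike.mem_coe, Subgroup.mem_comap, MulEquiv.coe_toMonoidHom, map_mul, map_inv,
      Cent.centAct_of, MulAction.Quotient.smul_coe, smul_eq_mul]
    exact Subgroup.subset_closure ⟨_, _, ⟨_, mul_mem hu h1, rfl⟩, ⟨_, mul_mem hu h2, rfl⟩, rfl⟩
  exact hle hx

/-- The subgroup described by right parts in `U` and left parts in `Epairs`. -/
def Ukset (e : ℕ) : Subgroup (K1 M e) where
  carrier := {v | v.right ∈ Usub M e ∧ v.left ∈ Epairs M e}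
  one_mem' := ⟨one_mem _, one_mem _⟩
  mul_mem' := by
    rintro a b ⟨ha, ha'⟩ ⟨hb, hb'⟩
    exact ⟨mul_mem ha hb, mul_mem ha' (act_Epairs M ha hb')⟩
  inv_mem' := by
    rintro a ⟨ha, ha'⟩
    exact ⟨inv_mem ha, act_Epairs M (inv_mem ha) (inv_mem ha')⟩

theorem kuk_eq {e : ℕ} (u : K M) :
    Cent.k * Cent.base u * Cent.k⁻¹ =
      (SemidirectProduct.inl (FreeGroup.of ((1 : K M) : K M ⧸ Lsub M e) *
        (FreeGroup.of (u : K M ⧸ Lsub M e))⁻¹) * Cent.base u : K1 M e) := by
  have hc : Cent.base u * (Cent.k : K1 M e) * (Cent.base u)⁻¹ = Cent.letter (u : K M ⧸ Lsub M e) :=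
    Cent.conj_k u
  have hc' : Cent.base u * (Cent.k : K1 M e)⁻¹ =
      (Cent.letter (u : K M ⧸ Lsub M e))⁻¹ * Cent.base u := by
    rw [← hc]; group
  rw [mul_assoc, hc', ← mul_assoc, map_mul, map_inv]
  rfl

theorem Uk_eq (e : ℕ) : Uk M e = Ukset M e := by
  refine le_antisymm ?_ ?_
  · rw [Uk, Subgroup.closure_le]
    rintro _ (⟨u, hu, rfl⟩ | ⟨u, hu, rfl⟩)
    · exact ⟨hu, one_mem _⟩
    · simp only [SetLike.mem_coe]
      rw [kuk_eq]
      refine ⟨by simpa using hu, ?_⟩
      simp only [SemidirectProduct.mul_left, SemidirectProduct.left_inl, SemidirectProduct.left_inr,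
        map_one, mul_one]
      exact Subgroup.subset_closure ⟨_, _, ⟨1, one_mem _, rfl⟩, ⟨u, hu, rfl⟩, rfl⟩
  · rintro v ⟨hr, hl⟩
    rw [← SemidirectProduct.inl_left_mul_inr_right v]
    refine mul_mem ?_ (Subgroup.subset_closure (Or.inl ⟨_, hr, rfl⟩))
    have hle : Epairs M e ≤
        (Uk M e).comap (SemidirectProduct.inl (φ := centAct (K M) (Lsub M e))) := by
      rw [Epairs, Subgroup.closure_le]
      rintro _ ⟨a, b, ⟨u1, h1, rfl⟩, ⟨u2, h2, rfl⟩, rfl⟩
      have g : ∀ u ∈ Usub M e, (SemidirectProduct.inl (FreeGroup.of ((1 : K M) : K M ⧸ Lsub M e) *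
          (FreeGroup.of (u : K M ⧸ Lsub M e))⁻¹) : K1 M e) ∈ Uk M e := by
        intro u hu
        have := mul_mem (Subgroup.subset_closure (Or.inr ⟨u, hu, rfl⟩) : _ ∈ Uk M e)
          (inv_mem (Subgroup.subset_closure (Or.inl ⟨u, hu, rfl⟩) : _ ∈ Uk M e))
        simp only at this
        rwa [kuk_eq, mul_inv_cancel_right] at this
      have e12 : FreeGroup.of (u1 : K M ⧸ Lsub M e) * (FreeGroup.of (u2 : K M ⧸ Lsub M e))⁻¹ =
          (FreeGroup.of ((1 : K M) : K M ⧸ Lsub M e) * (FreeGroup.of (u1 : K M ⧸ Lsub M e))⁻¹)⁻¹ *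
            (FreeGroup.of ((1 : K M) : K M ⧸ Lsub M e) * (FreeGroup.of (u2 : K M ⧸ Lsub M e))⁻¹) := by
        group
      simp only [SetLike.mem_coe, Subgroup.mem_comap]
      rw [e12, map_mul, map_inv]
      exact mul_mem (inv_mem (g u1 h1)) (g u2 h2)
    exact hle hl

theorem mem_Uk_iff {e : ℕ} {v : K1 M e} :
    v ∈ Uk M e ↔ v.right ∈ Usub M e ∧ AltW (· ∈ ULset M e) true v.left.toWord := by
  rw [Uk_eq, ← mem_pairs_iff]
  rfl

variable {M π}

theorem phi_act {e : ℕ} (hG : GoodRoot M π e) {u : K M} (hu : u ∈ Usub M e)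
    {x : FreeGroup (K M ⧸ Lsub M e)} (hx : x ∈ Epairs M e) :
    FreeGroup.lift (cosetVal M π e) (centAct (K M) (Lsub M e) u x) =
      phiL M π e u * FreeGroup.lift (cosetVal M π e) x * (phiL M π e u)⁻¹ := by
  refine MonoidHom.eqOn_closure
    (f := (FreeGroup.lift (cosetVal M π e)).comp (centAct (K M) (Lsub M e) u).toMonoidHom)
    (g := (MulAut.conj (phiL M π e u)).toMonoidHom.comp (FreeGroup.lift (cosetVal M π e))) ?_ hx
  rintro _ ⟨a, b, ⟨u1, h1, rfl⟩, ⟨u2, h2, rfl⟩, rfl⟩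
  have hr := ((mem_Usub_iff M).1 hu).1
  simp only [MonoidHom.comp_apply, MulEquiv.coe_toMonoidHom, map_mul, map_inv, Cent.centAct_of,
    MulAction.Quotient.smul_coe, smul_eq_mul, FreeGroup.lift_apply_of, MulAut.conj_apply,
    cosetVal_coe hG (mul_mem hu h1), cosetVal_coe hG (mul_mem hu h2), cosetVal_coe hG h1,
    cosetVal_coe hG h2, phiL_mul M π e hr, phiR_mul M π e hr]
  group

/-- The rope map is multiplicative on `Uk`. -/
theorem phiHom_of_goodRoot {e : ℕ} (hG : GoodRoot M π e) : PhiHom M π e := by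
  intro a b ha hb
  rw [Uk_eq] at ha hb
  simp only [phi, SemidirectProduct.mul_left, SemidirectProduct.mul_right, map_mul]
  rw [phi_act hG ha.1 hb.2, phiL_mul M π e ((mem_Usub_iff M).1 ha.1).1]
  group

theorem phi_base (e : ℕ) (u : K M) : phi M π e (Cent.base u) = phiL M π e u := by
  simp [phi]

theorem phi_kuk {e : ℕ} (hG : GoodRoot M π e) {u : K M} (hu : u ∈ Usub M e) :
    phi M π e (Cent.k * Cent.base u * Cent.k⁻¹) = phiR M π e u := by
  rw [kuk_eq]
  simp only [phi, SemidirectProduct.mul_left, SemidirectProduct.mul_right, SemidirectProduct.left_inl,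
    SemidirectProduct.left_inr, SemidirectProduct.right_inl, SemidirectProduct.right_inr, map_one,
    one_mul, mul_one]
  simp only [map_mul, map_inv, FreeGroup.lift_apply_of, cosetVal_coe hG (one_mem _),
    cosetVal_coe hG hu, phiL_one, phiR_one, inv_one]
  group

end

end Vale.P193
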