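import Vale.Agent.P193.Gen.Multi
import Vale.Agent.P193.Layer.KL

/-! P193: the rules group as an affine model, and the valid lemma. -/

namespace Vale.P193

noncomputable section

variable {n : ℕ} (M : Mach (Fin n))

/-- A rule with integer scales. -/
def Rule.toD {d : ℕ} (ρ : Rule d) : Hnn.DRule (Fin d) where
  c0 := ρ.c0
  c1 := ρ.c1
  p j := ρ.p j
  q j := ρ.p' j
  hpq j := by simpa using ρ.zero_iff j

/-- The associated pairs of the rules. -/
abbrev gbPairs : Fin M.nr → Hnn.Pair (Lat M.d) := fun i => (M.rule i).toD.pair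

/-- The rules group as a model. -/
def gbModel : Hnn.Model (gbPairs M) (Gb M) where
  ι := MultiHNN.of _ _ _
  τ i := R M i
  inj := MultiHNN.of_injective _ _ _
  rel i a := by
    have h := MultiHNN.t_mul_of (fun i => divSub (M.rule i).p) (fun i => divSub (M.rule i).p')
      (fun i => latEquiv (M.rule i)) i ⟨(a : Lat M.d), a.2⟩
    have e : ((latEquiv (M.rule i) ⟨(a : Lat M.d), a.2⟩ : divSub (M.rule i).p') : Lat M.d) =
        ((gbPairs M i).φ a : Lat M.d) := by
      apply Multiplicative.toAdd.injective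
      funext j
      exact mul_comm _ _
    rw [e] at h
    exact h
  britton g l hl h := by
    obtain ⟨H, _, ⟨N⟩⟩ := Hnn.exists_model (gbPairs M)
    let F : Gb M →* H := MultiHNN.lift N.ι N.τ fun i a => by
      have h' := N.rel i ⟨(a : Lat M.d), a.2⟩
      rw [h']
      congr 2
      apply Multiplicative.toAdd.injective
      funext j
      exact mul_comm _ _
    obtain ⟨a, ha⟩ := h
    refine N.britton g l hl ⟨a, ?_⟩
    have h1 : ∀ g, F (MultiHNN.of _ _ _ g) = N.ι g := fun g => MultiHNN.lift_of _ _ _ g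
    have h2 : ∀ i, F (R M i) = N.τ i := fun i => MultiHNN.lift_t _ _ _ i
    have h3 := congrArg F ha
    simp only [Hnn.val, map_mul, map_list_prod, List.map_map, h1] at h3 ⊢
    rw [h3]
    congr 2
    exact List.map_congr_left fun p _ => by simp [map_mul, map_zpow, h1, h2]

/-- The sign of a letter. -/
def sgnU (b : Bool) : ℤˣ := if b then 1 else -1

/-- A word of rules as signed rules. -/
def toSigned (w : Wd (Fin M.nr)) : List (Fin M.nr × ℤˣ) := w.map fun l => (l.1, sgnU l.2)

theorem pt_gbModel (c : Cfg M.d) :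
    Hnn.pt (rs := fun i => (M.rule i).toD) (gbModel M) c = Y M c := rfl

theorem ev_toSigned (w : Wd (Fin M.nr)) :
    Hnn.ev (rs := fun i => (M.rule i).toD) (gbModel M) (toSigned M w) = liftR M w := by
  induction w with
  | nil => simp [Hnn.ev, toSigned, liftR]
  | cons l w ih =>
    obtain ⟨i, b⟩ := l
    rw [liftR, ← List.singleton_append, wev_append, show wev (R M) w = liftR M w from rfl, ← ih]
    cases b <;> simp [Hnn.ev, toSigned, sgnU, wev, gbModel]

theorem fix_gbModel (i : Fin M.nr) :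
    Hnn.fix' (rs := fun i => (M.rule i).toD) (gbModel M) i = hRule M i := by
  have hy : Y M (-(M.rule i).c1) = (Y M (M.rule i).c1)⁻¹ :=
    map_inv (MultiHNN.of _ _ _) (Multiplicative.ofAdd (M.rule i).c1)
  rw [Hnn.fix', hRule, hy]
  rfl

theorem range_fix :
    Hnn.Hh (rs := fun i => (M.rule i).toD) (gbModel M) =
      Subgroup.closure (Set.range (hRule M)) := by
  rw [Hnn.Hh, show (Hnn.fix' (rs := fun i => (M.rule i).toD) (gbModel M)) = hRule M from
    funext (fix_gbModel M)]

theorem free_toSigned {w : Wd (Fin M.nr)} (h : FreeGroup.IsReduced w) :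
    Hnn.Free (toSigned M w) := by
  unfold Hnn.Free toSigned
  rw [List.isChain_map]
  refine List.IsChain.imp ?_ h
  intro a b hab e
  simp [hab e]

theorem step_of_move {i : Fin M.nr} {b : Bool} {c c' : Cfg M.d}
    (h : (M.rule i).toD.Move (sgnU b) c c') : M.Step (i, b) c c' := by
  have key : ∀ (p q : Fin M.d → ℕ) (src dst x y : Cfg M.d), (∀ j, p j = 0 ↔ q j = 0) →
      (∀ j, (p j : ℤ) ∣ x j - src j) → (∀ j, y j = dst j + (q j : ℤ) * ((x j - src j) / (p j : ℤ))) →
      ∃ u : Cfg M.d, (∀ j, x j = src j + (p j : ℤ) * u j) ∧ ∀ j, y j = dst j + (q j : ℤ) * u j :=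
    fun p q src dst x y _ hd hy =>
      ⟨fun j => (x j - src j) / (p j : ℤ), fun j => by rw [Int.mul_ediv_cancel' (hd j)]; ring, hy⟩
  cases b
  · obtain ⟨hm, rfl⟩ := h
    obtain ⟨u, hu, hu'⟩ := key (M.rule i).p' (M.rule i).p (M.rule i).c1 (M.rule i).c0 c _
      (fun j => ((M.rule i).zero_iff j).symm) hm (fun j => rfl)
    exact ⟨u, hu', hu⟩
  · obtain ⟨hm, rfl⟩ := h
    obtain ⟨u, hu, hu'⟩ := key (M.rule i).p (M.rule i).p' (M.rule i).c0 (M.rule i).c1 c _
      (M.rule i).zero_iff hm (fun j => rfl)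
    exact ⟨u, hu, hu'⟩

theorem path_of_signed : ∀ {w : Wd (Fin M.nr)} {c c' : Cfg M.d},
    Hnn.Path (fun i => (M.rule i).toD) (toSigned M w) c c' → M.Path w c c'
  | [], _, _, h => h
  | (_, _) :: _, _, _, ⟨m, hm, hs⟩ => ⟨m, path_of_signed hm, step_of_move M hs⟩

/-- The forward direction of the valid lemma. -/
theorem validFwd : ValidFwd M := by
  intro v c c' hv h
  refine path_of_signed M ((Hnn.mem_Hh_iff (gbModel M) (free_toSigned M hv)).1 ?_)
  rw [ev_toSigned, pt_gbModel, pt_gbModel, range_fix]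
  exact h

/-- The valid lemma. -/
theorem valid {v : Wd (Fin M.nr)} (hv : FreeGroup.IsReduced v) (c c' : Cfg M.d) :
    (Y M c')⁻¹ * liftR M v * Y M c ∈ Subgroup.closure (Set.range (hRule M)) ↔ M.Path v c c' :=
  ⟨validFwd M v c c' hv, path_mem M⟩

end

end Vale.P193
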