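import Vale.Agent.P193.Layer.Gbar
import Vale.Agent.P193.Layer.KL

/-!
P193: `Good` gives `GoodRoot`, and with it the rope homomorphism.
-/

namespace Vale.P193

variable {n : ℕ} {M : Mach (Fin n)} {B : Type} [Group B] {π : FreeGroup (Fin n) →* B}

theorem goodRoot_of_good (S : M.Spec) {e : ℕ} (hG : Good π e) : GoodRoot M π e :=
  goodRoot_of_validFwd M S (validFwd M) hG

/-- The rope exists at a good parameter. -/
theorem phiHom_of_good (S : M.Spec) {e : ℕ} (hG : Good π e) : PhiHom M π e :=
  phiHom_of_goodRoot (goodRoot_of_good S hG)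

end Vale.P193
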