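import Vale.Agent.P193.Layer.H0Words
import Vale.Agent.P193.Layer.G0Code
import Vale.Agent.P193.Layer.Core
import Vale.Agent.P193.Layer.KL
import Vale.Agent.P193.Gen.Multi
import Vale.Agent.P193.Gen.GraphCertRE

/-!
P193 M5: the letters of `H0` read in the alphabet of the rope certificates, the linear bound of the rope from the core
lemma, and the nontriviality of every letter.
-/

namespace Vale.P193

noncomputable section

/-- Rename a letter, inverting it where `fl` says so. -/
def flipLetter {α β : Type} (g : α → β) (fl : α → Bool) (l : α × Bool) : β × Bool :=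
  (g l.1, bif fl l.1 then !l.2 else l.2)

/-- Rename the letters of a word, inverting where `fl` says so. -/
def flipMap {α β : Type} (g : α → β) (fl : α → Bool) (w : Wd α) : Wd β := w.map (flipLetter g fl)

theorem length_flipMap {α β : Type} (g : α → β) (fl : α → Bool) (w : Wd α) :
    (flipMap g fl w).length = w.length := by simp [flipMap]

theorem wev_flipMap {α β G : Type} [Group G] (f : β → G) (h : α → G) (g : α → β) (fl : α → Bool)
    (hg : ∀ a, f (g a) = bif fl a then (h a)⁻¹ else h a) (w : Wd α) :
    wev f (flipMap g fl w) = wev h w := by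
  induction w with
  | nil => simp [flipMap]
  | cons l w ih =>
    rw [flipMap, List.map_cons, wev_cons, wev_cons h, ← flipMap, ih]
    obtain ⟨a, b⟩ := l
    have := hg a
    cases hfl : fl a <;> cases b <;> simp_all [flipLetter, wev_pos, wev_neg]

theorem primrec_flipMap {α β : Type} [Primcodable α] [Primcodable β] {g : α → β} {fl : α → Bool}
    (hg : Primrec g) (hfl : Primrec fl) : Primrec (flipMap g fl) := by
  have h2 : Primrec fun x : Wd α × (α × Bool) => bif fl x.2.1 then !x.2.2 else x.2.2 :=
    Primrec.cond (hfl.comp (Primrec.fst.comp Primrec.snd))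
      (Primrec.not.comp (Primrec.snd.comp Primrec.snd)) (Primrec.snd.comp Primrec.snd)
  exact Primrec.list_map Primrec.id ((hg.comp (Primrec.fst.comp Primrec.snd)).pair h2).to₂

variable {n : ℕ} (M : Mach (Fin n))

/-- The alphabet of the certificates of `H0`. -/
abbrev HL : Type := H0L (K1L M) n

/-- The letter of the certificates for a letter of `H0`. -/
def toL : G0 M.d M.nr n → HL M := g0Equiv M.d M.nr n

/-- The inverse renaming. -/
def ofL : HL M → G0 M.d M.nr n := (g0Equiv M.d M.nr n).symm

/-- The letter `β` changes its sign. -/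
def isBetaL : HL M → Bool
  | .inr (.inl (.inr (.inr _))) => true
  | _ => false

/-- A word of `H0` in the alphabet of the certificates. -/
def toW (w : Wd (G0 M.d M.nr n)) : Wd (HL M) := flipMap (toL M) (fun a => isBetaL M (toL M a)) w

/-- A word of the certificates in the alphabet of `H0`. -/
def ofW (w : Wd (HL M)) : Wd (G0 M.d M.nr n) := flipMap (ofL M) (isBetaL M) w

theorem length_toW (w : Wd (G0 M.d M.nr n)) : (toW M w).length = w.length := length_flipMap _ _ _

theorem length_ofW (w : Wd (HL M)) : (ofW M w).length = w.length := length_flipMap _ _ _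

theorem primrec_isBetaL : Primrec (isBetaL M) := Primrec.dom_finite _

theorem primrec_toW : Primrec (toW M) :=
  primrec_flipMap (primrec_g0Equiv _ _ _) ((primrec_isBetaL M).comp (primrec_g0Equiv _ _ _))

theorem primrec_ofW : Primrec (ofW M) :=
  primrec_flipMap (primrec_g0Equiv_symm _ _ _) (primrec_isBetaL M)

variable {B : Type} [Group B] (π : FreeGroup (Fin n) →* B) {e : ℕ} (h : PhiHom M π e)

/-- Values of the certificate letters. -/
abbrev hlVal : HL M → H0 M π e h := h0Val (phiHom M π e h) (k1Let M e)

theorem hlVal_toL (a : G0 M.d M.nr n) :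
    hlVal M π h (toL M a) = bif isBetaL M (toL M a) then (g0Val M π e h a)⁻¹ else g0Val M π e h a := by
  cases a <;> first
    | rfl
    | (simp [toL, g0Equiv, isBetaL, h0Val, GraphHNN.gVal, blVal, g0Val, beta]; done)

theorem wev_toW (w : Wd (G0 M.d M.nr n)) : wev (hlVal M π h) (toW M w) = wev (g0Val M π e h) w :=
  wev_flipMap _ _ _ _ (hlVal_toL M π h) w

theorem wev_ofW (w : Wd (HL M)) : wev (g0Val M π e h) (ofW M w) = wev (hlVal M π h) w := by
  refine wev_flipMap _ _ _ _ (fun a => ?_) w
  have := hlVal_toL M π h (ofL M a)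
  rw [show toL M (ofL M a) = a from Equiv.apply_symm_apply _ _] at this
  rw [this]
  cases isBetaL M a <;> simp

/-- Letters of `Bt` of the core lemma in the alphabet of the certificates. -/
def btUpL : BtL n → BL n := Sum.elim Sum.inl fun _ => Sum.inr (Sum.inr ())

theorem wev_btUpL (b : Wd (BtL n)) :
    wev (blVal π) (flipMap btUpL Sum.isRight b) = btVal π b := by
  refine wev_flipMap _ _ _ _ (fun a => ?_) b
  rcases a with a | u
  · rfl
  · simp [btUpL, blVal, GraphHNN.gVal, btLet, beta]

/-- The rope is linearly bounded. -/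
theorem h0_wordBound {S : M.Spec} (hF : GbFacts M S) (hG : Good π e) :
    GraphHNN.WordBound (phiHom M π e h) (k1Let M e) (blVal π) C1 := by
  intro m hm
  obtain ⟨b, hb, hv⟩ := core π hF hG (w := m) hm
  refine ⟨flipMap btUpL Sum.isRight b, by rw [length_flipMap]; exact hb, ?_⟩
  rw [wev_btUpL, hv]
  rfl

/-- Detects a stable letter. -/
theorem rope_ne_one {M₁ B₁ : Type} [Group M₁] [Group B₁] {U : Subgroup M₁} (φ : U →* B₁) :
    GraphHNN.r φ ≠ 1 := by
  intro h1
  let χ : GraphHNN φ →* Multiplicative ℤ :=
    HNNExtension.lift 1 (Multiplicative.ofAdd 1) (fun a => by simp)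
  have := congrArg χ h1
  simp [χ, GraphHNN.r] at this

theorem gbK_injective : Function.Injective (gbK M) :=
  SemidirectProduct.inr_injective.comp fun _ _ h => congrArg Prod.fst h

theorem xK_injective : Function.Injective (xK M) :=
  SemidirectProduct.inr_injective.comp fun _ _ h => congrArg Prod.snd h

/-- Every letter of `H0` is nontrivial. -/
theorem g0Val_ne_one (hπ : ∀ a, π (FreeGroup.of a) ≠ 1)
    (g : G0 M.d M.nr n) : g0Val M π e h g ≠ 1 := by
  have hM : ∀ x : K1 M e, x ≠ 1 → GraphHNN.inM (phiHom M π e h) x ≠ 1 := fun x hx h1 =>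
    hx (GraphHNN.inM_injective (by rw [h1, map_one]))
  have hK : ∀ x : K M, x ≠ 1 → (Cent.base x : K1 M e) ≠ 1 := fun x hx h1 =>
    hx (SemidirectProduct.inr_injective (h1.trans (map_one (Cent.base (L := Lsub M e))).symm))
  have hB : ∀ x : Bt π, x ≠ 1 → GraphHNN.inB (phiHom M π e h) x ≠ 1 := fun x hx h1 =>
    hx (GraphHNN.inB_injective (by rw [h1, map_one]))
  have hk : ∀ {M₁ : Type} [Group M₁] {L : Subgroup M₁}, (Cent.k : Cent M₁ L) ≠ 1 := fun h1 =>
    FreeGroup.of_ne_one _ (SemidirectProduct.inl_injective (h1.trans (map_one _).symm))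
  have hY : ∀ j, Y M (Pi.single j 1) ≠ 1 := fun j h1 => by
    have := MultiHNN.of_injective (fun i => divSub (M.rule i).p) (fun i => divSub (M.rule i).p')
      (fun i => latEquiv (M.rule i)) (h1.trans (map_one _).symm)
    have := congrFun (congrArg Multiplicative.toAdd this) j
    simp at this
  cases g with
  | y j => exact hM _ (hK _ fun h1 => hY j (gbK_injective M (h1.trans (map_one _).symm)))
  | r i =>
    refine hM _ (hK _ fun h1 => FreeGroup.of_ne_one i ?_)
    rw [← RP_R, gbK_injective M (h1.trans (map_one _).symm), map_one]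
  | x a => exact hM _ (hK _ fun h1 => FreeGroup.of_ne_one a (xK_injective M (h1.trans (map_one _).symm)))
  | t => exact hM _ (hK _ hk)
  | k => exact hM _ hk
  | xa a => exact hB _ fun h1 => FreeGroup.of_ne_one a (GraphHNN.inM_injective (h1.trans (map_one _).symm))
  | xb a => exact hB _ fun h1 => hπ a (GraphHNN.inB_injective (h1.trans (map_one _).symm))
  | beta => exact hB _ (inv_ne_one.2 (rope_ne_one _))
  | rope => exact rope_ne_one _

end

end Vale.P193
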