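import Vale.Agent.P193.Gen.EmbPres
import Mathlib.GroupTheory.Commutator.Basic

/-!
P193: the relators of `H0`, read as equations between values of the letters.
-/

namespace Vale.P193

noncomputable section

variable {n : ℕ} (M : Mach (Fin n)) {H : Type} [Group H] (v : G0 M.d M.nr n → H)

theorem wev_wcomm {α : Type} (f : α → H) (u w : Wd α) :
    wev f (wcomm u w) = 1 ↔ Commute (wev f u) (wev f w) := by
  rw [wcomm, wev_append, wev_append, wev_append, wev_winv, wev_winv]
  exact commutatorElement_eq_one_iff_commute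

/-- Value of `h_i`. -/
def hV (i : Fin M.nr) : H :=
  wev v (yPow M (-(M.rule i).c1)) * v (.r i) * wev v (yPow M (M.rule i).c0)

/-- Value of a twisted rule letter. -/
def rxV (i : Fin M.nr) : H := v (.r i) * wev (fun a => v (.x a)) (M.tw i)

/-- The equations of the presentation of `H0` with parameter `e`. -/
structure Rels0 (e : ℕ) : Prop where
  yy : ∀ j l, Commute (v (.y j)) (v (.y l))
  ry : ∀ i j, v (.r i) * v (.y j) ^ (M.rule i).p j * (v (.r i))⁻¹ = v (.y j) ^ (M.rule i).p' j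
  xy : ∀ a j, Commute (v (.x a)) (v (.y j))
  xr : ∀ a i, Commute (v (.x a)) (v (.r i))
  th : ∀ i, Commute (v .t) (hV M v i)
  krx : ∀ i, Commute (v .k) (rxV M v i)
  ktau : Commute (v .k) (wev v (tauW M (M.root1 e)))
  base_bt : ∀ g ∈ (List.finRange M.d).map G0.y ++ (List.finRange M.nr).map G0.r ++
      (List.finRange n).map G0.x ++ [.t, .k],
    ∀ b ∈ (List.finRange n).map G0.xa ++ (List.finRange n).map G0.xb ++ [.beta], Commute (v g) (v b)
  ab : ∀ a b, Commute (v (.xa a)) (v (.xb b))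
  beta_a : ∀ a, (v .beta)⁻¹ * v (.xa a) * v .beta = v (.xa a) * v (.xb a)
  rope_u : v .rope * wev v (tauW M (M.root0 e)) * (v .rope)⁻¹ = wev v (tauW M (M.root0 e)) * v .beta
  rope_ku : v .rope * (v .k * wev v (tauW M (M.root0 e)) * (v .k)⁻¹) * (v .rope)⁻¹ =
      v .k * wev v (tauW M (M.root0 e)) * (v .k)⁻¹ * v .beta
  rope_x : ∀ a, v .rope * v (.x a) * (v .rope)⁻¹ = v (.x a) * v (.xa a)
  rope_kx : ∀ a, v .rope * (v .k * v (.x a) * (v .k)⁻¹) * (v .rope)⁻¹ = v .k * v (.x a) * (v .k)⁻¹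

theorem rels0_iff (e : ℕ) : (∀ w ∈ rel0 M e, wev v w = 1) ↔ Rels0 M v e := by
  have hrx : ∀ i, wev v ([(G0.r i, true)] ++ (M.tw i).map fun l => (G0.x l.1, l.2)) = rxV M v i := by
    intro i; rw [wev_append, wev_map, wev_pos, rxV]
  have hku : ∀ u, wev v ([(G0.k, true)] ++ u ++ [(G0.k, false)]) = v .k * wev v u * (v .k)⁻¹ := by
    intro u; rw [wev_append, wev_append, wev_pos, wev_neg]
  have hrope : ∀ u b, wev v (weq ([(G0.rope, true)] ++ u ++ [(G0.rope, false)]) (u ++ b)) = 1 ↔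
      v .rope * wev v u * (v .rope)⁻¹ = wev v u * wev v b := by
    intro u b; rw [wev_weq, wev_append, wev_append, wev_append, wev_pos, wev_neg]
  have hh : ∀ i, wev v (yPow M (-(M.rule i).c1) ++ [(G0.r i, true)] ++ yPow M (M.rule i).c0) = hV M v i := by
    intro i; rw [wev_append, wev_append, wev_pos, hV]
  have h3 : ∀ a : Fin n, wev v [(G0.beta, false), (G0.xa a, true), (G0.beta, true)] =
      (v .beta)⁻¹ * v (.xa a) * v .beta := by
    intro a; rw [wev_cons, wev_cons v (G0.xa a, true) [(G0.beta, true)], wev_neg, wev_pos, wev_pos, mul_assoc]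
  have h2 : ∀ a : Fin n, wev v [(G0.xa a, true), (G0.xb a, true)] = v (.xa a) * v (.xb a) := by
    intro a; rw [wev_cons, wev_pos, wev_pos]
  simp only [rel0, List.forall_mem_append, List.forall_mem_cons, List.forall_mem_flatMap,
      List.forall_mem_map, List.mem_finRange, forall_const, List.not_mem_nil, IsEmpty.forall_iff,
      implies_true, and_true, wev_wcomm, hrope, hku, hrx, wev_pos, hh, wev_nil, mul_one,
      wev_weq, h3, h2, wev_append, wev_neg, wev_replicate_true]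
  constructor
  · rintro ⟨⟨⟨⟨⟨⟨⟨⟨⟨⟨⟨p1, p2⟩, p3⟩, p4⟩, p5⟩, p6⟩, p7⟩, p8⟩, p9⟩, p10, p11⟩, p12⟩, p13⟩
    refine ⟨p1, p2, fun a => (p3 a).1, fun a => (p3 a).2, p4, p5, p6, ?_, p8, p9, p10, p11, p12, p13⟩
    simp only [List.forall_mem_append, List.forall_mem_cons, List.forall_mem_map, List.mem_finRange,
      forall_const, List.not_mem_nil, IsEmpty.forall_iff, implies_true, and_true]
    exact p7
  · intro h
    have hb := h.base_bt
    simp only [List.forall_mem_append, List.forall_mem_cons, List.forall_mem_map, List.mem_finRange,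
      forall_const, List.not_mem_nil, IsEmpty.forall_iff, implies_true, and_true] at hb
    exact ⟨⟨⟨⟨⟨⟨⟨⟨⟨⟨⟨h.yy, h.ry⟩, fun a => ⟨h.xy a, h.xr a⟩⟩, h.th⟩, h.krx⟩, h.ktau⟩, hb⟩,
      h.ab⟩, h.beta_a⟩, h.rope_u, h.rope_ku⟩, h.rope_x⟩, h.rope_kx⟩

end

end Vale.P193
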