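import Vale.Agent.P193.Layer.KL
import Vale.Agent.P193.Layer.Rels
import Vale.Agent.P193.Gen.CentPres
import Mathlib.Algebra.BigOperators.Fin

/-!
P193: the relators of `rel0` present `H0`.
-/

namespace Vale.P193

noncomputable section

variable {n : ℕ} (M : Mach (Fin n))

/-- The list form of a vector. -/
theorem sum_single {d : ℕ} (c : Cfg d) : ((List.finRange d).map fun j => Pi.single j (c j)).sum = c := by
  rw [← Fin.sum_univ_def]
  exact Finset.univ_sum_single c

/-- The value of `yPow c`, through any homomorphism agreeing on the unit vectors. -/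
theorem wev_yPow {H : Type} [Group H] (v : G0 M.d M.nr n → H) (f : Lat M.d →* H)
    (hv : ∀ j, v (.y j) = f (Multiplicative.ofAdd (Pi.single j 1))) (c : Cfg M.d) :
    wev v (yPow M c) = f (Multiplicative.ofAdd c) := by
  have h1 : ∀ (j : Fin M.d) (a : ℤ), wev v (List.replicate a.natAbs (G0.y j, decide (0 ≤ a))) =
      f (Multiplicative.ofAdd (Pi.single j a)) := by
    intro j a
    have hs : (Pi.single j a : Cfg M.d) = a • Pi.single j 1 := by
      funext i
      by_cases hi : i = j
      · subst hi; simp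
      · simp [hi]
    rw [hs, ofAdd_zsmul, map_zpow, ← hv]
    by_cases ha : 0 ≤ a
    · rw [decide_eq_true ha, wev_replicate_true, ← zpow_natCast, Int.natAbs_of_nonneg ha]
    · rw [decide_eq_false ha, wev_replicate_false, ← zpow_natCast, ← zpow_neg]
      congr 1
      omega
  have h2 : ∀ l : List (Fin M.d), wev v (l.flatMap fun j => List.replicate (c j).natAbs (G0.y j, decide (0 ≤ c j))) =
      f (Multiplicative.ofAdd ((l.map fun j => Pi.single j (c j)).sum)) := by
    intro l
    induction l with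
    | nil => simp
    | cons j l ih =>
      rw [List.flatMap_cons, wev_append, h1, ih, List.map_cons, List.sum_cons, ofAdd_add, map_mul]
  rw [yPow, h2, sum_single]

/-- `y^c` inside `K`, as a homomorphism. -/
def yK : Lat M.d →* K M := (gbK M).comp (MultiHNN.of _ _ _)

theorem gbK_Y (c : Cfg M.d) : gbK M (Y M c) = yK M (Multiplicative.ofAdd c) := rfl

theorem wev_tauW {H : Type} [Group H] (v : G0 M.d M.nr n → H) (c : Cfg M.d) :
    wev v (tauW M c) = wev v (yPow M c) * v .t * (wev v (yPow M c))⁻¹ := by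
  rw [tauW, wev_append, wev_append, wev_winv, wev_pos]

section Holds

variable {B : Type} [Group B] (π : FreeGroup (Fin n) →* B) (e : ℕ) (h : PhiHom M π e)

/-- `K` inside `H0`. -/
def inK : K M →* H0 M π e h := (GraphHNN.inM _).comp Cent.base

theorem wev_yPow_H0 (c : Cfg M.d) : wev (g0Val M π e h) (yPow M c) = inK M π e h (gbK M (Y M c)) :=
  wev_yPow M (g0Val M π e h) ((inK M π e h).comp (yK M)) (fun _ => rfl) c

theorem wev_tauW_H0 (c : Cfg M.d) : wev (g0Val M π e h) (tauW M c) = inK M π e h (tau M c) := by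
  rw [wev_tauW, wev_yPow_H0, tau, map_mul, map_mul, map_inv]
  rfl

/-- The rope relation on an element of `Uk`. -/
theorem rope_eq {u : K1 M e} (hu : u ∈ Uk M e) :
    GraphHNN.r (phiHom M π e h) * GraphHNN.inM _ u * (GraphHNN.r (phiHom M π e h))⁻¹ =
      GraphHNN.inM _ u * GraphHNN.inB _ (phi M π e u) := by
  rw [mul_inv_eq_iff_eq_mul]
  exact GraphHNN.r_conj (phiHom M π e h) ⟨u, hu⟩

theorem rels0_H0 (hR : GoodRoot M π e) : Rels0 M (g0Val M π e h) e := by
  have cK : ∀ {a b : Gb M}, Commute a b → Commute (inK M π e h (gbK M a)) (inK M π e h (gbK M b)) :=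
    fun hab => (hab.map (gbK M)).map (inK M π e h)
  have xg : ∀ g a, Commute (inK M π e h (xK M g)) (inK M π e h (gbK M a)) := by
    intro g a
    refine Commute.map (Commute.map ?_ Cent.base) (inK M π e h)
    exact (Commute.one_left _).prod (Commute.one_right _)
  have hU0 : tau M (M.root0 e) ∈ Usub M e := Subgroup.subset_closure (Or.inl rfl)
  have hUx : ∀ a, xK M (FreeGroup.of a) ∈ Usub M e := fun a => Subgroup.subset_closure (Or.inr ⟨a, rfl⟩)
  have hb : ∀ {u}, u ∈ Usub M e → Cent.base u ∈ Uk M e :=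
    fun hu => Subgroup.subset_closure (Or.inl ⟨_, hu, rfl⟩)
  have hk : ∀ {u}, u ∈ Usub M e → Cent.k * Cent.base u * Cent.k⁻¹ ∈ Uk M e :=
    fun hu => Subgroup.subset_closure (Or.inr ⟨_, hu, rfl⟩)
  refine ⟨?_, ?_, ?_, ?_, ?_, ?_, ?_, ?_, ?_, ?_, ?_, ?_, ?_, ?_⟩
  · intro j l
    exact cK ((Commute.all _ _).map (MultiHNN.of _ _ _))
  · intro i j
    have e1 := move_mem M (i := i) (c := (M.rule i).c0) (c' := (M.rule i).c1)
      ⟨0, fun j => by simp, fun j => by simp⟩
    have hm : (M.rule i).Move ((M.rule i).c0 + fun l => ((M.rule i).p l : ℤ) * (Pi.single j 1 : Cfg M.d) l)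
        ((M.rule i).c1 + fun l => ((M.rule i).p' l : ℤ) * (Pi.single j 1 : Cfg M.d) l) :=
      ⟨Pi.single j 1, fun _ => rfl, fun _ => rfl⟩
    have e2 := move_mem M hm
    have hp : ∀ q : Fin M.d → ℕ, (fun l => (q l : ℤ) * (Pi.single j 1 : Cfg M.d) l) = Pi.single j (q j : ℤ) := by
      intro q
      funext l
      by_cases hl : l = j
      · subst hl; simp
      · simp [hl]
    rw [hp, hp, add_comm _ (Pi.single j _), add_comm _ (Pi.single j _), Y_mul, Y_mul, ← mul_assoc,
      mul_assoc (Y M _), ← e1, ← mul_assoc, mul_left_inj] at e2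
    have hy : ∀ q : ℕ, Y M (Pi.single j (q : ℤ)) = Y M (Pi.single j 1) ^ q := by
      intro q
      rw [Y, Y, ← map_pow, ← ofAdd_nsmul]
      congr 2
      funext l
      by_cases hl : l = j
      · subst hl; simp
      · simp [hl]
    rw [hy, hy] at e2
    show inK M π e h (gbK M (R M i)) * inK M π e h (gbK M (Y M (Pi.single j 1))) ^ (M.rule i).p j *
      (inK M π e h (gbK M (R M i)))⁻¹ = inK M π e h (gbK M (Y M (Pi.single j 1))) ^ (M.rule i).p' j
    simp only [← map_pow, ← map_inv, ← map_mul, e2, mul_inv_cancel_right]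
  · intro a j; exact xg _ _
  · intro a i; exact xg _ _
  · intro i
    have hc : Commute (Cent.k : K M) (gbK M (hRule M i)) :=
      (Cent.k_comm (M := M0 M) (L := Hh M) (l := (hRule M i, 1)) (Subgroup.subset_closure ⟨i, rfl⟩)).symm
    have hv : hV M (g0Val M π e h) i = inK M π e h (gbK M (hRule M i)) := by
      rw [hV, wev_yPow_H0, wev_yPow_H0, hRule, map_mul, map_mul, map_mul, map_mul]
      rfl
    rw [hv]
    exact hc.map (inK M π e h)
  · intro i
    have hv : rxV M (g0Val M π e h) i = inK M π e h (gbK M (R M i) * xK M (FreeGroup.mk (M.tw i))) := by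
      rw [rxV, map_mul]
      congr 1
      show _ = ((inK M π e h).comp (xK M)) (FreeGroup.mk (M.tw i))
      have hx : (inK M π e h).comp (xK M) = FreeGroup.lift fun a => g0Val M π e h (.x a) :=
        FreeGroup.ext_hom _ _ fun a => by rw [FreeGroup.lift_apply_of]; rfl
      rw [hx]; rfl
    rw [hv]
    have hc : Commute (Cent.k : K1 M e) (Cent.base (gbK M (R M i) * xK M (FreeGroup.mk (M.tw i)))) :=
      (Cent.k_comm (M := K M) (L := Lsub M e) (l := gbK M (R M i) * xK M (FreeGroup.mk (M.tw i)))
        (Subgroup.subset_closure (Or.inr ⟨i, rfl⟩))).symm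
    exact hc.map (GraphHNN.inM _)
  · rw [wev_tauW_H0]
    have hc : Commute (Cent.k : K1 M e) (Cent.base (tau M (M.root1 e))) :=
      (Cent.k_comm (M := K M) (L := Lsub M e) (l := tau M (M.root1 e))
        (Subgroup.subset_closure (Or.inl rfl))).symm
    exact hc.map (GraphHNN.inM _)
  · intro g hg b hb'
    obtain ⟨z, hz⟩ : ∃ z : K1 M e, g0Val M π e h g = GraphHNN.inM _ z := by
      cases g <;> first | exact ⟨_, rfl⟩ | simp at hg
    obtain ⟨w, hw⟩ : ∃ w : Bt π, g0Val M π e h b = GraphHNN.inB _ w := by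
      cases b <;> first | exact ⟨_, rfl⟩ | simp at hb'
    rw [hz, hw]
    exact GraphHNN.inM_inB_comm _ z w
  · intro a b
    exact Commute.map (GraphHNN.inM_inB_comm (piTop π) (FreeGroup.of a) (π (FreeGroup.of b))) (GraphHNN.inB _)
  · intro a
    have hc := GraphHNN.r_conj (piTop π) ⟨FreeGroup.of a, Subgroup.mem_top _⟩
    have hp : piTop π ⟨FreeGroup.of a, Subgroup.mem_top _⟩ = π (FreeGroup.of a) := rfl
    rw [hp, ← mul_inv_eq_iff_eq_mul] at hc
    simp only [g0Val, beta, ← map_inv, ← map_mul, inv_inv]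
    congr 1
  · rw [wev_tauW_H0]
    refine (rope_eq M π e h (hb hU0)).trans ?_
    rw [phi_base, phiL_tau0]
    rfl
  · rw [wev_tauW_H0]
    have e1 : g0Val M π e h .k * inK M π e h (tau M (M.root0 e)) * (g0Val M π e h .k)⁻¹ =
        GraphHNN.inM _ (Cent.k * Cent.base (tau M (M.root0 e)) * Cent.k⁻¹) := by
      rw [map_mul, map_mul, map_inv]; rfl
    rw [e1]
    refine (rope_eq M π e h (hk hU0)).trans ?_
    rw [phi_kuk hR hU0, phiR_tau0]
    rfl
  · intro a
    refine (rope_eq M π e h (hb (hUx a))).trans ?_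
    rw [phi_base, phiL_xK]
    rfl
  · intro a
    have e1 : g0Val M π e h .k * g0Val M π e h (.x a) * (g0Val M π e h .k)⁻¹ =
        GraphHNN.inM _ (Cent.k * Cent.base (xK M (FreeGroup.of a)) * Cent.k⁻¹) := by
      rw [map_mul, map_mul, map_inv]; rfl
    rw [e1]
    refine (rope_eq M π e h (hk (hUx a))).trans ?_
    rw [phi_kuk hR (hUx a), phiR_xK, map_one, mul_one]

/-- `H0` is generated by the values of its letters. -/
theorem H0_gens (hπ : Function.Surjective π) {Z : Subgroup (H0 M π e h)}
    (hZ : ∀ g, g0Val M π e h g ∈ Z) (y : H0 M π e h) : y ∈ Z := by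
  refine GraphHNN.mem_of_gens ?_ ?_ (hZ .rope) y
  · intro m
    refine Cent.mem_of_gens (K := Z.comap (GraphHNN.inM _)) ?_ (hZ .k) m
    intro k
    refine Cent.mem_of_gens (K := Z.comap (inK M π e h)) ?_ (hZ .t) k
    rintro ⟨a, b⟩
    have hab : ((a, b) : M0 M) = MonoidHom.inl _ _ a * MonoidHom.inr _ _ b := by simp
    rw [hab, map_mul]
    refine Subgroup.mul_mem _ ?_ ?_
    · refine MultiHNN.mem_of_gens _ _ _ (K := Z.comap ((inK M π e h).comp (gbK M))) ?_ (fun i => hZ (.r i)) a
      intro c
      have hc := wev_yPow_H0 M π e h c.toAdd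
      show inK M π e h (gbK M (Y M c.toAdd)) ∈ Z
      rw [← hc]
      induction yPow M c.toAdd with
      | nil => simp
      | cons l w ih =>
        rw [wev_cons]
        refine Z.mul_mem ?_ ih
        obtain ⟨g, _ | _⟩ := l <;> simp [wev_pos, wev_neg, hZ g]
    · show inK M π e h (xK M b) ∈ Z
      clear hab
      induction b using FreeGroup.induction_on with
      | C1 => simp
      | of a => exact hZ (.x a)
      | inv_of a ih => rw [map_inv, map_inv]; exact Z.inv_mem ih
      | mul a b iha ihb => rw [map_mul, map_mul]; exact Z.mul_mem iha ihb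
  · intro b
    refine GraphHNN.mem_of_gens (K := Z.comap (GraphHNN.inB _)) ?_ ?_ ?_ b
    · intro w
      show GraphHNN.inB _ (GraphHNN.inM (piTop π) w) ∈ Z
      induction w using FreeGroup.induction_on with
      | C1 => simp
      | of a => exact hZ (.xa a)
      | inv_of a ih => rw [map_inv, map_inv]; exact Z.inv_mem ih
      | mul a b iha ihb => rw [map_mul, map_mul]; exact Z.mul_mem iha ihb
    · intro c
      obtain ⟨w, rfl⟩ := hπ c
      show GraphHNN.inB _ (GraphHNN.inB (piTop π) (π w)) ∈ Z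
      induction w using FreeGroup.induction_on with
      | C1 => simp
      | of a => exact hZ (.xb a)
      | inv_of a ih => simp only [map_inv] at ih ⊢; exact Z.inv_mem ih
      | mul a b iha ihb => simp only [map_mul]; exact Z.mul_mem iha ihb
    · have := Z.inv_mem (hZ .beta)
      simpa [g0Val, beta, Subgroup.mem_comap] using this

end Holds

end

end Vale.P193
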