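import Vale.Agent.P193.Layer.H0Pres

/-!
P193: values satisfying the relators of `rel0` extend to `H0`. This is where the relations of `B` are derived: a
word killed by `π` is the monodromy of a path between the roots, and the rope then kills its image.
-/

namespace Vale.P193

noncomputable section

theorem commute_free {α H : Type} [Group H] (f : FreeGroup α →* H) {z : H}
    (h : ∀ a, Commute (f (FreeGroup.of a)) z) (w : FreeGroup α) : Commute (f w) z :=
  commute_of_closure f (S := Set.range FreeGroup.of) (by rintro _ ⟨a, rfl⟩; exact h a)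
    (by rw [FreeGroup.closure_range_of]; exact Subgroup.mem_top w)

theorem conj_mul {H : Type} [Group H] (r a b : H) : r * (a * b) * r⁻¹ = r * a * r⁻¹ * (r * b * r⁻¹) := by
  group

variable {n : ℕ} {M : Mach (Fin n)} {e : ℕ} {H : Type} [Group H] {v : G0 M.d M.nr n → H}

namespace Rels0

variable (hv : Rels0 M v e)

/-- On `ℤ^d`. -/
def fLat : Lat M.d →* H := latHom (fun j => v (.y j)) hv.yy

theorem fLat_single (j : Fin M.d) (a : ℤ) :
    hv.fLat (Multiplicative.ofAdd (Pi.single j a)) = v (.y j) ^ a := latHom_single _ _ j a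

theorem wev_yPow_eq (c : Cfg M.d) : wev v (yPow M c) = hv.fLat (Multiplicative.ofAdd c) :=
  wev_yPow M v hv.fLat (fun j => by rw [fLat_single, zpow_one]) c

/-- Multiplication by scales. -/
def scaleHom {d : ℕ} (p : Fin d → ℕ) : Lat d →* Lat d where
  toFun u := Multiplicative.ofAdd fun j => (p j : ℤ) * u.toAdd j
  map_one' := by
    apply Multiplicative.toAdd.injective
    funext j; simp
  map_mul' a b := by
    apply Multiplicative.toAdd.injective
    funext j; simp [mul_add]

theorem scaleHom_single {d : ℕ} (p : Fin d → ℕ) (j : Fin d) (a : ℤ) :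
    scaleHom p (Multiplicative.ofAdd (Pi.single j a)) = Multiplicative.ofAdd (Pi.single j ((p j : ℤ) * a)) := by
  apply Multiplicative.toAdd.injective
  funext l
  show (p l : ℤ) * (Pi.single j a : Cfg d) l = (Pi.single j ((p j : ℤ) * a) : Cfg d) l
  by_cases hl : l = j
  · subst hl; simp
  · simp [hl]

theorem rule_rel (i : Fin M.nr) (a : divSub (M.rule i).p) :
    v (.r i) * hv.fLat a = hv.fLat (latEquiv (M.rule i) a : Lat M.d) * v (.r i) := by
  set u : Cfg M.d := fun j => (a : Lat M.d).toAdd j / ((M.rule i).p j : ℤ) with hu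
  have ea : (a : Lat M.d) = scaleHom (M.rule i).p (Multiplicative.ofAdd u) := by
    apply Multiplicative.toAdd.injective
    funext j
    exact (Int.mul_ediv_cancel' (a.2 j)).symm
  have eb : (latEquiv (M.rule i) a : Lat M.d) = scaleHom (M.rule i).p' (Multiplicative.ofAdd u) := by
    apply Multiplicative.toAdd.injective
    funext j
    exact mul_comm _ _
  rw [ea, eb, ← mul_inv_eq_iff_eq_mul]
  have h := lat_ext (f := (MulAut.conj (v (.r i))).toMonoidHom.comp (hv.fLat.comp (scaleHom (M.rule i).p)))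
    (g := hv.fLat.comp (scaleHom (M.rule i).p')) ?_ u
  · exact h
  · intro j a
    simp only [MonoidHom.comp_apply, MulEquiv.coe_toMonoidHom, MulAut.conj_apply, scaleHom_single, fLat_single]
    rw [zpow_mul, zpow_mul, zpow_natCast, zpow_natCast, ← hv.ry i j, conj_zpow]

/-- On the rules group. -/
def fG : Gb M →* H := MultiHNN.liftHom _ _ _ hv.fLat (fun i => v (.r i)) hv.rule_rel

theorem fG_Y (c : Cfg M.d) : hv.fG (Y M c) = wev v (yPow M c) :=
  (MultiHNN.liftHom_of _ _ _ _ _ _ _).trans (hv.wev_yPow_eq c).symm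

theorem fG_R (i : Fin M.nr) : hv.fG (R M i) = v (.r i) := MultiHNN.liftHom_t _ _ _ _ _ _ i

/-- Commutation with the rules group is checked on its letters. -/
theorem fG_commute {z : H} (hy : ∀ j, Commute (v (.y j)) z) (hr : ∀ i, Commute (v (.r i)) z) (g : Gb M) :
    Commute (hv.fG g) z := by
  have hmem := MultiHNN.mem_of_gens (fun i => divSub (M.rule i).p) (fun i => divSub (M.rule i).p')
    (fun i => latEquiv (M.rule i)) (K := (Subgroup.centralizer {z}).comap hv.fG) ?_ ?_ g
  · exact Subgroup.mem_centralizer_singleton_iff.1 hmem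
  · intro c
    refine Subgroup.mem_centralizer_singleton_iff.2 ?_
    have hc : hv.fG (MultiHNN.of _ _ _ c) = hv.fLat c := MultiHNN.liftHom_of _ _ _ _ _ _ c
    rw [hc]
    have h := lat_ext (f := (MulAut.conj z).toMonoidHom.comp hv.fLat) (g := hv.fLat) ?_ c.toAdd
    · exact (mul_inv_eq_iff_eq_mul.1 (show z * hv.fLat c * z⁻¹ = hv.fLat c from h)).symm
    · intro j a
      simp only [MonoidHom.comp_apply, MulEquiv.coe_toMonoidHom, MulAut.conj_apply, fLat_single]
      rw [((hy j).zpow_left a).symm.eq, mul_inv_cancel_right]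
  · intro i
    refine Subgroup.mem_centralizer_singleton_iff.2 ?_
    rw [show MultiHNN.t _ _ _ i = R M i from rfl, hv.fG_R]
    exact (hr i).eq

/-- On the input letters. -/
def fX : FreeGroup (Fin n) →* H := FreeGroup.lift fun a => v (.x a)

/-- On `Gb × F(X)`. -/
def fM0 : M0 M →* H := MonoidHom.noncommCoprod hv.fG (fX (v := v)) fun g w =>
  (commute_free (fX (v := v)) (fun a => by
    rw [fX, FreeGroup.lift_apply_of]
    exact (hv.fG_commute (fun j => (hv.xy a j).symm) (fun i => (hv.xr a i).symm) g).symm) w).symm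

theorem fM0_apply (a : Gb M) (w : FreeGroup (Fin n)) : hv.fM0 (a, w) = hv.fG a * fX (v := v) w := rfl

theorem fM0_hRule (i : Fin M.nr) : hv.fM0 (hRule M i, 1) = hV M v i := by
  rw [fM0_apply, map_one, mul_one, hRule, map_mul, map_mul, fG_Y, fG_Y, fG_R, hV]

/-- On `K`. -/
def fK : K M →* H := Cent.liftHom hv.fM0 (v .t) fun l hl =>
  commute_of_closure hv.fM0 (by rintro _ ⟨i, rfl⟩; rw [fM0_hRule]; exact (hv.th i).symm) hl

theorem fK_gbK (g : Gb M) : hv.fK (gbK M g) = hv.fG g := by
  rw [fK, gbK, MonoidHom.comp_apply, Cent.liftHom_base, MonoidHom.inl_apply, fM0_apply, map_one, mul_one]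

theorem fK_xK (w : FreeGroup (Fin n)) : hv.fK (xK M w) = fX (v := v) w := by
  rw [fK, xK, MonoidHom.comp_apply, Cent.liftHom_base, MonoidHom.inr_apply, fM0_apply, map_one, one_mul]

theorem fK_k : hv.fK Cent.k = v .t := Cent.liftHom_k _ _ _

theorem fK_tau (c : Cfg M.d) : hv.fK (tau M c) = wev v (tauW M c) := by
  rw [tau, map_mul, map_mul, map_inv, fK_gbK, fG_Y, fK_k, wev_tauW]

theorem commute_k_Lsub (l : K M) (hl : l ∈ Lsub M e) : Commute (hv.fK l) (v .k) := by
  refine commute_of_closure hv.fK (S := insert (tau M (M.root1 e))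
    (Set.range fun i => gbK M (R M i) * xK M (FreeGroup.mk (M.tw i)))) ?_ hl
  rintro _ (rfl | ⟨i, rfl⟩)
  · rw [fK_tau]; exact hv.ktau.symm
  · show Commute (hv.fK (gbK M (R M i) * xK M (FreeGroup.mk (M.tw i)))) (v .k)
    rw [map_mul, fK_gbK, fG_R, fK_xK]
    exact (hv.krx i).symm

/-- On `K1`. -/
def fK1 : K1 M e →* H := Cent.liftHom hv.fK (v .k) hv.commute_k_Lsub

theorem fK1_base (x : K M) : hv.fK1 (Cent.base x) = hv.fK x := Cent.liftHom_base _ _ _ x

theorem fK1_k : hv.fK1 Cent.k = v .k := Cent.liftHom_k _ _ _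

/-- Commutation with `K1` is checked on its letters. -/
theorem fK1_commute {z : H} (hy : ∀ j, Commute (v (.y j)) z) (hr : ∀ i, Commute (v (.r i)) z)
    (hx : ∀ a, Commute (v (.x a)) z) (ht : Commute (v .t) z) (hk : Commute (v .k) z) (m : K1 M e) :
    Commute (hv.fK1 m) z := by
  refine Subgroup.mem_centralizer_singleton_iff.1
    (Cent.mem_of_gens (K := (Subgroup.centralizer {z}).comap hv.fK1) ?_ ?_ m)
  · intro x
    refine Subgroup.mem_centralizer_singleton_iff.2 ?_
    rw [fK1_base]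
    refine Subgroup.mem_centralizer_singleton_iff.1
      (Cent.mem_of_gens (K := (Subgroup.centralizer {z}).comap hv.fK) ?_ ?_ x)
    · rintro ⟨a, w⟩
      refine Subgroup.mem_centralizer_singleton_iff.2 ?_
      have h1 : hv.fK (Cent.base (a, w)) = hv.fG a * fX (v := v) w := by
        rw [fK, Cent.liftHom_base, fM0_apply]
      rw [h1]
      exact ((hv.fG_commute hy hr a).mul_left (commute_free (fX (v := v))
        (fun b => by rw [fX, FreeGroup.lift_apply_of]; exact hx b) w)).eq
    · refine Subgroup.mem_centralizer_singleton_iff.2 ?_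
      rw [fK_k]; exact ht.eq
  · refine Subgroup.mem_centralizer_singleton_iff.2 ?_
    rw [fK1_k]; exact hk.eq

/-- On the inputs of `Bt`. -/
def fA : FreeGroup (Fin n) →* H := FreeGroup.lift fun a => v (.xa a)

/-- On the images in `B`, before dividing by `ker π`. -/
def fBfree : FreeGroup (Fin n) →* H := FreeGroup.lift fun a => v (.xb a)

theorem k1_bt (m : K1 M e) : (∀ a, Commute (hv.fK1 m) (v (.xa a))) ∧ (∀ a, Commute (hv.fK1 m) (v (.xb a))) ∧
    Commute (hv.fK1 m) (v .beta) := by
  have key : ∀ b ∈ (List.finRange n).map G0.xa ++ (List.finRange n).map G0.xb ++ [G0.beta],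
      Commute (hv.fK1 m) (v b) := fun b hb =>
    hv.fK1_commute (fun j => hv.base_bt _ (by simp) b hb) (fun i => hv.base_bt _ (by simp) b hb)
      (fun a => hv.base_bt _ (by simp) b hb) (hv.base_bt _ (by simp) b hb) (hv.base_bt _ (by simp) b hb) m
  exact ⟨fun a => key _ (by simp), fun a => key _ (by simp), key _ (by simp)⟩

include hv

theorem rope_fX (w : FreeGroup (Fin n)) :
    v .rope * fX (v := v) w * (v .rope)⁻¹ = fX (v := v) w * fA (v := v) w := by
  have hc : ∀ a b, Commute (fX (v := v) a) (fA (v := v) b) := fun a b => by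
    rw [← hv.fK_xK, ← hv.fK1_base]
    exact (commute_free (fA (v := v)) (fun c => by
      rw [fA, FreeGroup.lift_apply_of]; exact ((hv.k1_bt _).1 c).symm) b).symm
  have h : (MulAut.conj (v .rope)).toMonoidHom.comp (fX (v := v)) =
      (MonoidHom.noncommCoprod (fX (v := v)) (fA (v := v)) hc).comp
        ((MonoidHom.id _).prod (MonoidHom.id _)) :=
    FreeGroup.ext_hom _ _ fun a => by
      simpa [fX, fA] using hv.rope_x a
  simpa using DFunLike.congr_fun h w

theorem rope_kfX (w : FreeGroup (Fin n)) :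
    v .rope * (v .k * fX (v := v) w * (v .k)⁻¹) * (v .rope)⁻¹ = v .k * fX (v := v) w * (v .k)⁻¹ := by
  have h : (MulAut.conj (v .rope)).toMonoidHom.comp ((MulAut.conj (v .k)).toMonoidHom.comp (fX (v := v))) =
      (MulAut.conj (v .k)).toMonoidHom.comp (fX (v := v)) :=
    FreeGroup.ext_hom _ _ fun a => by
      simpa [fX] using hv.rope_kx a
  simpa using DFunLike.congr_fun h w

theorem beta_fA (w : FreeGroup (Fin n)) :
    (v .beta)⁻¹ * fA (v := v) w * v .beta = fA (v := v) w * fBfree (v := v) w := by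
  have hc : ∀ a b, Commute (fA (v := v) a) (fBfree (v := v) b) := fun a b =>
    commute_free (fA (v := v)) (fun c => (commute_free (fBfree (v := v)) (fun d => by
      rw [fA, fBfree, FreeGroup.lift_apply_of, FreeGroup.lift_apply_of]; exact (hv.ab c d).symm) b).symm) a
  have h : (MulAut.conj (v .beta)⁻¹).toMonoidHom.comp (fA (v := v)) =
      (MonoidHom.noncommCoprod (fA (v := v)) (fBfree (v := v)) hc).comp
        ((MonoidHom.id _).prod (MonoidHom.id _)) :=
    FreeGroup.ext_hom _ _ fun a => by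
      simpa [fA, fBfree] using hv.beta_a a
  simpa using DFunLike.congr_fun h w

omit hv in
/-- The letter over `root0` with a killed input lies in `L`. -/
theorem conj_tau0_mem (S : M.Spec) {w : Wd (Fin n)} (hw : Acc e w) :
    xK M (FreeGroup.mk w) * tau M (M.root0 e) * (xK M (FreeGroup.mk w))⁻¹ ∈ Lsub M e := by
  have hl : xK M (FreeGroup.mk w) * tau M (M.root0 e) * (xK M (FreeGroup.mk w))⁻¹ =
      Cent.letter (ptLetter M (M.root0 e) (FreeGroup.mk w)) := by
    rw [tau_eq]
    show SemidirectProduct.inr _ * SemidirectProduct.inl _ * (SemidirectProduct.inr _)⁻¹ = _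
    rw [← map_inv, ← SemidirectProduct.inl_aut, Cent.centAct_of, inX_smul_pt, mul_one]
    rfl
  rw [hl, mem_Lsub_iff]
  classical exact ⟨1, by simp [Cent.letter], lettersIn_of (root_mem_Orb_of_acc M S hw)⟩

/-- The image of an accepted word is killed. -/
theorem fBfree_eq_one (S : M.Spec) {w : Wd (Fin n)} (hw : Acc e w) :
    fBfree (v := v) (FreeGroup.mk w) = 1 := by
  have hcK := hv.commute_k_Lsub _ (conj_tau0_mem S hw)
  rw [map_mul, map_mul, map_inv, fK_xK, fK_tau] at hcK
  have hW := hv.rope_fX (FreeGroup.mk w)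
  have hKW := hv.rope_kfX (FreeGroup.mk w)
  have hbA := hv.beta_fA (FreeGroup.mk w)
  have hbeta : ∀ m : K1 M e, Commute (hv.fK1 m) (v .beta) := fun m => (hv.k1_bt m).2.2
  have cW : Commute (fX (v := v) (FreeGroup.mk w)) (v .beta) := by
    have := hbeta (Cent.base (xK M (FreeGroup.mk w)))
    rwa [fK1_base, fK_xK] at this
  have cT : Commute (wev v (tauW M (M.root0 e))) (v .beta) := by
    have := hbeta (Cent.base (tau M (M.root0 e)))
    rwa [fK1_base, fK_tau] at this
  have cTA : Commute (wev v (tauW M (M.root0 e))) (fA (v := v) (FreeGroup.mk w)) := by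
    rw [← fK_tau hv, ← fK1_base hv]
    exact (commute_free (fA (v := v)) (fun c => by
      rw [fA, FreeGroup.lift_apply_of]; exact ((hv.k1_bt _).1 c).symm) _).symm
  have cK : Commute (v .k) (v .beta) := by
    have := hbeta Cent.k
    rwa [fK1_k] at this
  have hR := hv.rope_u
  have hRK := hv.rope_ku
  generalize fX (v := v) (FreeGroup.mk w) = W at *
  generalize fA (v := v) (FreeGroup.mk w) = A at *
  generalize fBfree (v := v) (FreeGroup.mk w) = Bw at *
  generalize wev v (tauW M (M.root0 e)) = T at *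
  generalize v .rope = r at *
  generalize v .k = k at *
  generalize v .beta = b at *
  have h1 : r * (W * T * W⁻¹) * r⁻¹ = W * T * W⁻¹ * b := by
    have hk : k * (W * T * W⁻¹) * k⁻¹ = W * T * W⁻¹ := by rw [← hcK.eq, mul_inv_cancel_right]
    have e1 : k * (W * T * W⁻¹) * k⁻¹ = (k * W * k⁻¹) * (k * T * k⁻¹) * (k * W * k⁻¹)⁻¹ := by group
    conv_lhs => rw [← hk, e1, conj_mul, conj_mul, ← conj_inv, hKW, hRK]
    calc k * W * k⁻¹ * (k * T * k⁻¹ * b) * (k * W * k⁻¹)⁻¹
        = k * W * k⁻¹ * (k * T * k⁻¹) * (b * (k * W * k⁻¹)⁻¹) := by group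
      _ = k * W * k⁻¹ * (k * T * k⁻¹) * ((k * W * k⁻¹)⁻¹ * b) := by
          rw [((cK.mul_left cW).mul_left cK.inv_left).inv_left.symm.eq]
      _ = W * T * W⁻¹ * b := by rw [← mul_assoc, ← e1, hk]
  have h2 : r * (W * T * W⁻¹) * r⁻¹ = W * T * (A * b * A⁻¹) * W⁻¹ := by
    rw [conj_mul, conj_mul, ← conj_inv, hW, hR]
    calc W * A * (T * b) * (W * A)⁻¹ = W * (A * T) * b * A⁻¹ * W⁻¹ := by group
      _ = W * T * (A * b * A⁻¹) * W⁻¹ := by rw [← cTA.eq]; group
  have h3 : A * b * A⁻¹ = b := by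
    have h4 := h2.symm.trans h1
    calc A * b * A⁻¹ = (W * T)⁻¹ * (W * T * (A * b * A⁻¹) * W⁻¹) * W := by group
      _ = (W * T)⁻¹ * (W * T * W⁻¹ * b) * W := by rw [h4]
      _ = W⁻¹ * (b * W) := by group
      _ = b := by rw [← cW.eq, inv_mul_cancel_left]
  have h5 : b⁻¹ * A * b = A := by
    rw [mul_inv_eq_iff_eq_mul] at h3
    rw [mul_assoc, h3, inv_mul_cancel_left]
  rw [h5] at hbA
  simpa using hbA.symm

end Rels0

section Lift

variable {B : Type} [Group B] {π : FreeGroup (Fin n) →* B} {h : PhiHom M π e}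

theorem exists_lift (S : M.Spec) (hv : Rels0 M v e) (hπ : Function.Surjective π) (hG : Good π e)
    (hR : GoodRoot M π e) : ∃ F : H0 M π e h →* H, ∀ g, F (g0Val M π e h g) = v g := by
  have hker : π.ker ≤ (Rels0.fBfree (v := v)).ker := by
    intro w hw
    obtain ⟨l, rfl⟩ : ∃ l, FreeGroup.mk l = w := Quot.exists_rep w
    exact hv.fBfree_eq_one S ((hG l).2 hw)
  set fB : B →* H := π.liftOfSurjective hπ ⟨Rels0.fBfree (v := v), hker⟩ with hfB
  have hfBπ : ∀ w, fB (π w) = Rels0.fBfree (v := v) w :=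
    fun w => MonoidHom.liftOfRightInverse_comp_apply _ _ _ _ w
  have hcAB : ∀ a b, Commute (Rels0.fA (v := v) a) (fB b) := by
    intro a b
    obtain ⟨w, rfl⟩ := hπ b
    rw [hfBπ]
    exact commute_free (Rels0.fA (v := v)) (fun c => (commute_free (Rels0.fBfree (v := v)) (fun d => by
      rw [Rels0.fA, Rels0.fBfree, FreeGroup.lift_apply_of, FreeGroup.lift_apply_of]
      exact (hv.ab c d).symm) w).symm) a
  have hxB : ∀ u ∈ (Set.univ : Set (⊤ : Subgroup (FreeGroup (Fin n)))),
      (v .beta)⁻¹ * Rels0.fA (v := v) u = Rels0.fA (v := v) u * fB (piTop π u) * (v .beta)⁻¹ := by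
    rintro ⟨u, hu⟩ -
    rw [show piTop π ⟨u, hu⟩ = π u from rfl, hfBπ, ← hv.beta_fA u, mul_inv_cancel_right]
  let fBt : Bt π →* H := GraphHNN.liftHom (piTop π) (Rels0.fA (v := v)) fB hcAB (v .beta)⁻¹
    Subgroup.closure_univ hxB
  have hbt_beta : fBt (beta π) = v .beta := by
    simp only [fBt, beta, map_inv, GraphHNN.liftHom_r, inv_inv]
  have hc : ∀ m b, Commute (hv.fK1 m) (fBt b) := by
    intro m b
    refine (Subgroup.mem_centralizer_singleton_iff.1 (GraphHNN.mem_of_gens
      (K := (Subgroup.centralizer {hv.fK1 m}).comap fBt) ?_ ?_ ?_ b)).symm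
    · intro w
      refine Subgroup.mem_centralizer_singleton_iff.2 ?_
      rw [GraphHNN.liftHom_inM]
      exact (commute_free (Rels0.fA (v := v)) (fun c => by
        rw [Rels0.fA, FreeGroup.lift_apply_of]; exact ((hv.k1_bt m).1 c).symm) w).eq
    · intro c
      obtain ⟨w, rfl⟩ := hπ c
      refine Subgroup.mem_centralizer_singleton_iff.2 ?_
      rw [GraphHNN.liftHom_inB, hfBπ]
      exact (commute_free (Rels0.fBfree (v := v)) (fun c => by
        rw [Rels0.fBfree, FreeGroup.lift_apply_of]; exact ((hv.k1_bt m).2.1 c).symm) w).eq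
    · refine Subgroup.mem_centralizer_singleton_iff.2 ?_
      rw [GraphHNN.liftHom_r]
      exact ((hv.k1_bt m).2.2.symm.inv_left).eq
  -- the rope relation on all of `Uk`
  let f1 : Uk M e →* H := (MulAut.conj (v .rope)).toMonoidHom.comp (hv.fK1.comp (Uk M e).subtype)
  let f2 : Uk M e →* H := (MonoidHom.noncommCoprod hv.fK1 fBt hc).comp ((Uk M e).subtype.prod (phiHom M π e h))
  have hsub : Uk M e ≤ (f1.eqLocus f2).map (Uk M e).subtype := by
    have hE : ∀ {m : K1 M e} (hm : m ∈ Uk M e),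
        v .rope * hv.fK1 m * (v .rope)⁻¹ = hv.fK1 m * fBt (phi M π e m) →
          m ∈ (f1.eqLocus f2).map (Uk M e).subtype :=
      fun {m} hm hh => ⟨⟨m, hm⟩, by simpa [f1, f2, MonoidHom.eqLocus, phiHom] using hh, rfl⟩
    have hb : ∀ {u}, u ∈ Usub M e → Cent.base u ∈ Uk M e :=
      fun hu => Subgroup.subset_closure (Or.inl ⟨_, hu, rfl⟩)
    have hk : ∀ {u}, u ∈ Usub M e → Cent.k * Cent.base u * Cent.k⁻¹ ∈ Uk M e :=
      fun hu => Subgroup.subset_closure (Or.inr ⟨_, hu, rfl⟩)
    have hU0 : tau M (M.root0 e) ∈ Usub M e := Subgroup.subset_closure (Or.inl rfl)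
    have hUx : ∀ a, xK M (FreeGroup.of a) ∈ Usub M e := fun a => Subgroup.subset_closure (Or.inr ⟨a, rfl⟩)
    have hbase : Usub M e ≤ ((f1.eqLocus f2).map (Uk M e).subtype).comap Cent.base := by
      rw [Usub, Subgroup.closure_le]
      rintro _ (rfl | ⟨a, rfl⟩)
      · refine hE (hb hU0) ?_
        rw [phi_base, phiL_tau0, hbt_beta, Rels0.fK1_base, Rels0.fK_tau]
        exact hv.rope_u
      · refine hE (hb (hUx a)) ?_
        rw [phi_base, phiL_xK, Rels0.fK1_base, Rels0.fK_xK, GraphHNN.liftHom_inM, Rels0.fX, Rels0.fA,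
          FreeGroup.lift_apply_of, FreeGroup.lift_apply_of]
        exact hv.rope_x a
    have hconj : Usub M e ≤ ((f1.eqLocus f2).map (Uk M e).subtype).comap
        ((MulAut.conj Cent.k).toMonoidHom.comp Cent.base) := by
      rw [Usub, Subgroup.closure_le]
      rintro _ (rfl | ⟨a, rfl⟩)
      · refine hE (hk hU0) ?_
        simp only [MonoidHom.comp_apply, MulEquiv.coe_toMonoidHom, MulAut.conj_apply]
        rw [phi_kuk hR hU0, phiR_tau0, hbt_beta, map_mul, map_mul, map_inv, Rels0.fK1_k, Rels0.fK1_base,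
          Rels0.fK_tau]
        exact hv.rope_ku
      · refine hE (hk (hUx a)) ?_
        simp only [MonoidHom.comp_apply, MulEquiv.coe_toMonoidHom, MulAut.conj_apply]
        rw [phi_kuk hR (hUx a), phiR_xK, map_one, mul_one, map_mul, map_mul, map_inv, Rels0.fK1_k,
          Rels0.fK1_base, Rels0.fK_xK, Rels0.fX, FreeGroup.lift_apply_of]
        exact hv.rope_kx a
    refine (Subgroup.closure_le (K := (f1.eqLocus f2).map (Uk M e).subtype)).2 ?_
    rintro _ (⟨u, hu, rfl⟩ | ⟨u, hu, rfl⟩)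
    exacts [hbase hu, hconj hu]
  have hx : ∀ u ∈ (Set.univ : Set (Uk M e)),
      v .rope * hv.fK1 u = hv.fK1 u * fBt (phiHom M π e h u) * v .rope := by
    rintro u -
    obtain ⟨u', hu', hval⟩ := hsub u.2
    obtain rfl : u' = u := Subtype.ext hval
    rw [← mul_inv_eq_iff_eq_mul]
    exact hu'
  refine ⟨GraphHNN.liftHom (phiHom M π e h) hv.fK1 fBt hc (v .rope) Subgroup.closure_univ hx, ?_⟩
  intro g
  cases g with
  | y j =>
    rw [g0Val, GraphHNN.liftHom_inM, Rels0.fK1_base, Rels0.fK_gbK]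
    refine (MultiHNN.liftHom_of _ _ _ _ _ _ _).trans ?_
    rw [Rels0.fLat_single, zpow_one]
  | r i => rw [g0Val, GraphHNN.liftHom_inM, Rels0.fK1_base, Rels0.fK_gbK, Rels0.fG_R]
  | x a => rw [g0Val, GraphHNN.liftHom_inM, Rels0.fK1_base, Rels0.fK_xK, Rels0.fX, FreeGroup.lift_apply_of]
  | t => rw [g0Val, GraphHNN.liftHom_inM, Rels0.fK1_base, Rels0.fK_k]
  | k => rw [g0Val, GraphHNN.liftHom_inM, Rels0.fK1_k]
  | xa a => rw [g0Val, GraphHNN.liftHom_inB, GraphHNN.liftHom_inM, Rels0.fA, FreeGroup.lift_apply_of]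
  | xb a => rw [g0Val, GraphHNN.liftHom_inB, GraphHNN.liftHom_inB, hfBπ, Rels0.fBfree, FreeGroup.lift_apply_of]
  | beta => rw [g0Val, GraphHNN.liftHom_inB, hbt_beta]
  | rope => rw [g0Val, GraphHNN.liftHom_r]

end Lift

end

end Vale.P193
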