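import Vale.Agent.P193.Layer.BtWords

/-!
P193 M5: the layer `H0`, for any rope into `Bt`: certificates for `≠ 1` and for `not in the image of B`, built from
certificates of the first factor, and the linear bound for elements of `B`.
-/

namespace Vale.P193

noncomputable section

open GraphHNN

variable {n : ℕ} {B : Type} [Group B] {π : FreeGroup (Fin n) →* B}
variable {K : Type} [Group K] {U : Subgroup K} (φ : U →* Bt π)
variable {αK : Type} (vK : αK → K)

/-- Alphabet of `H0`: the letters of the first factor, those of `Bt`, and the rope. -/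
abbrev H0L (αK : Type) (n : ℕ) := GLet αK (BL n)

/-- Values of the letters. -/
def h0Val : H0L αK n → GraphHNN φ := gVal φ vK (blVal π)

/-- The image of `B`. -/
def bH0 : B →* GraphHNN φ := (inB φ).comp (inB (piTop π))

/-- A word of `Bt` as a word of `H0`. -/
def btUp (v : Wd (BL n)) : Wd (H0L αK n) := v.map fun l => (Sum.inr (Sum.inl l.1), l.2)

theorem wev_btUp (v : Wd (BL n)) : wev (h0Val φ vK) (btUp v) = inB φ (wev (blVal π) v) := by
  rw [btUp, wev_map _ (fun a : BL n => Sum.inr (Sum.inl a)), hom_wev]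
  rfl

theorem bH0_injective : Function.Injective (bH0 φ) :=
  (inB_injective (φ := φ)).comp (inB_injective (φ := piTop π))

variable (NUk NK : Wd αK → Prop) (O : Wd (Fin n) → Prop) (N : ℕ) (Dr : Wd (H0L αK n) → Prop)

/-- Derivability in `Bt`, read in `H0`. -/
def DrBt (v : Wd (BL n)) : Prop := Dr (btUp v)

/-- `≠ 1` in `H0`. -/
def NegH0 (w : Wd (H0L αK n)) : Prop := NegG NUk NK (NegBt O N (DrBt Dr)) Dr w

/-- Not in the image of `B` in `H0`. -/
def NotBH0 (w : Wd (H0L αK n)) : Prop :=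
  NotG NUk NK (NegBt O N (DrBt Dr)) (NotBt O N (DrBt Dr)) Dr w

variable {φ vK NUk NK O N Dr}

theorem drBt_sound (hDr : ∀ w, Dr w → wev (h0Val φ vK) w = 1) (v : Wd (BL n)) (h : DrBt Dr v) :
    wev (blVal π) v = 1 :=
  inB_injective (φ := φ) (by rw [← wev_btUp φ vK, hDr _ h, map_one])

theorem drBt_complete (hDr : ∀ w, wev (h0Val φ vK) w = 1 → Dr w) (v : Wd (BL n))
    (h : wev (blVal π) v = 1) : DrBt Dr v :=
  hDr _ (by rw [wev_btUp, h, map_one])

theorem negH0_sound (hNUk : ∀ m, NUk m → wev vK m ∉ U) (hNK : ∀ m, NK m → wev vK m ≠ 1)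
    (hO : ∀ v : Wd (Fin n), v.length ≤ N → O v → π (FreeGroup.mk v) ≠ 1)
    (hDr : ∀ w, Dr w → wev (h0Val φ vK) w = 1) {w : Wd (H0L αK n)}
    (h : NegH0 NUk NK O N Dr w) : wev (h0Val φ vK) w ≠ 1 :=
  negG_sound (φ := φ) (vM := vK) (vB := blVal π) hNUk hNK
    (fun _ hb => negBt_sound hO (drBt_sound hDr) hb) hDr h

theorem negH0_complete {C : ℕ} (hC : WordBound φ vK (blVal π) C) {w : Wd (H0L αK n)}
    (hNUk : ∀ m, m.length ≤ w.length → wev vK m ∉ U → NUk m)
    (hNK : ∀ m, m.length ≤ w.length → wev vK m ≠ 1 → NK m)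
    (hO : ∀ v : Wd (Fin n), v.length ≤ N → π (FreeGroup.mk v) ≠ 1 → O v)
    (hDr : ∀ w, wev (h0Val φ vK) w = 1 → Dr w) (hN : 3 * ((2 * C + 1) * w.length) ≤ N)
    (h : wev (h0Val φ vK) w ≠ 1) : NegH0 NUk NK O N Dr w :=
  negG_complete hC hNUk hNK
    (fun b hb hb1 => negBt_complete hO (drBt_complete hDr) (by omega) hb1) hDr h

theorem notBH0_sound (hNUk : ∀ m, NUk m → wev vK m ∉ U) (hNK : ∀ m, NK m → wev vK m ≠ 1)
    (hO : ∀ v : Wd (Fin n), v.length ≤ N → O v → π (FreeGroup.mk v) ≠ 1)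
    (hDr : ∀ w, Dr w → wev (h0Val φ vK) w = 1) {w : Wd (H0L αK n)}
    (h : NotBH0 NUk NK O N Dr w) : wev (h0Val φ vK) w ∉ (bH0 φ).range := by
  rintro ⟨b, hb⟩
  exact notG_sound (φ := φ) (vM := vK) (vB := blVal π) hNUk hNK
    (fun _ hb => negBt_sound hO (drBt_sound hDr) hb) (P := ((inB (piTop π)).range : Set (Bt π)))
    (fun _ hb => notBt_sound hO (drBt_sound hDr) hb) hDr h (b := inB (piTop π) b) ⟨b, rfl⟩ hb.symm

theorem notBH0_complete {C : ℕ} (hC : WordBound φ vK (blVal π) C) {w : Wd (H0L αK n)}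
    (hNUk : ∀ m, m.length ≤ w.length → wev vK m ∉ U → NUk m)
    (hNK : ∀ m, m.length ≤ w.length → wev vK m ≠ 1 → NK m)
    (hO : ∀ v : Wd (Fin n), v.length ≤ N → π (FreeGroup.mk v) ≠ 1 → O v)
    (hDr : ∀ w, wev (h0Val φ vK) w = 1 → Dr w) (hN : 3 * ((2 * C + 1) * w.length) ≤ N)
    (h : wev (h0Val φ vK) w ∉ (bH0 φ).range) : NotBH0 NUk NK O N Dr w :=
  notG_complete hC (P := ((inB (piTop π)).range : Set (Bt π))) hNUk hNK
    (fun b hb hb1 => negBt_complete hO (drBt_complete hDr) (by omega) hb1)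
    (fun b hb hb1 => notBt_complete hO (drBt_complete hDr)
      (le_trans (Nat.mul_le_mul_left 3 (hb.trans (Nat.mul_le_mul_right _ (by omega)))) hN) hb1)
    hDr fun b ⟨b', hb'⟩ hb1 => h ⟨b', by rw [bH0, MonoidHom.comp_apply, hb']; exact hb1.symm⟩

/-- An element of `B` has a short word. -/
theorem h0_bWord {C : ℕ} (hC : WordBound φ vK (blVal π) C) (w : Wd (H0L αK n)) {b : B}
    (h : wev (h0Val φ vK) w = bH0 φ b) :
    ∃ v : Wd (Fin n), v.length ≤ 2 * ((C + 1) * w.length) ∧ π (FreeGroup.mk v) = b := by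
  obtain ⟨u, hu, e⟩ := GraphHNN.bWord hC w (b := inB (piTop π) b) h
  obtain ⟨v, hv, e'⟩ := bt_bWord π u e
  exact ⟨v, hv.trans (Nat.mul_le_mul_left 2 hu), e'⟩

end

end Vale.P193
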