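import Vale.Agent.P193.Layer.H0Univ
import Vale.Agent.P193.Gen.EmbPres
import Mathlib.GroupTheory.FinitelyPresentedGroup

/-!
P193: `HPres` is `H`.
-/

namespace Vale.P193

noncomputable section

variable {n : ℕ} (M : Mach (Fin n))

theorem wev_letW {H : Type*} [Group H] (v : Fin 5 → H) (L0 : ℕ) (w : Wd (G0 M.d M.nr n)) :
    wev v (w.flatMap (letW M L0)) = wev (fun g => wev v (yWord (g0Code g) L0)) w := by
  refine wev_flatMap v (letW M L0) _ (fun l => ?_) w
  obtain ⟨g, _ | _⟩ := l
  · rw [wev_neg]; exact wev_winv _ _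
  · rw [wev_pos]; rfl

/-- The relators of `H`, evaluated. -/
theorem relH_iff {H : Type} [Group H] (v : Fin 5 → H) (L0 e : ℕ) :
    (∀ r ∈ relH M L0 e, wev v r = 1) ↔ Rels0 M (fun g => wev v (yWord (g0Code g) L0)) e := by
  rw [← rels0_iff, relH]
  simp only [List.forall_mem_map, wev_letW]

theorem relH_of (L0 e : ℕ) (r : Wd (Fin 5)) (hr : r ∈ relH M L0 e) :
    wev (PresentedGroup.of : Fin 5 → HPres M L0 e) r = 1 := by
  have h1 : FreeGroup.lift (PresentedGroup.of : Fin 5 → HPres M L0 e) = PresentedGroup.mk _ :=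
    FreeGroup.ext_hom _ _ fun a => FreeGroup.lift_apply_of
  rw [wev, h1]
  exact PresentedGroup.one_of_mem ⟨r, hr, rfl⟩

/-- `HPres` is finitely presented. -/
theorem hPres_fp (L0 e : ℕ) : Group.IsFinitelyPresented (HPres M L0 e) := by
  have hfin : Set.Finite {x : FreeGroup (Fin 5) | ∃ w ∈ relH M L0 e, FreeGroup.mk w = x} :=
    ((relH M L0 e).finite_toSet).image FreeGroup.mk
  have := hfin.to_subtype
  infer_instance

theorem hPres_gens {L0 e : ℕ} {Z : Subgroup (HPres M L0 e)} (hZ : ∀ j, PresentedGroup.of j ∈ Z)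
    (y : HPres M L0 e) : y ∈ Z := PresentedGroup.generated_by _ Z hZ y

variable {B : Type} [Group B] (π : FreeGroup (Fin n) →* B)

/-- The five generators of the tower, and `inP` of a letter. -/
theorem stretch_yWord (e : ℕ) (h : PhiHom M π e) (L0 : ℕ) (g : G0 M.d M.nr n) :
    wev (stretch M π e h L0).five (yWord (g0Code g) L0) =
      (stretch M π e h L0).inP (g0Val M π e h g) :=
  (stretch M π e h L0).five_yWord g

theorem relH_five (e L0 : ℕ) (h : PhiHom M π e) (hR : GoodRoot M π e) (r : Wd (Fin 5))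
    (hr : r ∈ relH M L0 e) : wev (stretch M π e h L0).five r = 1 := by
  obtain ⟨w, hw, rfl⟩ := List.mem_map.1 hr
  have h0 := (rels0_iff M (g0Val M π e h) e).2 (rels0_H0 M π e h hR) w hw
  rw [wev_letW, funext (stretch_yWord M π e h L0)]
  exact ((hom_wev (stretch M π e h L0).inP (g0Val M π e h) w).symm).trans
    ((congrArg _ h0).trans (map_one _))

/-- The map from the presented group. -/
def isoFwd (e L0 : ℕ) (h : PhiHom M π e) (hR : GoodRoot M π e) :
    HPres M L0 e →* HTower M π e h L0 :=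
  PresentedGroup.toGroup (f := (stretch M π e h L0).five) (by
    rintro _ ⟨r, hr, rfl⟩
    exact relH_five M π e L0 h hR r hr)

theorem isoFwd_of (e L0 : ℕ) (h : PhiHom M π e) (hR : GoodRoot M π e) (j : Fin 5) :
    isoFwd M π e L0 h hR (PresentedGroup.of j) = (stretch M π e h L0).five j :=
  PresentedGroup.toGroup.of _

theorem isoFwd_surjective (e L0 : ℕ) (hπ : Function.Surjective π) (h : PhiHom M π e)
    (hR : GoodRoot M π e) : Function.Surjective (isoFwd M π e L0 h hR) := by
  intro y
  refine EmbData.mem_of_gens (D := stretch M π e h L0) (K := (isoFwd M π e L0 h hR).range) ?_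
    (fun j => ⟨_, isoFwd_of M π e L0 h hR j⟩) y
  intro p
  refine H0_gens M π e h hπ (Z := (isoFwd M π e L0 h hR).range.comap (stretch M π e h L0).inP) ?_ p
  intro g
  show (stretch M π e h L0).inP (g0Val M π e h g) ∈ (isoFwd M π e L0 h hR).range
  rw [← stretch_yWord M π e h L0 g]
  refine ⟨wev (PresentedGroup.of : Fin 5 → HPres M L0 e) (yWord (g0Code g) L0), ?_⟩
  exact (hom_wev (isoFwd M π e L0 h hR) _ _).trans
    (congrArg (fun f => wev f (yWord (g0Code g) L0)) (funext (isoFwd_of M π e L0 h hR)))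

/-- The presentation of `H`. -/
theorem hPres_iso (S : M.Spec) (e L0 : ℕ) (hπ : Function.Surjective π) (hG : Good π e)
    (hR : GoodRoot M π e) (h : PhiHom M π e) :
    ∃ f : HPres M L0 e ≃* HTower M π e h L0, ∀ j, f (PresentedGroup.of j) = (stretch M π e h L0).five j := by
  obtain ⟨F, hF⟩ := exists_lift (π := π) (h := h) S
    ((relH_iff M (PresentedGroup.of : Fin 5 → HPres M L0 e) L0 e).1 (relH_of M L0 e)) hπ hG hR
  have hid : ((stretch M π e h L0).liftHom F PresentedGroup.of fun i => (hF i).symm).comp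
      (isoFwd M π e L0 h hR) = MonoidHom.id _ := by
    refine PresentedGroup.ext fun j => ?_
    rw [MonoidHom.comp_apply, isoFwd_of, MonoidHom.id_apply]
    exact EmbData.liftHom_five j
  have hinj : Function.Injective (isoFwd M π e L0 h hR) :=
    Function.LeftInverse.injective (g := (stretch M π e h L0).liftHom F PresentedGroup.of fun i => (hF i).symm)
      (DFunLike.congr_fun hid)
  exact ⟨MulEquiv.ofBijective _ ⟨hinj, isoFwd_surjective M π e L0 hπ h hR⟩, isoFwd_of M π e L0 h hR⟩

end

end Vale.P193
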