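import Vale.Agent.P193.Gen.MultiBound
import Vale.Agent.P193.Layer.Gbar
import Vale.Agent.P193.Layer.Core
import Mathlib.Tactic.Ring

/-! P193: the split lemma. -/

namespace Vale.P193

open HNNExtension HNNExtension.NormalWord

noncomputable section

variable {n : ℕ} {M : Mach (Fin n)} (S : M.Spec)

/-- The size of a lattice element in the guess coordinate. -/
def vSize (a : Lat M.d) : ℕ := (a.toAdd S.Vj).natAbs

theorem vSize_mul (a b : Lat M.d) : vSize S (a * b) ≤ vSize S a + vSize S b :=
  Int.natAbs_add_le _ _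

theorem vSize_one : vSize S (1 : Lat M.d) = 0 := rfl

theorem vSize_scale (i : Fin M.nr) (e : ℤˣ)
    (a : toSubgroup (gbPairs M i).A (gbPairs M i).B e) :
    vSize S (toSubgroupEquiv (gbPairs M i).φ e a : Lat M.d) ≤ S.D * vSize S (a : Lat M.d) := by
  have key : ∀ (p q : ℕ) (x : ℤ), (p : ℤ) ∣ x → q ≤ S.D * p →
      ((q : ℤ) * (x / (p : ℤ))).natAbs ≤ S.D * x.natAbs := by
    rintro p q x ⟨u, rfl⟩ hq
    rcases Nat.eq_zero_or_pos p with rfl | hp
    · simp
    · rw [Int.mul_ediv_cancel_left _ (by exact_mod_cast hp.ne'), Int.natAbs_mul, Int.natAbs_mul,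
        Int.natAbs_natCast, Int.natAbs_natCast, ← mul_assoc]
      exact Nat.mul_le_mul hq le_rfl
  rcases Int.units_eq_one_or e with rfl | rfl
  · exact key _ _ _ (a.2 S.Vj) (S.scale i).1
  · exact key _ _ _ (a.2 S.Vj) (S.scale i).2

/-- Small elements of the rules group. -/
abbrev SmallG (x : Gb M) (L C : ℕ) : Prop := Hnn.Small (gbModel M) (vSize S) x L C

theorem small_liftR : ∀ w : Wd (Fin M.nr), SmallG S (liftR M w) w.length 0
  | [] => ⟨1, [], by simp [Hnn.val, liftR], le_rfl, by simp [vSize_one]⟩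
  | (i, b) :: w => by
    have h := (Hnn.small_letter (gbModel M) (nu := vSize S) (vSize_one S) i (sgnU b)).mul
      (gbModel M) (vSize_mul S) (small_liftR w)
    have e : liftR M ((i, b) :: w) = (gbModel M).τ i ^ (sgnU b : ℤ) * liftR M w := by
      rw [liftR, Core.wev_cons]
      cases b <;> simp [sgnU, gbModel, liftR]
    rw [e]
    exact h.mono (gbModel M) (by simp only [List.length_cons]; omega) le_rfl

theorem small_Y (c : Cfg M.d) : SmallG S (Y M c) 0 (c S.Vj).natAbs :=
  Hnn.small_base (gbModel M) (nu := vSize S) (Multiplicative.ofAdd c)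

theorem off_le (i : Fin M.nr) :
    ((M.rule i).c0 S.Vj).natAbs ≤ S.D ∧ ((M.rule i).c1 S.Vj).natAbs ≤ S.D := by
  obtain ⟨h0, h1⟩ := S.offs i
  constructor
  · have : (((M.rule i).c0 S.Vj).natAbs : ℤ) < S.D := by rw [← Int.abs_eq_natAbs]; exact h0
    omega
  · have : (((M.rule i).c1 S.Vj).natAbs : ℤ) < S.D := by rw [← Int.abs_eq_natAbs]; exact h1
    omega

theorem small_liftH : ∀ q : Wd (Fin M.nr), SmallG S (liftH M q) q.length (2 * S.D * q.length)
  | [] => ⟨1, [], by simp [Hnn.val, liftH], le_rfl, by simp [vSize_one]⟩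
  | (i, b) :: q => by
    obtain ⟨h0, h1⟩ := off_le S i
    have hy : ∀ c : Cfg M.d, (Y M c)⁻¹ = Y M (-c) := fun c =>
      (map_inv (MultiHNN.of _ _ _) (Multiplicative.ofAdd c)).symm
    have hl := small_liftR S [(i, b)]
    have e : ∃ c c' : Cfg M.d, (c S.Vj).natAbs ≤ S.D ∧ (c' S.Vj).natAbs ≤ S.D ∧
        liftH M ((i, b) :: q) = Y M c * liftR M [(i, b)] * Y M c' * liftH M q := by
      rw [liftH, Core.wev_cons, liftR, Core.wev_cons, wev_nil, mul_one]
      cases b
      · refine ⟨-(M.rule i).c0, (M.rule i).c1, ?_, h1, ?_⟩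
        · simpa [Pi.neg_apply] using h0
        · simp [hRule, liftH, ← hy, mul_assoc]
      · refine ⟨-(M.rule i).c1, (M.rule i).c0, ?_, h0, ?_⟩
        · simpa [Pi.neg_apply] using h1
        · simp [hRule, liftH, mul_assoc]
    obtain ⟨c, c', hc, hc', e⟩ := e
    rw [e]
    refine ((((small_Y S c).mul (gbModel M) (vSize_mul S) hl).mul (gbModel M) (vSize_mul S)
      (small_Y S c')).mul (gbModel M) (vSize_mul S) (small_liftH q)).mono (gbModel M) ?_ ?_
    · simp only [List.length_cons, List.length_nil]; omega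
    · simp only [List.length_cons, Nat.mul_add, mul_one]; omega

theorem small_gVal : ∀ s : Wd (Fin M.d ⊕ Fin M.nr), SmallG S (gVal M s) s.length s.length
  | [] => ⟨1, [], by simp [Hnn.val, gVal], le_rfl, by simp [vSize_one]⟩
  | (.inl j, b) :: s => by
    have hy : ∀ c : Cfg M.d, (Y M c)⁻¹ = Y M (-c) := fun c =>
      (map_inv (MultiHNN.of _ _ _) (Multiplicative.ofAdd c)).symm
    have e : gVal M ((.inl j, b) :: s) = Y M (cond b (Pi.single j 1) (-Pi.single j 1)) * gVal M s := by
      rw [gVal, Core.wev_cons]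
      cases b <;> simp [gVal, hy]
    rw [e]
    refine ((small_Y S _).mul (gbModel M) (vSize_mul S) (small_gVal s)).mono (gbModel M) ?_ ?_
    · simp only [List.length_cons]; omega
    · have : ((cond b (Pi.single j 1) (-Pi.single j 1) : Cfg M.d) S.Vj).natAbs ≤ 1 := by
        cases b <;> by_cases hj : S.Vj = j <;> simp [hj]
      simp only [List.length_cons]; omega
  | (.inr i, b) :: s => by
    have e : gVal M ((.inr i, b) :: s) = liftR M [(i, b)] * gVal M s := by
      rw [gVal, Core.wev_cons, liftR, Core.wev_cons, wev_nil, mul_one]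
      cases b <;> simp [gVal]
    rw [e]
    refine ((small_liftR S _).mul (gbModel M) (vSize_mul S) (small_gVal s)).mono (gbModel M) ?_ ?_ <;>
      simp only [List.length_cons, List.length_nil] <;> omega

variable (M) in
/-- A split of an element over a connected configuration. -/
def Splits (x : Gb M) (w : Wd (Fin M.nr)) (c0 : Cfg M.d) (k : ℕ) : Prop :=
  ∃ (v q p : Wd (Fin M.nr)) (c : Cfg M.d), FreeGroup.IsReduced v ∧ FreeGroup.IsReduced q ∧
    v.length + q.length = k ∧ x = liftR M v * Y M c * liftH M q ∧ M.Path p c0 c ∧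
    FreeGroup.mk w = FreeGroup.mk v * FreeGroup.mk p

theorem fix_prod (q : Wd (Fin M.nr)) :
    ((toSigned M q).map fun p =>
      Hnn.fix' (rs := fun i => (M.rule i).toD) (gbModel M) p.1 ^ (p.2 : ℤ)).prod = liftH M q := by
  induction q with
  | nil => simp [toSigned, liftH]
  | cons l q ih =>
    obtain ⟨i, b⟩ := l
    rw [toSigned, List.map_cons, List.map_cons, List.prod_cons, ← toSigned, ih]
    dsimp only
    rw [fix_gbModel, liftH, liftH, Core.wev_cons]
    cases b <;> simp [sgnU, liftH]

theorem hword_length {ι : Type} {k : ℕ} (rs : Fin k → Hnn.DRule ι) :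
    ∀ q : List (Fin k × ℤˣ), (Hnn.hword (rs := rs) q).length = q.length
  | [] => rfl
  | [_] => rfl
  | _ :: q :: l => by simp [Hnn.hword, hword_length rs (q :: l)]

theorem lword_length {ι : Type} {k : ℕ} :
    ∀ (l : List (Fin k × ℤˣ)) (g : Hnn.Y ι) (t : List (Hnn.Lett (Hnn.Y ι) k)), l ≠ [] →
      (Hnn.lword l g t).length = l.length + t.length
  | [_], _, _, _ => by simp [Hnn.lword]; omega
  | _ :: q :: l, g, t, _ => by
    simp [Hnn.lword, lword_length (q :: l) g t (by simp)]; omega

theorem signed_inj {a b : Bool} (h : sgnU a = sgnU b) : a = b := by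
  cases a <;> cases b <;> simp [sgnU] at h ⊢

include S in
/-- A shortest split is no longer than any word of the element. -/
theorem splits_min {x : Gb M} {w : Wd (Fin M.nr)} {c0 : Cfg M.d} {k : ℕ} (h : Splits M x w c0 k)
    (hmin : ∀ k' < k, ¬ Splits M x w c0 k') {s : Wd (Fin M.d ⊕ Fin M.nr)} (hs : gVal M s = x) :
    k ≤ s.length := by
  obtain ⟨v, q, p, c, hv, hq, hk, hx, hp, hw⟩ := h
  set rs := fun i => (M.rule i).toD
  obtain ⟨g, m, hm, hlen, -⟩ := small_gVal S s
  have hqv : Hnn.val (gbModel M).ι (gbModel M).τ (Hnn.hhead (rs := rs) c (toSigned M q))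
      (Hnn.hword (rs := rs) (toSigned M q)) = Y M c * liftH M q := by
    rw [Hnn.val_hword, pt_gbModel, fix_prod]
  have hqred := Hnn.hword_red (rs := rs) (free_toSigned M hq)
  rcases List.eq_nil_or_concat v with hnil | ⟨v', ⟨i, b⟩, hvc⟩
  · subst hnil
    have := Hnn.red_min (gbModel M) m g _ _ hqred
      (by rw [hqv, hm, hs, hx]; simp [liftR])
    rw [hword_length, toSigned, List.length_map] at this
    simp only [List.length_nil] at hk
    omega
  rw [List.concat_eq_append] at hvc
  subst hvc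
  by_cases hj : ∀ a ∈ (Hnn.hword (rs := rs) (toSigned M q)).head?,
      Hnn.hhead (rs := rs) c (toSigned M q) ∈
        toSubgroup (rs i).pair.A (rs i).pair.B (sgnU b) → i = a.1 → sgnU b = a.2.1
  · have hne : toSigned M (v' ++ [(i, b)]) ≠ [] := by simp [toSigned]
    have hred := Hnn.lword_red (free_toSigned M hv) hqred (g := Hnn.hhead (rs := rs) c (toSigned M q))
      (by
        intro p' hp' a ha
        simp only [toSigned, List.map_append, List.map_singleton, List.getLast?_append,
          List.getLast?_singleton, Option.some_or, Option.mem_def, Option.some.injEq] at hp'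
        subst hp'
        exact hj a ha)
    have := Hnn.red_min (gbModel M) m g 1 _ hred
      (by rw [Hnn.val_lword (rs := rs) (gbModel M) _ _ _ hne, hqv, ev_toSigned, hm, hs, hx, mul_assoc])
    rw [lword_length _ _ _ hne, hword_length, toSigned, List.length_map, toSigned,
      List.length_map] at this
    omega
  exfalso
  simp only [not_forall] at hj
  obtain ⟨a, ha, hg, hai, hab⟩ := hj
  rcases q with _ | ⟨⟨i', b'⟩, q'⟩
  · simp [toSigned, Hnn.hword] at ha
  have hap : a.1 = i' ∧ a.2.1 = sgnU b' := by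
    rcases q' with _ | ⟨p'', q''⟩ <;>
    · simp only [toSigned, List.map_cons, List.map_nil, Hnn.hword, List.head?_cons, Option.mem_def,
        Option.some.injEq] at ha
      subst ha
      exact ⟨rfl, rfl⟩
  obtain rfl : i = i' := hai.trans hap.1
  have hbb : b' = !b := by
    have : sgnU b ≠ sgnU b' := fun e => hab (e.trans hap.2.symm)
    revert this
    cases b <;> cases b' <;> simp [sgnU]
  subst hbb
  have hsn : sgnU (!b) = -sgnU b := by cases b <;> simp [sgnU]
  have hmove : Multiplicative.ofAdd (c - (rs i).src (sgnU b)) ∈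
      toSubgroup (rs i).pair.A (rs i).pair.B (sgnU b) := by
    have := hg
    simp only [toSigned, List.map_cons, Hnn.hhead, hsn, Hnn.DRule.dst_neg] at this
    exact this
  obtain ⟨c', hc'⟩ : ∃ c', (rs i).Move (sgnU b) c c' := ⟨_, hmove, rfl⟩
  have hstep := Hnn.move_eq (gbModel M) hc'
  have hlt : v'.length + q'.length < k := by
    simp only [List.length_append, List.length_cons, List.length_nil] at hk
    omega
  refine hmin (v'.length + q'.length) hlt ⟨v', q', (i, b) :: p, c', hv.left_of_append,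
      (List.isChain_cons.1 hq).2, rfl, ?_, ⟨c, hp, step_of_move M hc'⟩, ?_⟩
  · rw [hx]
    rw [pt_gbModel, pt_gbModel, fix_gbModel] at hstep
    have e1 : liftR M (v' ++ [(i, b)]) = liftR M v' * (gbModel M).τ i ^ (sgnU b : ℤ) := by
      rw [liftR, wev_append, liftR]
      cases b <;> simp [sgnU, gbModel, wev]
    have e2 : liftH M ((i, !b) :: q') = (hRule M i ^ (sgnU b : ℤ))⁻¹ * liftH M q' := by
      rw [liftH, Core.wev_cons, liftH]
      cases b <;> simp [sgnU]
    rw [e1, e2, mul_assoc (liftR M v') _ (Y M c), hstep]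
    simp [mul_assoc]
  · rw [hw, ← FreeGroup.mul_mk, mul_assoc, FreeGroup.mul_mk]
    rfl

theorem mk_reduce (w : Wd (Fin M.nr)) :
    FreeGroup.mk (FreeGroup.reduce w) = FreeGroup.mk w := FreeGroup.reduce.self

theorem wev_reduce {G : Type} [Group G] (f : Fin M.nr → G) (w : Wd (Fin M.nr)) :
    wev f (FreeGroup.reduce w) = wev f w := by rw [wev, mk_reduce, wev]

/-- The split lemma. -/
theorem split (s : Wd (Fin M.d ⊕ Fin M.nr)) (w q0 : Wd (Fin M.nr)) (c0 : Cfg M.d)
    (h : gVal M s = liftR M w * Y M c0 * liftH M q0) (_hc0 : |c0 S.Vj| < 1) :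
    ∃ (v q p : Wd (Fin M.nr)) (c : Cfg M.d), v.length ≤ s.length ∧
      gVal M s = liftR M v * Y M c * liftH M q ∧ M.Path p c0 c ∧
      FreeGroup.mk w = FreeGroup.mk v * FreeGroup.mk p ∧
      |c S.Vj| < (S.D : ℤ) ^ (5 * s.length + 2) := by
  classical
  have hex : ∃ k, Splits M (gVal M s) w c0 k := by
    refine ⟨_, FreeGroup.reduce w, FreeGroup.reduce q0, [], c0, FreeGroup.isReduced_iff_reduce_eq.2 FreeGroup.reduce.idem,
      FreeGroup.isReduced_iff_reduce_eq.2 FreeGroup.reduce.idem, rfl, ?_, rfl, ?_⟩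
    · rw [h, liftR, liftR, liftH, liftH, wev_reduce, wev_reduce]
    · simp [mk_reduce, ← FreeGroup.one_eq_mk]
  have hk := splits_min S (Nat.find_spec hex) (fun k' hk' => Nat.find_min hex hk') rfl
  obtain ⟨v, q, p, c, -, -, hlen, hx, hp, hw⟩ := Nat.find_spec hex
  refine ⟨v, q, p, c, by omega, hx, hp, hw, ?_⟩
  have hsmall : SmallG S (Y M c) (v.length + s.length + q.length)
      (0 + s.length + 2 * S.D * q.length) := by
    have hY : Y M c = liftR M (FreeGroup.invRev v) * gVal M s * liftH M (FreeGroup.invRev q) := by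
      rw [hx, liftR, liftR, liftH, liftH, Core.wev_invRev, Core.wev_invRev]
      group
    rw [hY]
    have h1 := small_liftR S (FreeGroup.invRev v)
    have h2 := small_liftH S (FreeGroup.invRev q)
    simp only [FreeGroup.invRev_length] at h1 h2
    exact (h1.mul (gbModel M) (vSize_mul S) (small_gVal S s)).mul (gbModel M) (vSize_mul S) h2
  obtain ⟨g, l, hgl, hL, hC⟩ := hsmall
  have hD : 1 ≤ S.D := le_trans (by norm_num) S.three_le
  have hb := Hnn.base_bound (gbModel M) (vSize S) (vSize_mul S) hD (vSize_scale S)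
    (a := Multiplicative.ofAdd c) (2 * s.length) g l (by omega) hgl
  have hlt : 3 * s.length < S.D ^ (s.length + 1) := by
    calc 3 * s.length < 3 * 3 ^ s.length :=
          Nat.mul_lt_mul_of_pos_left (Nat.lt_pow_self (by norm_num)) (by norm_num)
      _ ≤ S.D * S.D ^ s.length := Nat.mul_le_mul S.three_le (Nat.pow_le_pow_left S.three_le _)
      _ = S.D ^ (s.length + 1) := by ring
  have hC' : 0 + s.length + 2 * S.D * q.length ≤ S.D * (3 * s.length) := by
    have h1 : s.length ≤ S.D * s.length := Nat.le_mul_of_pos_left _ hD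
    have h2 : 2 * S.D * q.length ≤ 2 * S.D * s.length := Nat.mul_le_mul le_rfl (by omega)
    have e1 : S.D * (3 * s.length) = 3 * (S.D * s.length) := Nat.mul_left_comm _ _ _
    have e2 : 2 * S.D * s.length = 2 * (S.D * s.length) := mul_assoc _ _ _
    omega
  have hfin : (c S.Vj).natAbs < S.D ^ (5 * s.length + 2) := by
    calc (c S.Vj).natAbs ≤ S.D ^ (2 * s.length) * (S.D * (3 * s.length)) :=
          hb.trans (Nat.mul_le_mul le_rfl (hC.trans hC'))
      _ < S.D ^ (2 * s.length) * (S.D * S.D ^ (s.length + 1)) :=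
          Nat.mul_lt_mul_of_pos_left (Nat.mul_lt_mul_of_pos_left hlt hD) (Nat.pow_pos hD)
      _ = S.D ^ (3 * s.length + 2) := by ring
      _ ≤ S.D ^ (5 * s.length + 2) := Nat.pow_le_pow_right hD (by omega)
  rw [Int.abs_eq_natAbs]
  exact_mod_cast hfin

/-- The facts about the rules group. -/
theorem gbFacts : GbFacts M S :=
  ⟨validFwd M, split S⟩

end

end Vale.P193
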