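import Vale.Agent.P193.Layer.RelH
import Vale.Agent.P193.Gen.EmbPres

/-!
P193: an r.e. presentation of `T_e` on its input letters; equality in `T_e` is r.e., uniformly in the parameter.
-/

namespace Vale.P193

noncomputable section

open Monoid

variable {nG : ℕ}

/-- The letter of a generator of `A`. -/
def aIdx (j : Fin 5) : Fin (11 + nG) := ⟨j, by omega⟩

/-- The letter `x`. -/
def xIdx : Fin (11 + nG) := ⟨5, by omega⟩

/-- The letter of a generator of `T`. -/
def tIdx (j : Fin 5) : Fin (11 + nG) := ⟨6 + j, by omega⟩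

/-- The letter of a generator of `G`. -/
def gIdx (k : Fin nG) : Fin (11 + nG) := ⟨11 + k, by omega⟩

/-- Rename the letters of a word. -/
def upW {α β : Type} (f : α → β) (w : Wd α) : Wd β := w.map fun l => (f l.1, l.2)

variable (M : Mach (Fin (11 + nG))) (L0 : ℕ) {G : Type} [Group G] (gG : Fin nG → G)

/-- `q_j` as a word. -/
def qWord (j : Fin 5) : Wd (Fin 5) :=
  yWord (g0Code (G0.xb (d := M.d) (nr := M.nr) (⟨6 + j, by omega⟩ : Fin (11 + nG)))) L0

/-- The word of `y_i` (`b = false`) or `z_i` (`b = true`) in the generators of `T`. -/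
def entWord (i : Idx) (b : Bool) : Wd (Fin (11 + nG)) :=
  upW tIdx (yWord (5 + (2 * Encodable.encode i + b.toNat)) (1 + 8 * mu5 i.1))

/-- The relator of a certified index. -/
def idxRel (i : Idx) : Wd (Fin (11 + nG)) :=
  weq (entWord i true) ([(xIdx, false)] ++ winv (entWord i false) ++ upW aIdx i.1)

/-- The relator of an entry `q_j`. -/
def qRel (j : Fin 5) : Wd (Fin (11 + nG)) :=
  weq (upW tIdx (yWord (j : ℕ) L0)) (upW aIdx (qWord M L0 j))

/-- Relators of `T_e`. -/
def RelT (e : ℕ) (r : Wd (Fin (11 + nG))) : Prop :=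
  (∃ w, RelHP M L0 e w ∧ r = upW aIdx w) ∨ (∃ w, wev gG w = 1 ∧ r = upW gIdx w) ∨
    (∃ j, r = qRel M L0 j) ∨ ∃ i, CertAt e i ∧ r = idxRel i

/-! ### Computability -/

theorem primrec_upW {α β : Type} [Primcodable α] [Primcodable β] {f : α → β} (hf : Primrec f) :
    Primrec (upW f) :=
  Primrec.list_map Primrec.id
    ((hf.comp (Primrec.fst.comp Primrec.snd)).pair (Primrec.snd.comp Primrec.snd)).to₂

theorem primrec_yWord' : Primrec₂ yWord := by
  have hrep : ∀ (c : Fin 5 × Bool) {f : ℕ × ℕ → ℕ}, Primrec f → Primrec fun q => List.replicate (f q) c :=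
    fun c {f} hf => primrec_replicate.comp hf (Primrec.const c)
  unfold yWord
  refine Primrec.list_append.comp (Primrec.list_append.comp (Primrec.list_append.comp (Primrec.list_append.comp
    (Primrec.list_append.comp (Primrec.list_append.comp (Primrec.list_append.comp (Primrec.list_append.comp
      (Primrec.const _) (hrep _ Primrec.fst)) (Primrec.const _)) (hrep _ Primrec.fst))
    (hrep _ ?_)) (hrep _ Primrec.fst)) (Primrec.const _)) (hrep _ Primrec.fst)) (Primrec.const _)
  exact Primrec.nat_add.comp Primrec.snd (Primrec.const 2)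

theorem primrec_mu5' : Primrec mu5 := by
  have hs : Primrec₂ fun (_ : Wd (Fin 5)) (q : (Fin 5 × Bool) × ℕ) =>
      if (q.1.1 == 2 || q.1.1 == 3) = true then q.2 + 1 else q.2 := by
    refine Primrec.ite ?_ (Primrec.succ.comp (Primrec.snd.comp Primrec.snd)) (Primrec.snd.comp Primrec.snd)
    exact (Primrec.eq (α := Bool)).comp
      ((Primrec.dom_finite (fun j : Fin 5 => j == 2 || j == 3)).comp (Primrec.fst.comp (Primrec.fst.comp Primrec.snd)))
      (Primrec.const true)
  refine (Primrec.list_foldr (h := fun (_ : Wd (Fin 5)) (q : (Fin 5 × Bool) × ℕ) =>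
      if (q.1.1 == 2 || q.1.1 == 3) = true then q.2 + 1 else q.2) Primrec.id (Primrec.const 0) hs).of_eq ?_
  intro w
  induction w with
  | nil => rfl
  | cons l w ih =>
    simp only [id_eq, List.foldr_cons] at ih ⊢
    rw [ih]
    simp only [mu5, List.countP_cons]
    split_ifs <;> simp_all

theorem primrec_entWord (b : Bool) : Primrec fun i : Idx => (entWord i b : Wd (Fin (11 + nG))) := by
  unfold entWord
  refine (primrec_upW (Primrec.dom_finite tIdx)).comp (primrec_yWord'.comp ?_ ?_)
  · exact Primrec.nat_add.comp (Primrec.const 5) (Primrec.nat_add.comp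
      (Primrec.nat_mul.comp (Primrec.const 2) Primrec.encode) (Primrec.const _))
  · exact Primrec.nat_add.comp (Primrec.const 1) (Primrec.nat_mul.comp (Primrec.const 8)
      (primrec_mu5'.comp Primrec.fst))

theorem primrec_idxRel : Primrec fun i : Idx => (idxRel i : Wd (Fin (11 + nG))) := by
  unfold idxRel weq
  exact Primrec.list_append.comp (primrec_entWord true) (primrec_winvAny.comp
    (Primrec.list_append.comp (Primrec.list_append.comp (Primrec.const _)
      (primrec_winvAny.comp (primrec_entWord false))) ((primrec_upW (Primrec.dom_finite aIdx)).comp Primrec.fst)))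

open Nat.Partrec (Code) in
theorem primrec_CertAt : PrimrecPred fun p : ℕ × Idx => CertAt p.1 p.2 := by
  refine (Primrec.eq (α := Bool)).comp (Primrec.option_isSome.comp (Code.primrec_evaln.comp
    (((Primrec.snd.comp Primrec.snd).pair ((Primrec.ofNat Code).comp Primrec.fst)).pair ?_))) (Primrec.const true)
  exact Primrec₂.natPair.comp (Primrec.const 1) (Primrec.encode.comp (Primrec.fst.comp Primrec.snd))

theorem re_RelT (h0 : Computable M.root0) (h1 : Computable M.root1)
    (hker : REPred fun w : Wd (Fin nG) => wev gG w = 1) :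
    REPred fun p : ℕ × Wd (Fin (11 + nG)) => RelT M L0 gG p.1 p.2 := by
  refine RE.or (RE.exists_ (p := fun (p : ℕ × Wd (Fin (11 + nG))) (w : Wd (Fin 5)) =>
      RelHP M L0 p.1 w ∧ p.2 = upW aIdx w) (RE.and ?_ ?_))
    (RE.or (RE.exists_ (p := fun (p : ℕ × Wd (Fin (11 + nG))) (w : Wd (Fin nG)) =>
      wev gG w = 1 ∧ p.2 = upW gIdx w) (RE.and ?_ ?_))
    (RE.or (RE.exists_ (p := fun (p : ℕ × Wd (Fin (11 + nG))) (j : Fin 5) => p.2 = qRel M L0 j) ?_)
      (RE.exists_ (p := fun (p : ℕ × Wd (Fin (11 + nG))) (i : Idx) => CertAt p.1 i ∧ p.2 = idxRel i)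
        (RE.and ?_ ?_))))
  · exact RE.comp (g := fun z : (ℕ × Wd (Fin (11 + nG))) × Wd (Fin 5) => (z.1.1, z.2))
      (re_RelHP M h0 h1 L0) ((Computable.fst.comp Computable.fst).pair Computable.snd)
  · exact RE.eq (Computable.snd.comp Computable.fst)
      ((primrec_upW (Primrec.dom_finite aIdx)).to_comp.comp Computable.snd)
  · exact RE.comp (g := fun z : (ℕ × Wd (Fin (11 + nG))) × Wd (Fin nG) => z.2) hker Computable.snd
  · exact RE.eq (Computable.snd.comp Computable.fst)
      ((primrec_upW (Primrec.dom_finite gIdx)).to_comp.comp Computable.snd)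
  · exact RE.eq (Computable.snd.comp Computable.fst)
      ((Primrec.dom_finite (qRel M L0)).to_comp.comp Computable.snd)
  · exact RE.comp (g := fun z : (ℕ × Wd (Fin (11 + nG))) × Idx => (z.1.1, z.2))
      (RE.of_primrec primrec_CertAt) ((Computable.fst.comp Computable.fst).pair Computable.snd)
  · exact RE.eq (Computable.snd.comp Computable.fst) (primrec_idxRel.to_comp.comp Computable.snd)

/-! ### The presentation -/

variable (e : ℕ)

theorem tVal_a (p : TPar nG) (j : Fin 5) : p.tVal (aIdx j) = p.emb.inP (Coprod.inl (p.five j)) := by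
  simp [TPar.tVal, aIdx]

theorem tVal_x (p : TPar nG) : p.tVal xIdx = p.emb.inP p.xP := by
  simp [TPar.tVal, xIdx]

theorem tVal_t (p : TPar nG) (j : Fin 5) : p.tVal (tIdx j) = p.emb.five j := by
  have hj : (6 + (j : ℕ)) < 11 := by omega
  have h5 : ¬ (6 + (j : ℕ)) < 5 := by omega
  have h6 : ¬ (6 + (j : ℕ)) = 5 := by omega
  simp [TPar.tVal, tIdx, h5, h6, hj]

theorem tVal_g (p : TPar nG) (k : Fin nG) :
    p.tVal (gIdx k) = p.emb.inP (Coprod.inr (Coprod.inl (p.gG k))) := by
  have h5 : ¬ (11 + (k : ℕ)) < 5 := by omega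
  have h6 : ¬ (11 + (k : ℕ)) = 5 := by omega
  have h11 : ¬ (11 + (k : ℕ)) < 11 := by omega
  simp [TPar.tVal, gIdx, h5, h6, h11]

theorem wev_up_a (p : TPar nG) (w : Wd (Fin 5)) :
    wev p.tVal (upW aIdx w) = p.emb.inP (Coprod.inl (wev p.five w)) := by
  rw [upW, wev_map, funext (tVal_a p)]
  exact ((hom_wev (p.emb.inP.comp Coprod.inl) p.five w)).symm

theorem wev_up_g (p : TPar nG) (w : Wd (Fin nG)) :
    wev p.tVal (upW gIdx w) = p.emb.inP (Coprod.inr (Coprod.inl (wev p.gG w))) := by
  rw [upW, wev_map, funext (tVal_g p)]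
  exact ((hom_wev (p.emb.inP.comp (Coprod.inr.comp Coprod.inl)) p.gG w)).symm

theorem wev_up_t (p : TPar nG) (w : Wd (Fin 5)) : wev p.tVal (upW tIdx w) = wev p.emb.five w := by
  rw [upW, wev_map, funext (tVal_t p)]

theorem relT_holds (r : Wd (Fin (11 + nG))) (hr : RelT M L0 gG e r) :
    wev (tpar M L0 gG e).tVal r = 1 := by
  rcases hr with ⟨w, hw, rfl⟩ | ⟨w, hw, rfl⟩ | ⟨j, rfl⟩ | ⟨i, hi, rfl⟩
  · rw [wev_up_a]
    have : wev (PresentedGroup.of : Fin 5 → HPres M L0 e) w = 1 :=
      (RE.presented_eq_one_iff (RelHP M L0 e) w).2 (Subgroup.subset_normalClosure ⟨w, hw, rfl⟩)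
    rw [show wev (tpar M L0 gG e).five w = 1 from this, map_one, map_one]
  · rw [wev_up_g, show wev (tpar M L0 gG e).gG w = 1 from hw, map_one, map_one, map_one]
  · rw [qRel, wev_weq, wev_up_t, wev_up_a]
    exact EmbData.five_yWord (tpar M L0 gG e).emb (Sum.inl j : (tpar M L0 gG e).Ent)
  · rw [idxRel, wev_weq, wev_append, wev_append, wev_winv, wev_neg, tVal_x, entWord, entWord, wev_up_t,
      wev_up_t, wev_up_a]
    have h1 : wev (tpar M L0 gG e).emb.five (yWord (5 + (2 * Encodable.encode i + true.toNat)) (1 + 8 * mu5 i.1)) =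
        _ := EmbData.five_yWord (tpar M L0 gG e).emb (Sum.inr (⟨i, hi⟩, true) : (tpar M L0 gG e).Ent)
    have h0 : wev (tpar M L0 gG e).emb.five (yWord (5 + (2 * Encodable.encode i + false.toNat)) (1 + 8 * mu5 i.1)) =
        _ := EmbData.five_yWord (tpar M L0 gG e).emb (Sum.inr (⟨i, hi⟩, false) : (tpar M L0 gG e).Ent)
    rw [h1, h0, ← map_inv, ← map_inv, ← map_mul, ← map_mul]
    rfl

/-- The presented group. -/
abbrev TPres : Type := PresentedGroup (RE.relSet (RelT M L0 gG e))

theorem tPres_rel (r : Wd (Fin (11 + nG))) (hr : RelT M L0 gG e r) :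
    wev (PresentedGroup.of : Fin (11 + nG) → TPres M L0 gG e) r = 1 := by
  rw [RE.presented_eq_one_iff]
  exact Subgroup.subset_normalClosure ⟨r, hr, rfl⟩

theorem piT_eq_one_iff (hgG : Function.Surjective (FreeGroup.lift gG)) (w : Wd (Fin (11 + nG))) :
    (tpar M L0 gG e).piT (FreeGroup.mk w) = 1 ↔
      wev (PresentedGroup.of : Fin (11 + nG) → TPres M L0 gG e) w = 1 := by
  let v : Fin (11 + nG) → TPres M L0 gG e := PresentedGroup.of
  have hrel := tPres_rel M L0 gG e
  let toT : TPres M L0 gG e →* (tpar M L0 gG e).T :=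
    PresentedGroup.toGroup (f := (tpar M L0 gG e).tVal) (by
      rintro _ ⟨r, hr, rfl⟩; exact relT_holds M L0 gG e r hr)
  let fA : HPres M L0 e →* TPres M L0 gG e := PresentedGroup.toGroup (f := fun j => v (aIdx j)) (by
    rintro _ ⟨r, hr, rfl⟩
    have := hrel (upW aIdx r) (Or.inl ⟨r, hr, rfl⟩)
    rwa [upW, wev_map] at this)
  have hkerG : (FreeGroup.lift gG).ker ≤ (FreeGroup.lift fun k => v (gIdx k)).ker := by
    intro x hx
    obtain ⟨l, rfl⟩ : ∃ l, FreeGroup.mk l = x := Quot.exists_rep x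
    have := hrel (upW gIdx l) (Or.inr (Or.inl ⟨l, hx, rfl⟩))
    rwa [upW, wev_map] at this
  let fG : G →* TPres M L0 gG e :=
    (FreeGroup.lift gG).liftOfSurjective hgG ⟨FreeGroup.lift fun k => v (gIdx k), hkerG⟩
  have hfG : ∀ k, fG (gG k) = v (gIdx k) := fun k => by
    have := MonoidHom.liftOfRightInverse_comp_apply (FreeGroup.lift gG) (Function.surjInv hgG)
      (Function.rightInverse_surjInv hgG) ⟨FreeGroup.lift fun k => v (gIdx k), hkerG⟩ (FreeGroup.of k)
    simpa [fG, MonoidHom.liftOfSurjective] using this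
  let fP : (tpar M L0 gG e).P2 →* TPres M L0 gG e := Coprod.lift fA (Coprod.lift fG (FreeGroup.lift fun o =>
    match o with
    | none => v xIdx
    | some i => wev v (entWord i.1 false)))
  have hv : ∀ i : (tpar M L0 gG e).Ent, wev (fun j => v (tIdx j))
      (yWord ((tpar M L0 gG e).entCode i) ((tpar M L0 gG e).entW i)) = fP ((tpar M L0 gG e).entVal i) := by
    rintro (j | ⟨i, _ | _⟩)
    · have h := hrel _ (Or.inr (Or.inr (Or.inl ⟨j, rfl⟩)))
      rw [qRel, wev_weq, upW, upW, wev_map, wev_map] at h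
      refine h.trans ?_
      show _ = fP (Coprod.inl _)
      rw [Coprod.lift_apply_inl, hom_wev]
      exact congrArg (fun f => wev f (qWord M L0 j))
        (funext fun k => (PresentedGroup.toGroup.of (x := k) _ : fA (PresentedGroup.of k) = v (aIdx k)).symm)
    · show _ = fP ((tpar M L0 gG e).yP i)
      simp only [fP, TPar.yP, Coprod.lift_apply_inr, FreeGroup.lift_apply_of]
      rw [entWord, upW, wev_map]
      rfl
    · show _ = fP ((tpar M L0 gG e).xP⁻¹ * ((tpar M L0 gG e).yP i)⁻¹ * (tpar M L0 gG e).gP i)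
      have h := hrel _ (Or.inr (Or.inr (Or.inr ⟨i.1, i.2, rfl⟩)))
      rw [idxRel, wev_weq, wev_append, wev_append, wev_winv, wev_neg, entWord, upW, upW, wev_map, wev_map] at h
      refine h.trans ?_
      simp only [fP, TPar.xP, TPar.yP, TPar.gP, map_mul, map_inv, Coprod.lift_apply_inr, Coprod.lift_apply_inl,
        FreeGroup.lift_apply_of]
      rw [hom_wev]
      congr 2
  let back : (tpar M L0 gG e).T →* TPres M L0 gG e :=
    (tpar M L0 gG e).emb.liftHom fP (fun j => v (tIdx j)) hv
  have hback : ∀ a, back ((tpar M L0 gG e).tVal a) = v a := by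
    intro a
    rcases (show (∃ j, a = aIdx j) ∨ a = xIdx ∨ (∃ j, a = tIdx j) ∨ ∃ k, a = gIdx k by
      by_cases h1 : (a : ℕ) < 5
      · exact Or.inl ⟨⟨a, h1⟩, rfl⟩
      by_cases h2 : (a : ℕ) = 5
      · exact Or.inr (Or.inl (Fin.ext h2))
      by_cases h3 : (a : ℕ) < 11
      · exact Or.inr (Or.inr (Or.inl ⟨⟨(a : ℕ) - 6, by omega⟩, Fin.ext (by simp [tIdx]; omega)⟩))
      · exact Or.inr (Or.inr (Or.inr ⟨⟨(a : ℕ) - 11, by omega⟩, Fin.ext (by simp [gIdx]; omega)⟩)))
      with ⟨j, rfl⟩ | rfl | ⟨j, rfl⟩ | ⟨k, rfl⟩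
    · rw [tVal_a]
      exact (EmbData.liftHom_inP _).trans ((Coprod.lift_apply_inl _ _ _).trans (PresentedGroup.toGroup.of _))
    · rw [tVal_x]
      exact (EmbData.liftHom_inP _).trans ((Coprod.lift_apply_inr _ _ _).trans
        ((Coprod.lift_apply_inr _ _ _).trans FreeGroup.lift_apply_of))
    · rw [tVal_t]
      exact EmbData.liftHom_five j
    · rw [tVal_g]
      exact (EmbData.liftHom_inP _).trans ((Coprod.lift_apply_inr _ _ _).trans
        ((Coprod.lift_apply_inl _ _ _).trans (hfG k)))
  have e1 : (tpar M L0 gG e).piT (FreeGroup.mk w) = toT (wev v w) := by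
    rw [hom_wev]
    exact congrArg (fun f => wev f w) (funext fun a => (PresentedGroup.toGroup.of _).symm)
  refine ⟨fun h => ?_, fun h => ?_⟩
  · have h2 : back ((tpar M L0 gG e).piT (FreeGroup.mk w)) = wev v w := by
      rw [show (tpar M L0 gG e).piT (FreeGroup.mk w) = wev (tpar M L0 gG e).tVal w from rfl, hom_wev,
        funext hback]
    rw [h, map_one] at h2
    exact h2.symm
  · rw [e1, show wev v w = 1 from h, map_one]

/-- Equality to `1` in `T_e` is r.e., uniformly in the parameter. -/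
theorem re_piT (h0 : Computable M.root0) (h1 : Computable M.root1)
    (hgG : Function.Surjective (FreeGroup.lift gG)) (hker : REPred fun w : Wd (Fin nG) => wev gG w = 1) :
    REPred fun p : ℕ × Wd (Fin (11 + nG)) => (tpar M L0 gG p.1).piT (FreeGroup.mk p.2) = 1 :=
  (RE.re_presented (R := RelT M L0 gG) (re_RelT M L0 gG h0 h1 hker)).of_eq fun p =>
    (piT_eq_one_iff M L0 gG p.1 hgG p.2).symm

theorem piT_surjective (hgG : Function.Surjective (FreeGroup.lift gG)) :
    Function.Surjective (tpar M L0 gG e).piT := by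
  have hof : ∀ a, (tpar M L0 gG e).tVal a ∈ (tpar M L0 gG e).piT.range := fun a =>
    ⟨FreeGroup.of a, FreeGroup.lift_apply_of⟩
  intro y
  refine EmbData.mem_of_gens (D := (tpar M L0 gG e).emb) (K := (tpar M L0 gG e).piT.range) ?_
    (fun j => by rw [← tVal_t]; exact hof _) y
  intro p
  show p ∈ (tpar M L0 gG e).piT.range.comap (tpar M L0 gG e).emb.inP
  induction p using Coprod.induction_on with
  | inl a =>
    refine PresentedGroup.generated_by _
      (((tpar M L0 gG e).piT.range.comap (tpar M L0 gG e).emb.inP).comap Coprod.inl) (fun j => ?_) a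
    show (tpar M L0 gG e).emb.inP (Coprod.inl ((tpar M L0 gG e).five j)) ∈ (tpar M L0 gG e).piT.range
    rw [← tVal_a]; exact hof _
  | inr z =>
    induction z using Coprod.induction_on with
    | inl g =>
      obtain ⟨x, rfl⟩ := hgG g
      induction x using FreeGroup.induction_on with
      | C1 => simp
      | of k =>
        rw [FreeGroup.lift_apply_of]
        show (tpar M L0 gG e).emb.inP (Coprod.inr (Coprod.inl ((tpar M L0 gG e).gG k))) ∈ (tpar M L0 gG e).piT.range
        rw [← tVal_g]; exact hof _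
      | inv_of k hk => simp only [map_inv]; exact Subgroup.inv_mem _ hk
      | mul a b ha hb => simp only [map_mul]; exact Subgroup.mul_mem _ ha hb
    | inr f =>
      induction f using FreeGroup.induction_on with
      | C1 => simp
      | of o =>
        rcases o with _ | i
        · show (tpar M L0 gG e).emb.inP (tpar M L0 gG e).xP ∈ (tpar M L0 gG e).piT.range
          rw [← tVal_x]; exact hof _
        · show (tpar M L0 gG e).emb.inP ((tpar M L0 gG e).yP i) ∈ (tpar M L0 gG e).piT.range
          have h := EmbData.five_yWord (tpar M L0 gG e).emb (Sum.inr (i, false) : (tpar M L0 gG e).Ent)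
          rw [show (tpar M L0 gG e).emb.inP ((tpar M L0 gG e).yP i) = _ from h.symm, ← wev_up_t]
          exact ⟨FreeGroup.mk _, rfl⟩
      | inv_of k hk => simp only [map_inv]; exact Subgroup.inv_mem _ hk
      | mul a b ha hb => simp only [map_mul]; exact Subgroup.mul_mem _ ha hb
    | mul a b ha hb => rw [map_mul]; exact Subgroup.mul_mem _ ha hb
  | mul a b ha hb => exact Subgroup.mul_mem _ ha hb

end

end Vale.P193
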