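import Vale.Agent.P193.Layer.TForm
import Vale.Agent.P193.Layer.TPres

/-!
P193, M9: the formulas of the fixed point. A program `e` is read as three oracles: kind 0 the kernel of `T`, kind 1
the words certified outside `Q`, kind 2 the words certified nontrivial in `H`.
-/

namespace Vale.P193

noncomputable section

open Nat.Partrec (Code)

/-- The program `e` accepts the word `g` with the given kind. -/
def Ans (e k : ℕ) (g : Wd (Fin 5)) : Prop :=
  (Code.eval (Denumerable.ofNat Code e) (Nat.pair k (Encodable.encode g))).Dom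

theorem ans_one_iff (e : ℕ) (g : Wd (Fin 5)) : Ans e 1 g ↔ ∃ s, CertAt e (g, s) := by
  constructor
  · intro h
    obtain ⟨s, hs⟩ := Code.evaln_complete.1 (Part.get_mem h)
    exact ⟨s, Option.isSome_iff_exists.2 ⟨_, hs⟩⟩
  · rintro ⟨s, hs⟩
    obtain ⟨x, hx⟩ := Option.isSome_iff_exists.1 hs
    exact Part.dom_iff_mem.2 ⟨x, Code.evaln_sound hx⟩

instance certAtDec (e : ℕ) : DecidablePred (CertAt e) := fun i =>
  inferInstanceAs (Decidable ((Code.evaln i.2 (Denumerable.ofNat Code e)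
    (Nat.pair 1 (Encodable.encode i.1))).isSome = true))

instance tparCertDec {nG : ℕ} (M : Mach (Fin (11 + nG))) (L0 : ℕ) {G : Type} [Group G] (gG : Fin nG → G)
    (e : ℕ) : DecidablePred (tpar M L0 gG e).C := certAtDec e

/-- The oracle bound: `C` times the weight of the word, divided by `L0`. -/
def Bnd (C L0 : ℕ) (u : Wd (Fin 5)) {α : Type} (size : α → ℕ) (a : α) : Prop :=
  size a * L0 ≤ C * mu5 u

variable {nG : ℕ}

/-- A pair of formulas for `H` over an oracle for `B`, with the constant of its queries. -/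
structure HForm (n : ℕ) where
  C : ℕ
  NegH : ℕ → (Wd (Fin n) → Prop) → Wd (Fin 5) → Prop
  NotTH : ℕ → (Wd (Fin n) → Prop) → Wd (Fin 5) → Prop

variable (M : Mach (Fin (11 + nG))) (L0 : ℕ) {G : Type} [Group G] (gG : Fin nG → G) (F : HForm (11 + nG))

/-- The word of the image of an input word in `H`. -/
def thW (v : Wd (Fin (11 + nG))) : Wd (Fin 5) :=
  (v.map fun l => (G0.xb (d := M.d) (nr := M.nr) l.1, l.2)).flatMap (letW M L0)

/-- Atoms of `A` certified nontrivial, for the word `u`. -/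
def O1 (e : ℕ) (u a : Wd (Fin 5)) : Prop := Bnd (16 * F.C) L0 u mu5 a ∧ Ans e 2 a

/-- Words certified outside `Q`, for the word `u`. -/
def O2 (e : ℕ) (u a : Wd (Fin 5)) : Prop := Bnd (16 * F.C) L0 u mu5 a ∧ Ans e 1 a

/-- Derivability in `T_e`. -/
def DrTe (e : ℕ) : Wd (EmbData.EL (TTok nG)) → Prop := (tpar M L0 gG e).DrT (qWord M L0)

/-- The oracle for the input group, for the word `u`. -/
def OT (e : ℕ) (u : Wd (Fin 5)) (v : Wd (Fin (11 + nG))) : Prop :=
  v ≠ [] ∧ Bnd F.C L0 u List.length v ∧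
    (tpar M L0 gG e).NegT (O1 L0 F e u) (DrTe M L0 gG e) (xW v)

/-- The formula for `≠ 1` in `H`. -/
def Neg1F (e : ℕ) (u : Wd (Fin 5)) : Prop := F.NegH e (OT M L0 gG F e u) u

/-- A word of `T` equal to `u` and certified outside `Q'`. -/
def InTNotQ (e : ℕ) (u : Wd (Fin 5)) : Prop :=
  ∃ v : Wd (Fin (11 + nG)), v ≠ [] ∧ Bnd F.C L0 u List.length v ∧
    wev (PresentedGroup.of : Fin 5 → HPres M L0 e) (weq (thW M L0 v) u) = 1 ∧
    (tpar M L0 gG e).NotQT (O1 L0 F e u) (O2 L0 F e u) (DrTe M L0 gG e) (xW v)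

/-- The formula for lying outside `Q`. -/
def NegQF (e : ℕ) (u : Wd (Fin 5)) : Prop := F.NotTH e (OT M L0 gG F e u) u ∨ InTNotQ M L0 gG F e u

/-- The whole formula of the fixed point. -/
def SysF (e m : ℕ) : Prop :=
  (m.unpair.1 = 0 ∧ ∃ v : Wd (Fin (11 + nG)), nOf v = m.unpair.2 ∧
      (tpar M L0 gG e).piT (FreeGroup.mk v) = 1) ∨
  (∃ g : Wd (Fin 5), m = Nat.pair 1 (Encodable.encode g) ∧ NegQF M L0 gG F e g) ∨
  (∃ g : Wd (Fin 5), m = Nat.pair 2 (Encodable.encode g) ∧ Neg1F M L0 gG F e g)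

/-- `Q` at the parameter `e`. -/
def Qe (e : ℕ) : Subgroup (HPres M L0 e) := Subgroup.closure (Set.range (tpar M L0 gG e).qv)

/-- What the layers give about `H` at a good parameter. -/
structure HFacts (e : ℕ) where
  th : (tpar M L0 gG e).T →* HPres M L0 e
  th_inj : Function.Injective th
  th_val : ∀ v, th ((tpar M L0 gG e).piT (FreeGroup.mk v)) = wev PresentedGroup.of (thW M L0 v)
  th_lb : ∀ x u, x ≠ 1 → wev PresentedGroup.of u = th x → L0 ≤ mu5 u
  piT_ne : ∀ a, (tpar M L0 gG e).piT (FreeGroup.of a) ≠ 1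
  negH_sound : ∀ u O, (∀ v : Wd (Fin (11 + nG)), Bnd F.C L0 u List.length v → O v →
    (tpar M L0 gG e).piT (FreeGroup.mk v) ≠ 1) → F.NegH e O u →
      wev (PresentedGroup.of : Fin 5 → HPres M L0 e) u ≠ 1
  negH_complete : ∀ u O, (∀ v : Wd (Fin (11 + nG)), Bnd F.C L0 u List.length v →
    (tpar M L0 gG e).piT (FreeGroup.mk v) ≠ 1 → O v) →
      wev (PresentedGroup.of : Fin 5 → HPres M L0 e) u ≠ 1 → F.NegH e O u
  notTH_sound : ∀ u O, (∀ v : Wd (Fin (11 + nG)), Bnd F.C L0 u List.length v → O v →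
    (tpar M L0 gG e).piT (FreeGroup.mk v) ≠ 1) → F.NotTH e O u → wev PresentedGroup.of u ∉ th.range
  notTH_complete : ∀ u O, (∀ v : Wd (Fin (11 + nG)), Bnd F.C L0 u List.length v →
    (tpar M L0 gG e).piT (FreeGroup.mk v) ≠ 1 → O v) → wev PresentedGroup.of u ∉ th.range → F.NotTH e O u
  bWord : ∀ u x, wev PresentedGroup.of u = th x →
    ∃ v, Bnd F.C L0 u List.length v ∧ (tpar M L0 gG e).piT (FreeGroup.mk v) = x

end

end Vale.P193
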