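import Vale.Agent.P193.Layer.HStretch
import Vale.Agent.P193.Layer.Sys
import Vale.Agent.P193.Layer.GoodRoot
import Vale.Agent.P193.Layer.Split
import Vale.Agent.P193.Layer.Iso

/-!
P193, M9: the formulas of `H` as an `HForm`, and what they give at a good parameter of the fixed point.
-/

namespace Vale.P193

noncomputable section

open Monoid

/-- Derivability in `HPres`. -/
def Dr5P {n : ℕ} (M : Mach (Fin n)) (L0 e : ℕ) (v : Wd (Fin 5)) : Prop :=
  wev (PresentedGroup.of : Fin 5 → HPres M L0 e) v = 1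

variable {nG : ℕ} (M : Mach (Fin (11 + nG))) (S : M.Spec) (L0 : ℕ)

/-- The formulas of `H`. -/
def hForm : HForm (11 + nG) where
  C := CH
  NegH e O u := NegH M S L0 CH e O (Dr5P M L0 e) u
  NotTH e O u := NotTH M S L0 CH e O (Dr5P M L0 e) u

/-- The five generators of an embedding extension are nontrivial. -/
theorem five_ne_one {P : Type} [Group P] (D : EmbData P) (j : Fin 5) : D.five j ≠ 1 := by
  induction j using Fin.lastCases with
  | last =>
    intro h
    rw [show (Fin.last 4 : Fin 5) = 4 from rfl, EmbData.five_four] at h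
    let χ : D.Emb →* Multiplicative ℤ := HNNExtension.lift 1 (Multiplicative.ofAdd (1 : ℤ)) fun a => by simp
    have hf : χ HNNExtension.t = 1 := by rw [h, map_one]
    rw [HNNExtension.lift_t] at hf
    exact Int.one_ne_zero (congrArg (Multiplicative.toAdd (α := ℤ)) hf)
  | cast j =>
    rw [EmbData.five_castSucc]
    intro h
    refine FreeGroup.of_ne_one j (Coprod.inr_injective (M := P) ?_)
    rw [map_one]
    exact HNNExtension.of_injective D.equiv (h.trans (map_one _).symm)

variable {G : Type} [Group G] (gG : Fin nG → G)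

/-- At a good parameter the letters of `T` are nontrivial. -/
theorem piT_of_ne_one (hne : ∀ a, gG a ≠ 1) {e : ℕ} (hgG : Function.Surjective (FreeGroup.lift gG))
    (hG : Good (tpar M L0 gG e).piT e) (S : M.Spec) (a : Fin (11 + nG)) :
    (tpar M L0 gG e).piT (FreeGroup.of a) ≠ 1 := by
  obtain ⟨f, hf⟩ := hPres_iso M (tpar M L0 gG e).piT S e L0 (piT_surjective M L0 gG e hgG) hG
    (goodRoot_of_good S hG) (phiHom_of_good S hG)
  have hP : Function.Injective (tpar M L0 gG e).emb.inP :=
    (HNNExtension.of_injective _).comp Coprod.inl_injective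
  rw [show (tpar M L0 gG e).piT (FreeGroup.of a) = (tpar M L0 gG e).tVal a from FreeGroup.lift_apply_of]
  intro h
  rcases (show (∃ j, a = aIdx j) ∨ a = xIdx ∨ (∃ j, a = tIdx j) ∨ ∃ k, a = gIdx k by
      by_cases h1 : (a : ℕ) < 5
      · exact Or.inl ⟨⟨a, h1⟩, rfl⟩
      by_cases h2 : (a : ℕ) = 5
      · exact Or.inr (Or.inl (Fin.ext h2))
      by_cases h3 : (a : ℕ) < 11
      · exact Or.inr (Or.inr (Or.inl ⟨⟨(a : ℕ) - 6, by omega⟩, Fin.ext (by simp [tIdx]; omega)⟩))
      · exact Or.inr (Or.inr (Or.inr ⟨⟨(a : ℕ) - 11, by omega⟩, Fin.ext (by simp [gIdx]; omega)⟩)))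
      with ⟨j, rfl⟩ | rfl | ⟨j, rfl⟩ | ⟨k, rfl⟩
  · rw [tVal_a] at h
    have h1 : (PresentedGroup.of j : HPres M L0 e) = 1 :=
      Coprod.inl_injective ((hP (h.trans (map_one _).symm)).trans (map_one _).symm)
    exact five_ne_one (stretch M (tpar M L0 gG e).piT e (phiHom_of_good S hG) L0) j
      ((hf j).symm.trans ((congrArg f h1).trans (map_one f)))
  · rw [tVal_x] at h
    have h1 := hP (h.trans (map_one _).symm)
    exact FreeGroup.of_ne_one (none : Option {i : Idx // (tpar M L0 gG e).C i})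
      (Coprod.inr_injective ((Coprod.inr_injective (h1.trans (map_one _).symm)).trans (map_one _).symm))
  · rw [tVal_t] at h
    exact five_ne_one _ j h
  · rw [tVal_g] at h
    have h1 := hP (h.trans (map_one _).symm)
    exact hne k (Coprod.inl_injective ((Coprod.inr_injective (h1.trans (map_one _).symm)).trans (map_one _).symm))

/-- The image of `B` in `H`, on a word. -/
theorem bTop_word {B : Type} [Group B] {n : ℕ} (M : Mach (Fin n)) {π : FreeGroup (Fin n) →* B} {e : ℕ}
    (h : PhiHom M π e) (L0 : ℕ) (v : Wd (Fin n)) :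
    bTop (L0 := L0) h (π (FreeGroup.mk v)) = wev (stretch M π e h L0).five
      ((v.map fun l => (G0.xb (d := M.d) (nr := M.nr) l.1, l.2)).flatMap (letW M L0)) := by
  rw [wev_letW, wev_map]
  have hc : (bTop (L0 := L0) h).comp π = FreeGroup.lift fun a =>
      wev (stretch M π e h L0).five (yWord (g0Code (G0.xb (d := M.d) (nr := M.nr) a)) L0) :=
    FreeGroup.ext_hom _ _ fun a => by rw [FreeGroup.lift_apply_of]; exact bTop_of h a
  exact DFunLike.congr_fun hc _

section Transport

variable {n : ℕ} {N : Mach (Fin n)} (T : N.Spec) {L : ℕ} {e : ℕ} {B : Type} [Group B]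
  {π : FreeGroup (Fin n) →* B} (h : PhiHom N π e) (f : HPres N L e ≃* HTower N π e h L)
  (hf : ∀ j, f (PresentedGroup.of j) = (stretch N π e h L).five j)

include hf in
theorem iso_word (u : Wd (Fin 5)) :
    f (wev (PresentedGroup.of : Fin 5 → HPres N L e) u) = wev (stretch N π e h L).five u :=
  (hom_wev f.toMonoidHom _ u).trans (congrArg (fun g => wev g u) (funext hf))

/-- The map into `HPres`. -/
def thOf : B →* HPres N L e := f.symm.toMonoidHom.comp (bTop (L0 := L) h)

theorem thOf_injective : Function.Injective (thOf h f) := f.symm.injective.comp (bTop_injective h)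

include hf in
theorem thOf_iff (x : B) (u : Wd (Fin 5)) :
    wev (PresentedGroup.of : Fin 5 → HPres N L e) u = thOf h f x ↔
      wev (stretch N π e h L).five u = bTop (L0 := L) h x := by
  rw [← iso_word h f hf]
  exact MulEquiv.eq_symm_apply f

include hf in
theorem thOf_val (v : Wd (Fin n)) : thOf h f (π (FreeGroup.mk v)) = wev (PresentedGroup.of : Fin 5 → HPres N L e)
    ((v.map fun l => (G0.xb (d := N.d) (nr := N.nr) l.1, l.2)).flatMap (letW N L)) :=
  ((thOf_iff h f hf _ _).2 (bTop_word N h L v).symm).symm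

variable (hG : Good π e) (hπ : ∀ a, π (FreeGroup.of a) ≠ 1) (hL : 0 < L)

include hf hπ in
theorem thOf_lb (x : B) (u : Wd (Fin 5)) (hx : x ≠ 1)
    (hu : wev (PresentedGroup.of : Fin 5 → HPres N L e) u = thOf h f x) : L ≤ mu5 u := by
  have hu' := (thOf_iff h f hf x u).1 hu
  rw [← wev_up5 h] at hu'
  obtain ⟨v, hv, hw⟩ := (hToks N π h L hπ).inP_word (w := up5 N u) (x := bH0 (phiHom N π e h) x) hu'
  have hne0 : v ≠ [] := by
    rintro rfl
    exact hx (bH0_injective (phiHom N π e h) (hv.symm.trans ((wev_nil _).trans (map_one _).symm)))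
  replace hw : v.length * L ≤ mu5 u :=
    le_of_eq_of_le (wsum_hCodes N L v).symm (le_of_le_of_eq hw (wsum_up5 N L u))
  exact le_trans (Nat.le_mul_of_pos_left _ (List.length_pos_iff.2 hne0)) hw

variable {O : Wd (Fin n) → Prop} {u : Wd (Fin 5)}

include hf in
theorem dr5P_iff (v : Wd (Fin 5)) :
    Dr5P N L e v ↔ wev (stretch N π e h L).five v = 1 := by
  rw [← iso_word h f hf, MulEquiv.map_eq_one_iff]
  rfl

include T hf hG hπ hL

theorem negH_pres_sound (hO : ∀ v : Wd (Fin n), v.length * L ≤ CH * mu5 u → O v → π (FreeGroup.mk v) ≠ 1)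
    (hu : NegH N T L CH e O (Dr5P N L e) u) : wev (PresentedGroup.of : Fin 5 → HPres N L e) u ≠ 1 :=
  fun h1 => negH_sound h (gbFacts T) hG hπ hL hO (fun v => (dr5P_iff h f hf v).1) hu
    ((dr5P_iff h f hf u).1 h1)

theorem negH_pres_complete
    (hO : ∀ v : Wd (Fin n), v.length * L ≤ CH * mu5 u → π (FreeGroup.mk v) ≠ 1 → O v)
    (hu : wev (PresentedGroup.of : Fin 5 → HPres N L e) u ≠ 1) : NegH N T L CH e O (Dr5P N L e) u :=
  negH_complete h (gbFacts T) hG hπ hL le_rfl hO (fun v => (dr5P_iff h f hf v).2)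
    fun h1 => hu ((dr5P_iff h f hf u).2 h1)

theorem notTH_pres_sound (hO : ∀ v : Wd (Fin n), v.length * L ≤ CH * mu5 u → O v → π (FreeGroup.mk v) ≠ 1)
    (hu : NotTH N T L CH e O (Dr5P N L e) u) :
    wev (PresentedGroup.of : Fin 5 → HPres N L e) u ∉ (thOf h f).range := by
  rintro ⟨x, hx⟩
  exact notTH_sound h (gbFacts T) hG hπ hL hO (fun v => (dr5P_iff h f hf v).1) hu
    ⟨x, ((thOf_iff h f hf x u).1 hx.symm).symm⟩

theorem notTH_pres_complete
    (hO : ∀ v : Wd (Fin n), v.length * L ≤ CH * mu5 u → π (FreeGroup.mk v) ≠ 1 → O v)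
    (hu : wev (PresentedGroup.of : Fin 5 → HPres N L e) u ∉ (thOf h f).range) :
    NotTH N T L CH e O (Dr5P N L e) u :=
  notTH_complete h (gbFacts T) hG hπ hL le_rfl hO (fun v => (dr5P_iff h f hf v).2)
    fun ⟨x, hx⟩ => hu ⟨x, ((thOf_iff h f hf x u).2 hx.symm).symm⟩

theorem bWord_pres (x : B) (hu : wev (PresentedGroup.of : Fin 5 → HPres N L e) u = thOf h f x) :
    ∃ v : Wd (Fin n), v.length * L ≤ CH * mu5 u ∧ π (FreeGroup.mk v) = x :=
  hBWord h (gbFacts T) hG hπ hL ((thOf_iff h f hf x u).1 hu)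

end Transport

/-- What the layers give at a good parameter. -/
def hFacts {e : ℕ} (hgG : Function.Surjective (FreeGroup.lift gG)) (hne : ∀ a, gG a ≠ 1) (hL : 0 < L0)
    (hG : Good (tpar M L0 gG e).piT e) : HFacts M L0 gG (hForm M S L0) e :=
  let h := phiHom_of_good (M := M) S hG
  let ex := hPres_iso M (tpar M L0 gG e).piT S e L0 (piT_surjective M L0 gG e hgG) hG (goodRoot_of_good S hG) h
  let f := ex.choose
  have hf : ∀ j, f (PresentedGroup.of j) = (stretch M (tpar M L0 gG e).piT e h L0).five j := ex.choose_spec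
  have hπ := piT_of_ne_one M L0 gG hne hgG hG S
  { th := thOf h f
    th_inj := thOf_injective h f
    th_val := thOf_val h f hf
    th_lb := thOf_lb h f hf hπ
    piT_ne := hπ
    negH_sound := fun _ _ hO hu => negH_pres_sound S h f hf hG hπ hL hO hu
    negH_complete := fun _ _ hO hu => negH_pres_complete S h f hf hG hπ hL hO hu
    notTH_sound := fun _ _ hO hu => notTH_pres_sound S h f hf hG hπ hL hO hu
    notTH_complete := fun _ _ hO hu => notTH_pres_complete S h f hf hG hπ hL hO hu
    bWord := fun _ x hu => bWord_pres S h f hf hG hπ hL x hu }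

end

end Vale.P193
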