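import Vale.Agent.P193.Layer.NegK
import Vale.Agent.P193.RE
import Vale.Agent.P193.Layer.GbDec
import Mathlib.Computability.Primrec.List

/-!
P193 (M4): the certificates `NegK1` and `NotUk` are recursively enumerable, uniformly in a parameter, given
decision data for the rules group.
-/

namespace Vale.P193

noncomputable section

open RedCert Primrec

variable {n : ℕ} {M : Mach (Fin n)}

/-- What is needed about the rules group. -/
structure GbRE (M : Mach (Fin n)) : Prop where
  ne_one : REPred fun s : GW M => gVal M s ≠ 1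
  not_hh : REPred fun s : GW M => gVal M s ∉ Subgroup.closure (Set.range (hRule M))
  not_Y : REPred fun s : GW M => ∀ c, gVal M s ≠ Y M c
  eq_Y : REPred fun x : GW M × Cfg M.d => gVal M x.1 = Y M x.2

/-- The decision procedures of the rules group supply `GbRE`. -/
theorem gbRE (M : Mach (Fin n)) : GbRE M where
  ne_one := re_gVal_ne_one M
  not_hh := re_gVal_not_mem_Hh M
  not_Y := (RE.of_primrec (primrec_gVal_mem_lat M).not).of_eq fun _ => not_exists
  eq_Y := RE.of_primrec (primrec_gVal_eq_Y M)

/-- Points have decidable equality (a shortcut for instance search). -/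
instance instDecidableEqPt (M : Mach (Fin n)) : DecidableEq (Pt M) := inferInstance

/-- Words of `K1` have decidable equality (a shortcut for instance search). -/
instance instDecidableEqWdK1L (M : Mach (Fin n)) : DecidableEq (Wd (K1L M)) := inferInstance

namespace NK

variable {α : Type} [Primcodable α]

theorem primrec_cstep {Z : Type} [Primcodable Z] :
    Primrec₂ fun (P : List (Branch Z)) (x : Z × Bool) => cstep P x := by
  refine Primrec.list_flatMap Primrec.fst ?_
  unfold Primrec₂
  refine Primrec.list_cons.comp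
    ((Primrec.fst.comp Primrec.snd).pair (Primrec.list_cons.comp (Primrec.snd.comp Primrec.fst)
      (Primrec.snd.comp Primrec.snd))) ?_
  have hhead : Primrec fun y : (List (Branch Z) × (Z × Bool)) × Branch Z => y.2.2.head? :=
    Primrec.list_head?.comp (Primrec.snd.comp Primrec.snd)
  refine Primrec.ite ?_ ?_ (Primrec.const [])
  · exact (Primrec.eq (α := Option Bool)).comp
      (Primrec.option_map hhead (Primrec.snd.comp Primrec.snd).to₂)
      (Primrec.option_some.comp (Primrec.not.comp (Primrec.snd.comp (Primrec.snd.comp Primrec.fst))))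
  · refine (Primrec.option_casesOn hhead (Primrec.const [])
      (g := fun y a => [((a.1, y.1.2.1) :: y.2.1, y.2.2.tail)]) ?_).of_eq fun y => ?_
    · exact (Primrec.list_cons.comp
        ((Primrec.list_cons.comp
            ((Primrec.fst.comp Primrec.snd).pair
              (Primrec.fst.comp (Primrec.snd.comp (Primrec.fst.comp Primrec.fst))))
            (Primrec.fst.comp (Primrec.snd.comp Primrec.fst))).pair
          (Primrec.list_tail.comp (Primrec.snd.comp (Primrec.snd.comp Primrec.fst))))
        (Primrec.const [])).to₂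
    · cases y.2.2.head? <;> rfl

theorem primrec_paths {Z : Type} [Primcodable Z] : Primrec (paths (Z := Z)) :=
  Primrec.list_foldl Primrec.id (Primrec.const [([], [])])
    (primrec_cstep.comp (Primrec.fst.comp Primrec.snd) (Primrec.snd.comp Primrec.snd)).to₂

theorem re_cert {Z : Type} [Primcodable Z] [DecidableEq Z] {Ne : α → Z × Z → Prop}
    {Bad : α → Wd Z → Prop} (hNe : REPred fun x : α × (Z × Z) => Ne x.1 x.2)
    (hBad : REPred fun x : α × Wd Z => Bad x.1 x.2) {l : α → Wd Z} (hl : Computable l) :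
    REPred fun a => Cert (Ne a) (Bad a) (l a) := by
  refine RE.forall_mem (p := fun a p => (∃ q ∈ p.1, Ne a q) ∨ Bad a p.2.reverse)
    (RE.or ?_ ?_) (primrec_paths.to_comp.comp hl)
  · refine RE.exists_mem (p := fun (x : α × Branch Z) q => Ne x.1 q) (l := fun x => x.2.1) ?_
      (Primrec.fst.comp Primrec.snd).to_comp
    exact RE.comp (g := fun x : (α × Branch Z) × (Z × Z) => (x.1.1, x.2)) hNe
      ((Primrec.fst.comp Primrec.fst).pair Primrec.snd).to_comp
  · exact RE.comp (g := fun x : α × Branch Z => (x.1, x.2.2.reverse)) hBad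
      (Primrec.fst.pair (Primrec.list_reverse.comp (Primrec.snd.comp Primrec.snd))).to_comp

theorem primrec_filterMap {β γ : Type} [Primcodable β] [Primcodable γ] [Finite β] (g : β → Option γ) :
    Primrec fun l : List β => l.filterMap g :=
  Primrec.listFilterMap Primrec.id ((Primrec.dom_finite g).comp Primrec.snd).to₂

theorem primrec_gPart : Primrec (gPart M) := primrec_filterMap _

theorem primrec_xPart : Primrec (xPart M) := primrec_filterMap _

theorem primrec_rulePart : Primrec (rulePart M) := primrec_filterMap _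

theorem primrec_ptOf : Primrec (ptOf M) := primrec_gPart.pair primrec_xPart

theorem primrec_ruleUp : Primrec (ruleUp M) :=
  Primrec.list_map Primrec.id
    ((Primrec.dom_finite fun l : Fin M.nr × Bool =>
      ((Sum.inr l.1, l.2) : (Fin M.d ⊕ Fin M.nr) × Bool)).comp Primrec.snd).to₂

theorem primrec_twExp : Primrec (twExp M) :=
  Primrec.list_flatMap Primrec.id ((Primrec.dom_finite fun l : Fin M.nr × Bool =>
    cond l.2 (M.tw l.1) (FreeGroup.invRev (M.tw l.1))).comp Primrec.snd).to₂

theorem primrec_hExp : Primrec (hExp M) :=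
  Primrec.list_flatMap Primrec.id ((Primrec.dom_finite fun l : Fin M.nr × Bool =>
    cond l.2 (hWord M l.1) (FreeGroup.invRev (hWord M l.1))).comp Primrec.snd).to₂

theorem primrec_formWordAt : Primrec₂ (formWordAt M) := by
  have hv : Primrec fun q : GW M × Wd (Fin M.nr) => ruleUp M (FreeGroup.invRev q.2) ++ q.1 :=
    Primrec.list_append.comp (primrec_ruleUp.comp (RE.primrec_invRev.comp Primrec.snd)) Primrec.fst
  exact (Primrec.list_append.comp hv
    (RE.primrec_invRev.comp (primrec_hExp.comp (primrec_rulePart.comp hv)))).to₂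

theorem primrec_wordsUp (m : ℕ) : Primrec (wordsUp m) := by
  have h : Primrec fun k : ℕ => Nat.rec (motive := fun _ => List (Wd (Fin m))) [[]]
      (fun _ acc => [] :: acc.flatMap fun w =>
        (List.finRange m).flatMap fun i => [(i, true) :: w, (i, false) :: w]) k := by
    refine Primrec.nat_rec' (h := fun (_ : ℕ) (q : ℕ × List (Wd (Fin m))) => [] :: q.2.flatMap fun w =>
        (List.finRange m).flatMap fun i => [(i, true) :: w, (i, false) :: w])
      Primrec.id (Primrec.const [[]]) ?_
    have h1 : ∀ c : Bool, Primrec fun q : ((ℕ × ℕ × List (Wd (Fin m))) × Wd (Fin m)) × Fin m =>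
        (q.2, c) :: q.1.2 := fun c =>
      Primrec.list_cons.comp (Primrec.snd.pair (Primrec.const c)) (Primrec.snd.comp Primrec.fst)
    have h2 : Primrec fun q : (ℕ × ℕ × List (Wd (Fin m))) × Wd (Fin m) =>
        (List.finRange m).flatMap fun i => [(i, true) :: q.2, (i, false) :: q.2] :=
      Primrec.list_flatMap (Primrec.const (List.finRange m))
        (Primrec.list_cons.comp (h1 true) (Primrec.list_cons.comp (h1 false) (Primrec.const []))).to₂
    exact (Primrec.list_cons.comp (Primrec.const ([] : Wd (Fin m)))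
      (Primrec.list_flatMap (Primrec.snd.comp Primrec.snd) h2.to₂)).to₂
  refine h.of_eq fun k => ?_
  induction k with
  | zero => rfl
  | succ k ih => simp [wordsUp, ← ih]

/-- The running pairs of `preAux`. -/
def preStep {β : Type} (p : Wd β × List (Wd β × (β × Bool))) (l : β × Bool) :
    Wd β × List (Wd β × (β × Bool)) :=
  (p.1 ++ [l], p.2 ++ [(p.1, l)])

theorem preAux_eq {β : Type} : ∀ (w pre : Wd β) (acc : List (Wd β × (β × Bool))),
    w.foldl preStep (pre, acc) = (pre ++ w, acc ++ preAux pre w)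
  | [], pre, acc => by simp [preAux]
  | l :: w, pre, acc => by
      rw [List.foldl_cons, preStep, preAux_eq w]
      simp [preAux, List.append_assoc]

theorem primrec_preAux {β : Type} [Primcodable β] :
    Primrec fun w : Wd β => preAux [] w := by
  have hs : Primrec₂ (preStep (β := β)) :=
    ((Primrec.list_append.comp (Primrec.fst.comp Primrec.fst)
        (Primrec.list_cons.comp Primrec.snd (Primrec.const []))).pair
      (Primrec.list_append.comp (Primrec.snd.comp Primrec.fst)
        (Primrec.list_cons.comp ((Primrec.fst.comp Primrec.fst).pair Primrec.snd) (Primrec.const [])))).to₂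
  exact (Primrec.snd.comp (Primrec.list_foldl Primrec.id (Primrec.const ([], []))
    (hs.comp (Primrec.fst.comp Primrec.snd) (Primrec.snd.comp Primrec.snd)).to₂)).of_eq
      fun w => by rw [id, preAux_eq]; simp

theorem primrec_tAux : Primrec (tAux M []) := by
  refine Primrec.listFilterMap primrec_preAux ?_
  unfold Primrec₂
  exact Primrec.ite ((Primrec.eq (α := K1L M)).comp (Primrec.fst.comp (Primrec.snd.comp Primrec.snd))
      (Primrec.const _))
    (Primrec.option_some.comp ((primrec_ptOf.comp (Primrec.fst.comp Primrec.snd)).pair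
      (Primrec.snd.comp (Primrec.snd.comp Primrec.snd)))) (Primrec.const none)

theorem primrec_kAux : Primrec (kAux M []) := by
  refine Primrec.listFilterMap primrec_preAux ?_
  unfold Primrec₂
  exact Primrec.ite ((Primrec.eq (α := K1L M)).comp (Primrec.fst.comp (Primrec.snd.comp Primrec.snd))
      (Primrec.const _))
    (Primrec.option_some.comp ((Primrec.fst.comp Primrec.snd).pair
      (Primrec.snd.comp (Primrec.snd.comp Primrec.snd)))) (Primrec.const none)

theorem primrec_gUWord : Primrec (gUWord M) :=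
  Primrec.list_append.comp primrec_xPart
    (RE.primrec_invRev.comp (primrec_twExp.comp (primrec_rulePart.comp primrec_gPart)))

theorem primrec_shiftPt : Primrec₂ (shiftPt M) :=
  ((Primrec.fst.comp Primrec.snd).pair (Primrec.list_append.comp
    (RE.primrec_invRev.comp (primrec_gUWord.comp Primrec.fst)) (Primrec.snd.comp Primrec.snd))).to₂

theorem primrec_weqR {β : Type} [Primcodable β] :
    Primrec fun q : Wd β × Wd β => FreeGroup.invRev q.1 ++ q.2 :=
  Primrec.list_append.comp (RE.primrec_invRev.comp Primrec.fst) Primrec.snd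

theorem re_mk_ne {a b : α → Wd (Fin n)} (ha : Computable a) (hb : Computable b) :
    REPred fun x => FreeGroup.mk (a x) ≠ FreeGroup.mk (b x) :=
  RE.comp (p := fun q : Wd (Fin n) × Wd (Fin n) => FreeGroup.mk q.1 ≠ FreeGroup.mk q.2)
    (g := fun x => (a x, b x))
    (RE.of_primrec (PrimrecPred.not (RE.primrec_mk_eq (α := Fin n)))) (ha.pair hb)

variable (hGb : GbRE M)
include hGb

theorem re_ptNe : REPred fun q : Pt M × Pt M => PtNe M q := by
  refine (RE.or (RE.comp (g := fun q : Pt M × Pt M => FreeGroup.invRev q.1.1 ++ q.2.1) hGb.not_hh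
      (primrec_weqR.comp ((Primrec.fst.comp Primrec.fst).pair (Primrec.fst.comp Primrec.snd))).to_comp)
    (re_mk_ne (Primrec.snd.comp Primrec.fst).to_comp (Primrec.snd.comp Primrec.snd).to_comp)).of_eq
    fun q => ?_
  rw [PtNe, Ne, Ne, ptVal, ptVal, QuotientGroup.eq, Prod.inv_mk, Prod.mk_mul_mk, mem_Hh_iff,
    inv_mul_eq_one, gVal_append, gVal_invRev]
  tauto

theorem re_notRoot {eF : α → ℕ} (he : Computable eF) (S : M.Spec) :
    REPred fun x : α × Pt M => ptVal M x.2 ∉ RootSet M (eF x.1) := by
  refine (RE.exists_ (p := fun (x : α × Pt M) (y : GW M) =>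
      gVal M y = Y M (M.root0 (eF x.1)) ∧
        gVal M (FreeGroup.invRev y ++ x.2.1) ∉ Subgroup.closure (Set.range (hRule M)))
    (RE.and
      (RE.comp (g := fun q : (α × Pt M) × GW M => (q.2, M.root0 (eF q.1.1))) hGb.eq_Y
        (Computable.snd.pair (S.root0_comp.comp (he.comp (Computable.fst.comp Computable.fst)))))
      (RE.comp (g := fun q : (α × Pt M) × GW M => FreeGroup.invRev q.2 ++ q.1.2.1) hGb.not_hh
        (primrec_weqR.comp (Primrec.snd.pair
          (Primrec.fst.comp (Primrec.snd.comp Primrec.fst)))).to_comp))).of_eq fun x => ?_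
  have key : ptVal M x.2 ∈ RootSet M (eF x.1) ↔
      (Y M (M.root0 (eF x.1)))⁻¹ * gVal M x.2.1 ∈ Subgroup.closure (Set.range (hRule M)) := by
    rw [show (Y M (M.root0 (eF x.1)))⁻¹ * gVal M x.2.1 =
      (Y M (M.root0 (eF x.1)))⁻¹ * ((gVal M x.2.1, FreeGroup.mk x.2.2) : M0 M).1 from rfl, ← hit_iff_fst]
    exact ⟨fun ⟨g, hg⟩ => ⟨g, hg.symm⟩, fun ⟨g, hg⟩ => ⟨g, hg.symm⟩⟩
  constructor
  · rintro ⟨y, hy, h⟩ hm
    rw [gVal_append, gVal_invRev, hy] at h
    exact h (key.1 hm)
  · intro h
    obtain ⟨y, hy⟩ := exists_yWord M (M.root0 (eF x.1))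
    refine ⟨y, hy, fun hm => h (key.2 ?_)⟩
    rwa [gVal_append, gVal_invRev, hy] at hm

theorem re_notOrb {eF NF : α → ℕ} {O : α → Wd (Fin n) → Prop} (he : Computable eF) (hN : Computable NF)
    (S : M.Spec) (hO : REPred fun x : α × Wd (Fin n) => O x.1 x.2) :
    REPred fun x : α × Pt M => NotOrb M S (eF x.1) (O x.1) (NF x.1) x.2 := by
  refine RE.or ?_ ?_
  · refine RE.forall_mem (p := fun (x : α × Pt M) (v : Wd (Fin M.nr)) =>
        (∀ c, gVal M (formWordAt M x.2.1 v) ≠ Y M c) ∨
          ∃ c, gVal M (formWordAt M x.2.1 v) = Y M c ∧ ¬ S.Gen (eF x.1) c)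
      (l := fun x => wordsUp M.nr x.2.1.length) ?_
      ((primrec_wordsUp _).comp (Primrec.list_length.comp (Primrec.fst.comp Primrec.snd))).to_comp
    have hf : Primrec fun q : (α × Pt M) × Wd (Fin M.nr) => formWordAt M q.1.2.1 q.2 :=
      primrec_formWordAt.comp (Primrec.fst.comp (Primrec.snd.comp Primrec.fst)) Primrec.snd
    refine RE.or (RE.comp hGb.not_Y hf.to_comp) (RE.exists_ (p := fun
        (q : (α × Pt M) × Wd (Fin M.nr)) (c : Cfg M.d) =>
      gVal M (formWordAt M q.1.2.1 q.2) = Y M c ∧ ¬ S.Gen (eF q.1.1) c) (RE.and ?_ ?_))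
    · exact RE.comp (g := fun z : ((α × Pt M) × Wd (Fin M.nr)) × Cfg M.d =>
        (formWordAt M z.1.1.2.1 z.1.2, z.2)) hGb.eq_Y
        ((hf.to_comp.comp Computable.fst).pair Computable.snd)
    · exact RE.comp (g := fun z : ((α × Pt M) × Wd (Fin M.nr)) × Cfg M.d => (eF z.1.1.1, z.2))
        S.nongen_re
        ((he.comp (Computable.fst.comp (Computable.fst.comp Computable.fst))).pair Computable.snd)
  · refine RE.exists_ (p := fun (x : α × Pt M) (v : Wd (Fin M.nr)) => ∃ c : Cfg M.d,
      gVal M (formWordAt M x.2.1 v) = Y M c ∧ (orbAtom M S x.2.2 v c).length ≤ NF x.1 ∧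
        O x.1 (orbAtom M S x.2.2 v c)) ?_
    refine RE.exists_ (p := fun (q : (α × Pt M) × Wd (Fin M.nr)) (c : Cfg M.d) =>
      gVal M (formWordAt M q.1.2.1 q.2) = Y M c ∧ (orbAtom M S q.1.2.2 q.2 c).length ≤ NF q.1.1 ∧
        O q.1.1 (orbAtom M S q.1.2.2 q.2 c)) ?_
    have hat : Computable fun z : ((α × Pt M) × Wd (Fin M.nr)) × Cfg M.d =>
        orbAtom M S z.1.1.2.2 z.1.2 z.2 :=
      Primrec.list_append.to_comp.comp
        (Primrec.list_append.comp
          (RE.primrec_invRev.comp (Primrec.snd.comp (Primrec.snd.comp (Primrec.fst.comp Primrec.fst))))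
          (primrec_twExp.comp (Primrec.snd.comp Primrec.fst))).to_comp
        (S.off_comp.comp Computable.snd)
    refine RE.and ?_ (RE.and ?_ ?_)
    · exact RE.comp (g := fun z : ((α × Pt M) × Wd (Fin M.nr)) × Cfg M.d =>
        (formWordAt M z.1.1.2.1 z.1.2, z.2)) hGb.eq_Y
        ((primrec_formWordAt.comp (Primrec.fst.comp (Primrec.snd.comp (Primrec.fst.comp Primrec.fst)))
          (Primrec.snd.comp Primrec.fst)).to_comp.pair Computable.snd)
    · exact RE.comp (p := fun q : ℕ × ℕ => q.1 ≤ q.2)
        (g := fun z : ((α × Pt M) × Wd (Fin M.nr)) × Cfg M.d =>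
          ((orbAtom M S z.1.1.2.2 z.1.2 z.2).length, NF z.1.1.1))
        (RE.of_primrec Primrec.nat_le)
        ((Computable.list_length.comp hat).pair
          (hN.comp (Computable.fst.comp (Computable.fst.comp Computable.fst))))
    · exact RE.comp (g := fun z : ((α × Pt M) × Wd (Fin M.nr)) × Cfg M.d =>
          (z.1.1.1, orbAtom M S z.1.1.2.2 z.1.2 z.2)) hO
        ((Computable.fst.comp (Computable.fst.comp Computable.fst)).pair hat)

theorem re_notRules : REPred fun z : Wd (K1L M) => NotRules M z := by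
  refine (RE.comp (g := fun z : Wd (K1L M) =>
      FreeGroup.invRev (gPart M z) ++ ruleUp M (rulePart M (gPart M z))) hGb.ne_one
    (primrec_weqR.comp (primrec_gPart.pair
      (primrec_ruleUp.comp (primrec_rulePart.comp primrec_gPart)))).to_comp).of_eq fun z => ?_
  rw [NotRules, gVal_append, gVal_invRev, Ne, Ne, inv_mul_eq_one]

variable {eF NF : α → ℕ} {O : α → Wd (Fin n) → Prop} (he : Computable eF) (hN : Computable NF)
  (S : M.Spec) (hO : REPred fun x : α × Wd (Fin n) => O x.1 x.2)
include he hN hO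

theorem re_notL : REPred fun x : α × Wd (K1L M) => NotL M S (eF x.1) (O x.1) (NF x.1) x.2 := by
  refine RE.or (RE.or ?_ ?_) ?_
  · exact RE.comp (re_notRules hGb) Computable.snd
  · exact re_mk_ne (primrec_xPart.comp Primrec.snd).to_comp
      (primrec_twExp.comp (primrec_rulePart.comp (primrec_gPart.comp Primrec.snd))).to_comp
  · refine re_cert (Ne := fun _ q => PtNe M q) (Bad := fun (x : α × Wd (K1L M)) (r : Wd (Pt M)) =>
        ∃ y ∈ r, NotOrb M S (eF x.1) (O x.1) (NF x.1) y.1)
      (RE.comp (re_ptNe hGb) Computable.snd) ?_ (primrec_tAux.comp Primrec.snd).to_comp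
    refine RE.exists_mem (p := fun (z : (α × Wd (K1L M)) × Wd (Pt M)) (y : Pt M × Bool) =>
      NotOrb M S (eF z.1.1) (O z.1.1) (NF z.1.1) y.1) (l := fun z => z.2) ?_ Computable.snd
    exact RE.comp (g := fun z : ((α × Wd (K1L M)) × Wd (Pt M)) × (Pt M × Bool) => (z.1.1.1, z.2.1))
      (re_notOrb hGb he hN S hO)
      ((Primrec.fst.comp (Primrec.fst.comp Primrec.fst)).pair (Primrec.fst.comp Primrec.snd)).to_comp

theorem re_notUL : REPred fun x : α × Wd (K1L M) => NotUL M S (eF x.1) (O x.1) (NF x.1) x.2 := by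
  refine RE.or (RE.comp (re_notRules hGb) Computable.snd) ?_
  refine re_cert (Ne := fun _ q => PtNe M q) (Bad := fun (x : α × Wd (K1L M)) (r : Wd (Pt M)) =>
      ∀ i ∈ List.range (r.length + 1), (∃ y ∈ r.take i, ptVal M y.1 ∉ RootSet M (eF x.1)) ∨
        ∃ y ∈ r.drop i, NotOrb M S (eF x.1) (O x.1) (NF x.1) (shiftPt M x.2 y.1))
    (RE.comp (re_ptNe hGb) Computable.snd) ?_ (primrec_tAux.comp Primrec.snd).to_comp
  refine RE.forall_mem (p := fun (z : (α × Wd (K1L M)) × Wd (Pt M)) (i : ℕ) =>
      (∃ y ∈ z.2.take i, ptVal M y.1 ∉ RootSet M (eF z.1.1)) ∨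
        ∃ y ∈ z.2.drop i, NotOrb M S (eF z.1.1) (O z.1.1) (NF z.1.1) (shiftPt M z.1.2 y.1))
    (l := fun z => List.range (z.2.length + 1)) (RE.or ?_ ?_)
    (Primrec.list_range.comp (Primrec.succ.comp (Primrec.list_length.comp Primrec.snd))).to_comp
  · refine RE.exists_mem (p := fun (u : ((α × Wd (K1L M)) × Wd (Pt M)) × ℕ) (y : Pt M × Bool) =>
      ptVal M y.1 ∉ RootSet M (eF u.1.1.1)) (l := fun u => u.1.2.take u.2) ?_
      (Primrec.list_take.comp Primrec.snd (Primrec.snd.comp Primrec.fst)).to_comp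
    exact RE.comp (g := fun z : (((α × Wd (K1L M)) × Wd (Pt M)) × ℕ) × (Pt M × Bool) =>
        (z.1.1.1.1, z.2.1)) (re_notRoot hGb he S)
      ((Primrec.fst.comp (Primrec.fst.comp (Primrec.fst.comp Primrec.fst))).pair
        (Primrec.fst.comp Primrec.snd)).to_comp
  · refine RE.exists_mem (p := fun (u : ((α × Wd (K1L M)) × Wd (Pt M)) × ℕ) (y : Pt M × Bool) =>
      NotOrb M S (eF u.1.1.1) (O u.1.1.1) (NF u.1.1.1) (shiftPt M u.1.1.2 y.1))
      (l := fun u => u.1.2.drop u.2) ?_
      (Primrec.list_drop.comp Primrec.snd (Primrec.snd.comp Primrec.fst)).to_comp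
    exact RE.comp (g := fun z : (((α × Wd (K1L M)) × Wd (Pt M)) × ℕ) × (Pt M × Bool) =>
        (z.1.1.1.1, shiftPt M z.1.1.1.2 z.2.1)) (re_notOrb hGb he hN S hO)
      ((Primrec.fst.comp (Primrec.fst.comp (Primrec.fst.comp Primrec.fst))).pair
        (primrec_shiftPt.comp (Primrec.snd.comp (Primrec.fst.comp (Primrec.fst.comp Primrec.fst)))
          (Primrec.fst.comp Primrec.snd))).to_comp

theorem re_kNe : REPred fun x : α × (Wd (K1L M) × Wd (K1L M)) =>
    KNe M S (eF x.1) (O x.1) (NF x.1) x.2 :=
  RE.comp (g := fun x : α × (Wd (K1L M) × Wd (K1L M)) => (x.1, FreeGroup.invRev x.2.1 ++ x.2.2))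
    (re_notL hGb he hN S hO) (Primrec.fst.pair (primrec_weqR.comp Primrec.snd)).to_comp

end NK

open NK

variable {P : Type} [Primcodable P] {eF NF : P → ℕ} {O : P → Wd (Fin n) → Prop}

/-- `NegK1` is r.e., uniformly. -/
theorem re_negK1 (hGb : GbRE M) (S : M.Spec) (he : Computable eF) (hN : Computable NF)
    (hO : REPred fun x : P × Wd (Fin n) => O x.1 x.2) :
    REPred fun x : P × Wd (K1L M) => NegK1 M S (eF x.1) (O x.1) (NF x.1) x.2 := by
  have hne : ∀ {Z : Type} [Primcodable Z] [DecidableEq Z],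
      REPred fun x : (P × Wd (K1L M)) × Wd Z => x.2 ≠ [] := by
    intro Z _ _
    exact RE.of_primrec ((Primrec.eq (α := Wd Z)).comp Primrec.snd (Primrec.const [])).not
  refine RE.or (RE.or (RE.or ?_ ?_) ?_) ?_
  · exact RE.comp hGb.ne_one (primrec_gPart.comp Primrec.snd).to_comp
  · exact (re_mk_ne (primrec_xPart.comp Primrec.snd).to_comp (Computable.const [])).of_eq
      fun x => by rw [← FreeGroup.one_eq_mk]
  · exact re_cert (Ne := fun _ q => PtNe M q) (Bad := fun _ r => r ≠ [])
      (RE.comp (re_ptNe hGb) Computable.snd) hne (primrec_tAux.comp Primrec.snd).to_comp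
  · exact re_cert (Ne := fun (x : P × Wd (K1L M)) q => KNe M S (eF x.1) (O x.1) (NF x.1) q)
      (Bad := fun _ r => r ≠ [])
      (RE.comp (g := fun x : (P × Wd (K1L M)) × (Wd (K1L M) × Wd (K1L M)) => (x.1.1, x.2))
        (re_kNe hGb he hN S hO) ((Primrec.fst.comp Primrec.fst).pair Primrec.snd).to_comp)
      hne (primrec_kAux.comp Primrec.snd).to_comp

/-- `NotUk` is r.e., uniformly. -/
theorem re_notUk (hGb : GbRE M) (S : M.Spec) (he : Computable eF) (hN : Computable NF)
    (hO : REPred fun x : P × Wd (Fin n) => O x.1 x.2) :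
    REPred fun x : P × Wd (K1L M) => NotUk M S (eF x.1) (O x.1) (NF x.1) x.2 := by
  have halt : Primrec fun r : Wd (Wd (K1L M)) => altB true (r.map Prod.snd) := by
    have hs : Primrec fun l : List Bool =>
        l.foldl (fun (st : Bool × Bool) c => (!st.1, st.2 && (st.1 == c))) (true, true) :=
      Primrec.list_foldl Primrec.id (Primrec.const (true, true))
        ((Primrec.not.comp (Primrec.fst.comp (Primrec.fst.comp Primrec.snd))).pair
          (Primrec.and.comp (Primrec.snd.comp (Primrec.fst.comp Primrec.snd))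
            (Primrec.beq.comp (Primrec.fst.comp (Primrec.fst.comp Primrec.snd))
              (Primrec.snd.comp Primrec.snd)))).to₂
    refine ((Primrec.and.comp (Primrec.snd.comp hs) (Primrec.fst.comp hs)).comp
      (Primrec.list_map Primrec.id (Primrec.snd.comp Primrec.snd).to₂)).of_eq fun r => ?_
    have key : ∀ (l : List Bool) (b a : Bool),
        ((l.foldl (fun (st : Bool × Bool) c => (!st.1, st.2 && (st.1 == c))) (b, a)).2 &&
          (l.foldl (fun (st : Bool × Bool) c => (!st.1, st.2 && (st.1 == c))) (b, a)).1) =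
        (a && altB b l) := by
      intro l
      induction l with
      | nil => intro b a; rfl
      | cons c l ih => intro b a; rw [List.foldl_cons, ih, altB, Bool.and_assoc]
    simpa using key (r.map Prod.snd) true true
  refine RE.or (RE.or ?_ ?_) ?_
  · exact RE.comp hGb.ne_one (primrec_gPart.comp Primrec.snd).to_comp
  · refine re_cert (Ne := fun _ q => PtNe M q)
      (Bad := fun (x : P × Wd (K1L M)) r => ∃ y ∈ r, ptVal M y.1 ∉ RootSet M (eF x.1))
      (RE.comp (re_ptNe hGb) Computable.snd) ?_ (primrec_tAux.comp Primrec.snd).to_comp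
    refine RE.exists_mem (p := fun (z : (P × Wd (K1L M)) × Wd (Pt M)) (y : Pt M × Bool) =>
      ptVal M y.1 ∉ RootSet M (eF z.1.1)) (l := fun z => z.2) ?_ Computable.snd
    exact RE.comp (g := fun z : ((P × Wd (K1L M)) × Wd (Pt M)) × (Pt M × Bool) => (z.1.1.1, z.2.1))
      (re_notRoot hGb he S)
      ((Primrec.fst.comp (Primrec.fst.comp Primrec.fst)).pair (Primrec.fst.comp Primrec.snd)).to_comp
  · refine re_cert (Ne := fun (x : P × Wd (K1L M)) q => KNe M S (eF x.1) (O x.1) (NF x.1) q)
      (Bad := fun (x : P × Wd (K1L M)) r => altB true (r.map Prod.snd) = false ∨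
        ∃ y ∈ r, NotUL M S (eF x.1) (O x.1) (NF x.1) y.1)
      (RE.comp (g := fun x : (P × Wd (K1L M)) × (Wd (K1L M) × Wd (K1L M)) => (x.1.1, x.2))
        (re_kNe hGb he hN S hO) ((Primrec.fst.comp Primrec.fst).pair Primrec.snd).to_comp)
      (RE.or (RE.eq (halt.comp Primrec.snd).to_comp (Computable.const false)) ?_)
      (primrec_kAux.comp Primrec.snd).to_comp
    refine RE.exists_mem (p := fun (z : (P × Wd (K1L M)) × Wd (Wd (K1L M))) (y : Wd (K1L M) × Bool) =>
      NotUL M S (eF z.1.1) (O z.1.1) (NF z.1.1) y.1) (l := fun z => z.2) ?_ Computable.snd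
    exact RE.comp (g := fun z : ((P × Wd (K1L M)) × Wd (Wd (K1L M))) × (Wd (K1L M) × Bool) =>
        (z.1.1.1, z.2.1)) (re_notUL hGb he hN S hO)
      ((Primrec.fst.comp (Primrec.fst.comp Primrec.fst)).pair (Primrec.fst.comp Primrec.snd)).to_comp

end

end Vale.P193
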