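import Vale.Agent.P193.Layer.HStretch
import Vale.Agent.P193.Layer.NegKRE
import Vale.Agent.P193.Gen.EmbCertRE

/-!
P193 M5: the certificates of `H` are recursively enumerable, uniformly in a parameter.
-/

namespace Vale.P193

variable {n : ℕ} (M : Mach (Fin n)) (S : M.Spec) (L0 C : ℕ)

theorem primrec_g0LetterOf : Primrec (g0LetterOf M) := by
  have h : Primrec fun c : ℕ => (allG0 M).foldr (fun g s => if g0Code g = c then some g else s) none := by
    refine Primrec.list_foldr (h := fun (c : ℕ) (q : G0 M.d M.nr n × Option (G0 M.d M.nr n)) =>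
      if g0Code q.1 = c then some q.1 else q.2) (Primrec.const (allG0 M)) (Primrec.const none) ?_
    exact (Primrec.ite (Primrec.eq.comp ((Primrec.dom_finite g0Code).comp (Primrec.fst.comp Primrec.snd))
        Primrec.fst) (Primrec.option_some.comp (Primrec.fst.comp Primrec.snd))
      (Primrec.snd.comp Primrec.snd)).to₂
  refine h.of_eq fun c => ?_
  unfold g0LetterOf
  induction allG0 M with
  | nil => rfl
  | cons g l ih =>
    rw [List.foldr_cons, ih, List.find?_cons]
    by_cases hg : g0Code g = c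
    · simp [hg]
    · have hb : (g0Code g == c) = false := by simpa using hg
      rw [if_neg hg, hb]

theorem hCodes_prim {P : Type} [Primcodable P] :
    EmbData.CodesPrim (fun _ : P => hCodes M L0) where
  tw := (Primrec.const L0).to₂
  wt := by
    suffices h : Primrec fun c : ℕ => (g0LetterOf M c).map fun _ => L0 from (h.comp Primrec.snd).to₂
    exact Primrec.option_map (primrec_g0LetterOf M) (Primrec.const L0).to₂
  rep := by
    suffices h : Primrec fun c : ℕ => ((g0LetterOf M c).map fun g => [(g, true)]).getD [] from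
      (h.comp Primrec.snd).to₂
    exact Primrec.option_getD.comp (Primrec.option_map (primrec_g0LetterOf M)
      (Primrec.list_cons.comp (Primrec.snd.pair (Primrec.const true)) (Primrec.const [])).to₂)
      (Primrec.const [])

variable {P : Type} [Primcodable P] {eF : P → ℕ} {O : P → Wd (Fin n) → Prop}
  {Dr5 : P → Wd (Fin 5) → Prop}

theorem primrec_atomN : Primrec (atomN L0 C) := by
  refine Primrec.nat_div.comp (Primrec.nat_mul.comp (Primrec.const C) ?_) (Primrec.const L0)
  refine ((EmbData.primrec_wsum (β := Unit) (f := fun _ j => EmbData.w5 j)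
    ((Primrec.dom_finite (EmbData.w5)).comp Primrec.snd).to₂).comp (Primrec.const ()) Primrec.id).of_eq fun u => ?_
  induction u with
  | nil => rfl
  | cons l u ih =>
    obtain ⟨j, b⟩ := l
    simp only [id_eq, mu5, wsum_cons, List.countP_cons] at ih ⊢
    rw [ih]
    fin_cases j <;> simp [EmbData.w5] <;> omega

section Tok

variable (he : Computable eF) (hO : REPred fun x : P × Wd (Fin n) => O x.1 x.2)
  (hDr : REPred fun x : P × Wd (Fin 5) => Dr5 x.1 x.2) {NF : P → ℕ} (hN : Computable NF)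
include hDr

theorem re_dr0 : REPred fun x : P × Wd (HL M) => Dr0 M L0 (Dr5 x.1) x.2 :=
  RE.comp (g := fun x : P × Wd (HL M) => (x.1, (ofW M x.2).flatMap (letW M L0))) hDr
    (Primrec.fst.pair
      (Primrec.list_flatMap ((primrec_ofW M).comp Primrec.snd)
        ((primrec_letW M L0).comp Primrec.snd).to₂)).to_comp

theorem re_drH : REPred fun x : P × Wd (G0 M.d M.nr n ⊕ Fin 5) => DrH M L0 (Dr5 x.1) x.2 :=
  RE.comp (g := fun x : P × Wd (G0 M.d M.nr n ⊕ Fin 5) => (x.1, expW M L0 x.2)) hDr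
    (Primrec.fst.pair ((primrec_expW M L0).comp Primrec.snd)).to_comp

include he hO hN

theorem re_negTok : REPred fun x : P × Wd (G0 M.d M.nr n) =>
    NegTok M S L0 (eF x.1) (O x.1) (Dr5 x.1) (NF x.1) x.2 := by
  have h1 := re_notUk (O := O) (gbRE M) S he hN hO
  have h2 := re_negK1 (O := O) (gbRE M) S he hN hO
  have h := re_negH0 (NUk := fun q => NotUk M S (eF q) (O q) (NF q))
    (NK := fun q => NegK1 M S (eF q) (O q) (NF q)) (O := O) (N := NF) (Dr := fun q => Dr0 M L0 (Dr5 q)) h1 h2 hO hN (re_dr0 M L0 hDr)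
  exact RE.comp h (g := fun x : P × Wd (G0 M.d M.nr n) => (x.1, toW M x.2))
    (Primrec.fst.pair ((primrec_toW M).comp Primrec.snd)).to_comp

theorem re_notBTok : REPred fun x : P × Wd (G0 M.d M.nr n) =>
    NotBTok M S L0 (eF x.1) (O x.1) (Dr5 x.1) (NF x.1) x.2 := by
  have h1 := re_notUk (O := O) (gbRE M) S he hN hO
  have h2 := re_negK1 (O := O) (gbRE M) S he hN hO
  have h := re_notBH0 (NUk := fun q => NotUk M S (eF q) (O q) (NF q))
    (NK := fun q => NegK1 M S (eF q) (O q) (NF q)) (O := O) (N := NF) (Dr := fun q => Dr0 M L0 (Dr5 q)) h1 h2 hO hN (re_dr0 M L0 hDr)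
  exact RE.comp h (g := fun x : P × Wd (G0 M.d M.nr n) => (x.1, toW M x.2))
    (Primrec.fst.pair ((primrec_toW M).comp Primrec.snd)).to_comp

end Tok

variable (he : Computable eF) (hO : REPred fun x : P × Wd (Fin n) => O x.1 x.2)
  (hDr : REPred fun x : P × Wd (Fin 5) => Dr5 x.1 x.2)
include he hO hDr

theorem re_lift : Computable (fun q : P × Wd (Fin 5) => eF q.1) ∧
    (REPred fun x : (P × Wd (Fin 5)) × Wd (Fin n) => O x.1.1 x.2) ∧
    REPred fun x : (P × Wd (Fin 5)) × Wd (Fin 5) => Dr5 x.1.1 x.2 :=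
  ⟨he.comp Computable.fst,
    RE.comp (g := fun x : (P × Wd (Fin 5)) × Wd (Fin n) => (x.1.1, x.2)) hO
      ((Primrec.fst.comp Primrec.fst).pair Primrec.snd).to_comp,
    RE.comp (g := fun x : (P × Wd (Fin 5)) × Wd (Fin 5) => (x.1.1, x.2)) hDr
      ((Primrec.fst.comp Primrec.fst).pair Primrec.snd).to_comp⟩

theorem re_negH : REPred fun x : P × Wd (Fin 5) => NegH M S L0 C (eF x.1) (O x.1) (Dr5 x.1) x.2 := by
  obtain ⟨he', hO', hDr'⟩ := re_lift (n := n) he hO hDr
  have hN : Computable fun q : P × Wd (Fin 5) => atomN L0 C q.2 :=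
    (primrec_atomN L0 C).to_comp.comp Computable.snd
  have ht := re_negTok M S L0 (O := fun q : P × Wd (Fin 5) => O q.1) (Dr5 := fun q => Dr5 q.1) he' hO' hDr' hN
  exact RE.comp (g := fun x : P × Wd (Fin 5) => (x, up5 M x.2))
    (EmbData.re_negE (NP := fun q : P × Wd (Fin 5) =>
      NegTok M S L0 (eF q.1) (O q.1) (Dr5 q.1) (atomN L0 C q.2)) (Dr := fun q : P × Wd (Fin 5) => DrH M L0 (Dr5 q.1))
      (hCodes_prim M L0) ht (re_drH M L0 (Dr5 := fun q : P × Wd (Fin 5) => Dr5 q.1) hDr'))
    (Primrec.id.pair ((primrec_mapLetters Primrec.sumInr).comp Primrec.snd)).to_comp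

theorem re_notTH : REPred fun x : P × Wd (Fin 5) => NotTH M S L0 C (eF x.1) (O x.1) (Dr5 x.1) x.2 := by
  obtain ⟨he', hO', hDr'⟩ := re_lift (n := n) he hO hDr
  have hN : Computable fun q : P × Wd (Fin 5) => atomN L0 C q.2 :=
    (primrec_atomN L0 C).to_comp.comp Computable.snd
  have ht := re_negTok M S L0 (O := fun q : P × Wd (Fin 5) => O q.1) (Dr5 := fun q => Dr5 q.1) he' hO' hDr' hN
  have hb := re_notBTok M S L0 (O := fun q : P × Wd (Fin 5) => O q.1) (Dr5 := fun q => Dr5 q.1) he' hO' hDr' hN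
  exact RE.comp (g := fun x : P × Wd (Fin 5) => (x, up5 M x.2))
    (EmbData.re_notP (NP := fun q : P × Wd (Fin 5) =>
      NegTok M S L0 (eF q.1) (O q.1) (Dr5 q.1) (atomN L0 C q.2)) (NS := fun q : P × Wd (Fin 5) =>
      NotBTok M S L0 (eF q.1) (O q.1) (Dr5 q.1) (atomN L0 C q.2)) (Dr := fun q : P × Wd (Fin 5) => DrH M L0 (Dr5 q.1))
      (hCodes_prim M L0) ht hb (re_drH M L0 (Dr5 := fun q : P × Wd (Fin 5) => Dr5 q.1) hDr'))
    (Primrec.id.pair ((primrec_mapLetters Primrec.sumInr).comp Primrec.snd)).to_comp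

end Vale.P193
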