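import Vale.Agent.P193.Layer.TDefs
import Vale.Agent.P193.Layer.G0Code
import Vale.Agent.P193.RE
import Mathlib.Computability.Primrec.List

/-!
P193: the relators of `H` are computable in the parameter, so equality in `HPres` is r.e., uniformly.
-/

namespace Vale.P193

noncomputable section

theorem primrec_natAbs : Primrec Int.natAbs := by
  refine (Primrec.nat_div.comp (Primrec.succ.comp Primrec.encode) (Primrec.const 2)).of_eq ?_
  rintro (m | m)
  · show (2 * m + 1) / 2 = m
    omega
  · show (2 * m + 1 + 1) / 2 = m + 1
    omega

theorem primrec_nonneg : Primrec fun z : ℤ => decide (0 ≤ z) := by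
  refine (((Primrec.eq (α := ℕ)).comp (Primrec.nat_mod.comp (Primrec.encode (α := ℤ)) (Primrec.const 2))
    (Primrec.const 0)).decide).of_eq ?_
  intro z
  refine decide_eq_decide.2 ?_
  rcases z with m | m
  · show (2 * m) % 2 = 0 ↔ (0 : ℤ) ≤ Int.ofNat m
    simp
  · show (2 * m + 1) % 2 = 0 ↔ (0 : ℤ) ≤ Int.negSucc m
    simp

theorem primrec_replicate {α : Type} [Primcodable α] :
    Primrec₂ fun (k : ℕ) (a : α) => List.replicate k a := by
  refine (Primrec.list_map (f := fun q : ℕ × α => List.range q.1) (g := fun (q : ℕ × α) (_ : ℕ) => q.2)
    (Primrec.list_range.comp Primrec.fst) (Primrec.snd.comp Primrec.fst).to₂).of_eq fun q => ?_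
  rw [List.map_const', List.length_range]

variable {n : ℕ} (M : Mach (Fin n))

theorem primrec_winvAny {α : Type} [Primcodable α] : Primrec (winv : Wd α → Wd α) :=
  (RE.primrec_invRev (α := α)).of_eq fun _ => rfl

theorem primrec_yPow : Primrec (yPow M) := by
  unfold yPow
  refine Primrec.list_flatMap (Primrec.const _) ?_
  have hc : Primrec fun q : Cfg M.d × Fin M.d => q.1 q.2 := Primrec.fin_app.comp Primrec.fst Primrec.snd
  exact (primrec_replicate.comp (primrec_natAbs.comp hc)
    (((Primrec.dom_finite (fun j : Fin M.d => (G0.y j : G0 M.d M.nr n))).comp Primrec.snd).pair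
      (primrec_nonneg.comp hc))).to₂

theorem primrec_tauW : Primrec (tauW M) := by
  unfold tauW
  exact Primrec.list_append.comp (Primrec.list_append.comp (primrec_yPow M) (Primrec.const _))
    (primrec_winvAny.comp (primrec_yPow M))

theorem primrec_expand (L0 : ℕ) : Primrec fun w : Wd (G0 M.d M.nr n) => w.flatMap (letW M L0) := by
  have : Finite (G0 M.d M.nr n) := Finite.of_equiv _ (g0Equiv M.d M.nr n).symm
  exact Primrec.list_flatMap Primrec.id ((Primrec.dom_finite (letW M L0)).comp Primrec.snd).to₂

theorem computable_append {α β : Type} [Primcodable α] [Primcodable β] {f g : α → List β}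
    (hf : Computable f) (hg : Computable g) : Computable fun a => f a ++ g a :=
  Primrec.list_append.to_comp.comp hf hg

theorem computable_cons {α β : Type} [Primcodable α] [Primcodable β] {f : α → β} {g : α → List β}
    (hf : Computable f) (hg : Computable g) : Computable fun a => f a :: g a :=
  Primrec.list_cons.to_comp.comp hf hg

/-- The relators are computable in the parameter. -/
theorem computable_relH (h0 : Computable M.root0) (h1 : Computable M.root1) (L0 : ℕ) :
    Computable (relH M L0) := by
  have hX := (primrec_expand M L0).to_comp
  have t0 : Computable fun e => tauW M (M.root0 e) := (primrec_tauW M).to_comp.comp h0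
  have t1 : Computable fun e => tauW M (M.root1 e) := (primrec_tauW M).to_comp.comp h1
  have hw : Computable fun e => winv (tauW M (M.root0 e)) := primrec_winvAny.to_comp.comp t0
  have hw1 : Computable fun e => winv (tauW M (M.root1 e)) := primrec_winvAny.to_comp.comp t1
  have e1 : Computable fun e => wcomm [((G0.k : G0 M.d M.nr n), true)] (tauW M (M.root1 e)) :=
    computable_append (computable_append (computable_append (Computable.const _) t1) (Computable.const _)) hw1
  have ku : Computable fun e => [((G0.k : G0 M.d M.nr n), true)] ++ tauW M (M.root0 e) ++ [(G0.k, false)] :=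
    computable_append (computable_append (Computable.const _) t0) (Computable.const _)
  have rope : ∀ {u : ℕ → Wd (G0 M.d M.nr n)}, Computable u → Computable fun e =>
      weq ([((G0.rope : G0 M.d M.nr n), true)] ++ u e ++ [(G0.rope, false)]) (u e ++ [(G0.beta, true)]) :=
    fun hu => computable_append (computable_append (computable_append (Computable.const _) hu) (Computable.const _))
      (primrec_winvAny.to_comp.comp (computable_append hu (Computable.const _)))
  unfold relH rel0
  simp only [List.map_append, List.map_cons, List.map_nil]
  refine computable_append (computable_append (computable_append (computable_append (computable_append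
    (computable_append (computable_append ?_ ?_) ?_) ?_) ?_) ?_) ?_) ?_
  · exact Computable.const _
  · exact computable_cons (hX.comp e1) (Computable.const _)
  · exact Computable.const _
  · exact Computable.const _
  · exact Computable.const _
  · exact computable_cons (hX.comp (rope t0)) (computable_cons (hX.comp (rope ku)) (Computable.const _))
  · exact Computable.const _
  · exact Computable.const _

/-- The relator predicate of `HPres`. -/
def RelHP (L0 e : ℕ) (r : Wd (Fin 5)) : Prop := r ∈ relH M L0 e

theorem re_RelHP (h0 : Computable M.root0) (h1 : Computable M.root1) (L0 : ℕ) :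
    REPred fun p : ℕ × Wd (Fin 5) => RelHP M L0 p.1 p.2 := by
  refine (RE.exists_mem (p := fun (p : ℕ × Wd (Fin 5)) (r : Wd (Fin 5)) => r = p.2)
    (l := fun p => relH M L0 p.1) (RE.eq Computable.snd (Computable.snd.comp Computable.fst))
    ((computable_relH M h0 h1 L0).comp Computable.fst)).of_eq fun p => ?_
  simp [RelHP]

/-- Triviality in `HPres` is r.e., uniformly in the parameter. -/
theorem re_hPres (h0 : Computable M.root0) (h1 : Computable M.root1) (L0 : ℕ) :
    REPred fun p : ℕ × Wd (Fin 5) => wev (PresentedGroup.of : Fin 5 → HPres M L0 p.1) p.2 = 1 :=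
  RE.re_presented (R := RelHP M L0) (re_RelHP M h0 h1 L0)

end

end Vale.P193
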