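import Vale.Agent.P193.Layer.HFacts
import Vale.Agent.P193.Layer.HStretchRE
import Vale.Agent.P193.Layer.RelH

/-!
P193, M9: the formulas of `H` are recursively enumerable, uniformly in a parameter.
-/

namespace Vale.P193

noncomputable section

variable {nG : ℕ} (M : Mach (Fin (11 + nG))) (S : M.Spec) (L0 : ℕ)
variable {P : Type} [Primcodable P] {eF : P → ℕ} {O : P → Wd (Fin (11 + nG)) → Prop}

include S in
theorem re_dr5P (he : Computable eF) :
    REPred fun x : P × Wd (Fin 5) => Dr5P M L0 (eF x.1) x.2 :=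
  RE.comp (g := fun x : P × Wd (Fin 5) => (eF x.1, x.2)) (re_hPres M S.root0_comp S.root1_comp L0)
    ((he.comp Computable.fst).pair Computable.snd)

theorem re_hForm_negH (he : Computable eF) (hO : REPred fun x : P × Wd (Fin (11 + nG)) => O x.1 x.2) :
    REPred fun x : P × Wd (Fin 5) => (hForm M S L0).NegH (eF x.1) (O x.1) x.2 :=
  re_negH M S L0 CH (Dr5 := fun q => Dr5P M L0 (eF q)) he hO (re_dr5P M S L0 he)

theorem re_hForm_notTH (he : Computable eF) (hO : REPred fun x : P × Wd (Fin (11 + nG)) => O x.1 x.2) :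
    REPred fun x : P × Wd (Fin 5) => (hForm M S L0).NotTH (eF x.1) (O x.1) x.2 :=
  re_notTH M S L0 CH (Dr5 := fun q => Dr5P M L0 (eF q)) he hO (re_dr5P M S L0 he)

end

end Vale.P193
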