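import Vale.Agent.P193.Layer.NegKDefs

/-!
P193 (M4): soundness and completeness of the negative certificates of `K` and `K1`.
-/

namespace Vale.P193

noncomputable section

open RedCert
open scoped Classical

variable {n : ℕ} {M : Mach (Fin n)}

namespace NK

theorem kVal_append (u v : Wd (K1L M)) : kVal M (u ++ v) = kVal M u * kVal M v := wev_append _ _ _

theorem kVal_invRev (u : Wd (K1L M)) : kVal M (FreeGroup.invRev u) = (kVal M u)⁻¹ :=
  Core.wev_invRev _ _

theorem gVal_append (u v : GW M) : gVal M (u ++ v) = gVal M u * gVal M v := wev_append _ _ _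

theorem gVal_invRev (u : GW M) : gVal M (FreeGroup.invRev u) = (gVal M u)⁻¹ := Core.wev_invRev _ _

theorem gVal_ruleUp (r : Wd (Fin M.nr)) : gVal M (ruleUp M r) = liftR M r := wev_map _ _ r

theorem mk_twExp (r : Wd (Fin M.nr)) : FreeGroup.mk (twExp M r) = M.mono r := by
  induction r with
  | nil => simp [twExp, Mach.mono, ← FreeGroup.one_eq_mk]
  | cons l r ih =>
    obtain ⟨i, b⟩ := l
    rw [Mach.mono, Core.wev_cons, ← Mach.mono, ← ih, twExp, twExp, List.flatMap_cons,
      ← FreeGroup.mul_mk]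
    cases b <;> simp [FreeGroup.inv_mk]

theorem length_twExp (S : M.Spec) (r : Wd (Fin M.nr)) : (twExp M r).length ≤ r.length := by
  induction r with
  | nil => simp [twExp]
  | cons l r ih =>
    obtain ⟨i, b⟩ := l
    have := S.tw_len i
    rw [twExp] at ih ⊢
    rw [List.flatMap_cons, List.length_append]
    cases b <;> simp only [cond_false, cond_true, FreeGroup.invRev_length, List.length_cons] <;> omega

theorem gVal_hExp (r : Wd (Fin M.nr)) : gVal M (hExp M r) = liftH M r := by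
  induction r with
  | nil => simp [hExp, gVal, liftH]
  | cons l r ih =>
    obtain ⟨i, b⟩ := l
    rw [liftH, Core.wev_cons, ← liftH, ← ih, hExp, hExp, List.flatMap_cons, gVal_append]
    have h : gVal M (hWord M i) = hRule M i := (exists_hWord M i).choose_spec
    cases b
    · simp [gVal_invRev, h]
    · simp [h]

theorem RP_gVal (s : GW M) : RP M (gVal M s) = FreeGroup.mk (rulePart M s) := by
  induction s with
  | nil => simp [gVal, rulePart, ← FreeGroup.one_eq_mk]
  | cons l s ih =>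
    obtain ⟨a, b⟩ := l
    rw [gVal, Core.wev_cons, map_mul, ← gVal, ih]
    rcases a with j | i
    · cases b <;> simp [rulePart, RP_Y]
    · cases b <;>
        simp [rulePart, RP_R, FreeGroup.of, FreeGroup.inv_mk, FreeGroup.mul_mk, FreeGroup.invRev]

theorem liftR_mk {r r' : Wd (Fin M.nr)} (h : FreeGroup.mk r = FreeGroup.mk r') :
    liftR M r = liftR M r' := by rw [liftR_eq, liftR_eq, h]

theorem liftH_mk {r r' : Wd (Fin M.nr)} (h : FreeGroup.mk r = FreeGroup.mk r') :
    liftH M r = liftH M r' := by rw [liftH, liftH, wev, wev, h]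

theorem RP_liftH (q : Wd (Fin M.nr)) : RP M (liftH M q) = FreeGroup.mk q := by
  induction q with
  | nil => simp [liftH, ← FreeGroup.one_eq_mk]
  | cons l q ih =>
    obtain ⟨i, b⟩ := l
    rw [liftH, Core.wev_cons, map_mul, ← liftH, ih]
    cases b <;>
      simp [hRule, RP_R, RP_Y, FreeGroup.of, FreeGroup.inv_mk, FreeGroup.mul_mk, FreeGroup.invRev]

theorem RP_liftR (r : Wd (Fin M.nr)) : RP M (liftR M r) = FreeGroup.mk r := by
  rw [liftR_eq, RP_RHom]

theorem right_kVal (z : Wd (K1L M)) :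
    (kVal M z).right = ((gVal M (gPart M z), FreeGroup.mk (xPart M z)) : M0 M) := by
  induction z with
  | nil => simp [kVal, gPart, xPart, gVal, ← FreeGroup.one_eq_mk, Prod.ext_iff]
  | cons l z ih =>
    obtain ⟨a, b⟩ := l
    rw [kVal_cons, SemidirectProduct.mul_right, ih]
    rcases a with j | i | y | t
    · cases b <;> simp [gPart, xPart, gVal, Core.wev_cons, kLet, gbK]
    · cases b <;> simp [gPart, xPart, gVal, Core.wev_cons, kLet, gbK]
    · cases b <;> simp [gPart, xPart, kLet, xK, FreeGroup.of, FreeGroup.inv_mk, FreeGroup.mul_mk,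
        FreeGroup.invRev]
    · cases t <;> cases b <;> simp [gPart, xPart, kLet, Cent.k]

theorem ptVal_ptOf (z : Wd (K1L M)) :
    ptVal M (ptOf M z) = ((kVal M z).right : M0 M ⧸ Hh M) := by
  rw [right_kVal]; rfl

theorem length_gPart (z : Wd (K1L M)) : (gPart M z).length ≤ z.length := List.length_filterMap_le _ _

theorem length_xPart (z : Wd (K1L M)) : (xPart M z).length ≤ z.length := List.length_filterMap_le _ _

theorem length_rulePart (s : GW M) : (rulePart M s).length ≤ s.length := List.length_filterMap_le _ _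

theorem preAux_mem {α : Type} : ∀ {w pre : Wd α} {q : Wd α × (α × Bool)}, q ∈ preAux pre w →
    q.1.length < pre.length + w.length
  | [], _, _, h => by simp [preAux] at h
  | l :: w, pre, q, h => by
      rcases List.mem_cons.1 h with rfl | h
      · simp
      · have := preAux_mem h
        simp at this ⊢
        omega

theorem mem_tAux {z : Wd (K1L M)} {x : Pt M × Bool} (h : x ∈ tAux M [] z) :
    x.1.1.length ≤ z.length ∧ x.1.2.length ≤ z.length ∧ 1 ≤ z.length := by
  obtain ⟨q, hq, hx⟩ := List.mem_filterMap.1 h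
  have := preAux_mem hq
  split_ifs at hx
  cases hx
  have := length_gPart q.1
  have := length_xPart q.1
  simp [ptOf] at *
  omega

theorem mem_kAux {w : Wd (K1L M)} {x : Wd (K1L M) × Bool} (h : x ∈ kAux M [] w) :
    x.1.length < w.length := by
  obtain ⟨q, hq, hx⟩ := List.mem_filterMap.1 h
  have := preAux_mem hq
  split_ifs at hx
  cases hx
  simpa using this

theorem mul_k_inv_left (v : K M) :
    (v * Cent.k⁻¹).left = v.left * (FreeGroup.of (v.right : M0 M ⧸ Hh M))⁻¹ := by
  have h := mul_k_left M (v * Cent.k⁻¹)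
  have hr : (v * (Cent.k : K M)⁻¹).right = v.right := by simp [Cent.k]
  rw [inv_mul_cancel_right, hr] at h
  rw [h, mul_inv_cancel_right]

theorem left_tAux : ∀ (w pre : Wd (K1L M)),
    (kVal M (pre ++ w)).left = (kVal M pre).left * FreeGroup.mk (val (ptVal M) (tAux M pre w))
  | [], pre => by simp [tAux, preAux, val, ← FreeGroup.one_eq_mk]
  | (a, b) :: w, pre => by
      have h := left_tAux w (pre ++ [(a, b)])
      rw [List.append_assoc, List.singleton_append] at h
      rw [h, kVal_append pre [(a, b)], kVal_cons, show kVal M ([] : Wd (K1L M)) = 1 by simp [kVal],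
        mul_one]
      rcases a with j | i | y | t
      · cases b <;> simp [tAux, preAux, kLet, gbK]
      · cases b <;> simp [tAux, preAux, kLet, gbK]
      · cases b <;> simp [tAux, preAux, kLet, xK]
      · cases t
        · have e : val (ptVal M) (tAux M pre ((.inr (.inr (.inr false)), b) :: w)) =
              [(((kVal M pre).right : M0 M ⧸ Hh M), b)] ++
                val (ptVal M) (tAux M (pre ++ [(.inr (.inr (.inr false)), b)]) w) := by
            simp [tAux, preAux, val, ptVal_ptOf]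
          rw [e, ← FreeGroup.mul_mk, ← mul_assoc]
          congr 1
          cases b
          · simp only [cond_false]
            rw [show kLet M (.inr (.inr (.inr false))) = Cent.k from rfl, mul_k_inv_left]
            rfl
          · simp only [cond_true]
            rw [show kLet M (.inr (.inr (.inr false))) = Cent.k from rfl, mul_k_left]
            rfl
        · cases b <;> simp [tAux, preAux, kLet]

theorem toWord_left (z : Wd (K1L M)) :
    (kVal M z).left.toWord = FreeGroup.reduce (val (ptVal M) (tAux M [] z)) := by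
  have h := left_tAux z []
  rw [List.nil_append, show (kVal M ([] : Wd (K1L M))).left = 1 by simp [kVal], one_mul] at h
  rw [h, FreeGroup.toWord_mk]

theorem val_kAux (e : ℕ) : ∀ (w pre : Wd (K1L M)),
    val (fun z => (kVal M z : K M ⧸ Lsub M e)) (kAux M pre w) = occ M e (kVal M pre) w
  | [], pre => by simp [kAux, preAux, val, occ]
  | (a, b) :: w, pre => by
      have h := val_kAux e w (pre ++ [(a, b)])
      rw [kVal_append, kVal_cons, show kVal M ([] : Wd (K1L M)) = 1 by simp [kVal], mul_one] at h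
      rcases a with j | i | y | t
      · rw [occ, ← h] <;> simp [kAux, preAux, val]
      · rw [occ, ← h] <;> simp [kAux, preAux, val]
      · rw [occ, ← h] <;> simp [kAux, preAux, val]
      · cases t
        · rw [occ, ← h] <;> simp [kAux, preAux, val]
        · rw [occ]
          have hk : cond b (kLet M (.inr (.inr (.inr true)))) (kLet M (.inr (.inr (.inr true))))⁻¹ = 1 := by
            cases b <;> simp [kLet]
          rw [hk, mul_one] at h
          rw [← h]
          simp [kAux, preAux, val]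

theorem toWord_k1 (e : ℕ) (w : Wd (K1L M)) :
    (k1Val M e w).left.toWord =
        FreeGroup.reduce (val (fun z => (kVal M z : K M ⧸ Lsub M e)) (kAux M [] w)) ∧
      (k1Val M e w).right = kVal M w := by
  obtain ⟨h1, h2⟩ := base_mul_k1Val e w (1 : K M)
  rw [map_one, one_mul] at h1 h2
  refine ⟨?_, by rw [h2, one_mul]⟩
  rw [val_kAux, show kVal M ([] : Wd (K1L M)) = 1 by simp [kVal], h1, FreeGroup.toWord_mk]

theorem mem_Hh_iff {a : Gb M} {b : FreeGroup (Fin n)} :
    ((a, b) : M0 M) ∈ Hh M ↔ a ∈ Subgroup.closure (Set.range (hRule M)) ∧ b = 1 := by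
  refine ⟨fun h => ⟨hh_fst M h, hh_snd M h⟩, ?_⟩
  rintro ⟨ha, rfl⟩
  have hle : Subgroup.closure (Set.range (hRule M)) ≤
      (Hh M).comap (MonoidHom.inl (Gb M) (FreeGroup (Fin n))) := by
    rw [Subgroup.closure_le]
    rintro _ ⟨i, rfl⟩
    exact Subgroup.subset_closure ⟨i, rfl⟩
  exact hle ha

theorem liftH_mem (q : Wd (Fin M.nr)) : liftH M q ∈ Subgroup.closure (Set.range (hRule M)) := by
  rw [← FreeGroup.range_lift_eq_closure]
  exact ⟨_, rfl⟩

/-! ### Orbit -/

/-- The component of `root1` in the rules group. -/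
def InComp (e : ℕ) (s : GW M) : Prop :=
  ∃ w : Wd (Fin M.nr),
    (liftR M w * Y M (M.root1 e))⁻¹ * gVal M s ∈ Subgroup.closure (Set.range (hRule M))

theorem ptVal_mem_Orb {e : ℕ} (p : Pt M) : ptVal M p ∈ Orb M e ↔ ∃ w : Wd (Fin M.nr),
    FreeGroup.mk p.2 = M.mono w ∧
      (liftR M w * Y M (M.root1 e))⁻¹ * gVal M p.1 ∈ Subgroup.closure (Set.range (hRule M)) := by
  rw [mem_Orb_iff]
  refine exists_congr fun w => ?_
  rw [eq_comm, ptVal, QuotientGroup.eq, Prod.inv_mk, Prod.mk_mul_mk, mem_Hh_iff, inv_mul_eq_one,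
    and_comm, eq_comm]

theorem formWordAt_val (s : GW M) (v : Wd (Fin M.nr)) :
    gVal M (formWordAt M s v) = (liftR M v)⁻¹ * gVal M s *
      (liftH M (rulePart M (ruleUp M (FreeGroup.invRev v) ++ s)))⁻¹ := by
  rw [formWordAt, gVal_append, gVal_append, gVal_invRev, gVal_hExp, gVal_ruleUp, liftR,
    Core.wev_invRev, ← liftR]

theorem form_of_eq {s : GW M} {v q : Wd (Fin M.nr)} {c : Cfg M.d}
    (h : gVal M s = liftR M v * Y M c * liftH M q) : gVal M (formWordAt M s v) = Y M c := by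
  have hv : liftR M (FreeGroup.invRev v) = (liftR M v)⁻¹ := Core.wev_invRev _ _
  have hq : FreeGroup.mk (rulePart M (ruleUp M (FreeGroup.invRev v) ++ s)) = FreeGroup.mk q := by
    rw [← RP_gVal, gVal_append, gVal_ruleUp, hv, h, mul_assoc (liftR M v), inv_mul_cancel_left,
      map_mul, RP_Y, RP_liftH, one_mul]
  rw [formWordAt_val, liftH_mk hq, h, mul_assoc (liftR M v), inv_mul_cancel_left, mul_inv_cancel_right]

theorem eq_of_form {s : GW M} {v : Wd (Fin M.nr)} {c : Cfg M.d}
    (h : gVal M (formWordAt M s v) = Y M c) :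
    ∃ q, gVal M s = liftR M v * Y M c * liftH M q := by
  refine ⟨rulePart M (ruleUp M (FreeGroup.invRev v) ++ s), ?_⟩
  rw [← h, formWordAt_val]
  group

variable {S : M.Spec} {e : ℕ}

theorem path_of_mem (hF : GbFacts M S) {w : Wd (Fin M.nr)} {c c' : Cfg M.d}
    (h : (Y M c')⁻¹ * liftR M w * Y M c ∈ Subgroup.closure (Set.range (hRule M))) :
    ∃ p, M.Path p c c' ∧ FreeGroup.mk p = FreeGroup.mk w := by
  refine ⟨(FreeGroup.mk w).toWord, hF.valid _ _ _ FreeGroup.isReduced_toWord ?_, FreeGroup.mk_toWord⟩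
  rwa [liftR_mk (FreeGroup.mk_toWord (x := FreeGroup.mk w))]

theorem Y_inj (hF : GbFacts M S) {c c' : Cfg M.d} (h : Y M c = Y M c') : c = c' :=
  hF.valid [] c c' (by simp) (by rw [h]; simp [liftR])

theorem split_comp (hF : GbFacts M S) {s : GW M} {w : Wd (Fin M.nr)}
    (h : (liftR M w * Y M (M.root1 e))⁻¹ * gVal M s ∈ Subgroup.closure (Set.range (hRule M))) :
    ∃ (v p : Wd (Fin M.nr)) (c : Cfg M.d), v.length ≤ s.length ∧
      gVal M (formWordAt M s v) = Y M c ∧ M.Path p (M.root1 e) c ∧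
      FreeGroup.mk w = FreeGroup.mk v * FreeGroup.mk p ∧
      (S.off c).length ≤ 5 * s.length + 2 := by
  obtain ⟨q0, hq0⟩ := Core.exists_word _ h
  obtain ⟨v, q, p, c, hv, hq, hp, hmk, hc⟩ := hF.split s w q0 (M.root1 e)
    (by rw [liftH, hq0, mul_inv_cancel_left]) (by rw [(S.root_V e).2]; simp)
  exact ⟨v, p, c, hv, form_of_eq hq, hp, hmk, S.off_len c _ hc⟩

variable {B : Type} [Group B] {π : FreeGroup (Fin n) →* B}

theorem acc_nil (hG : Good π e) : Acc e ([] : Wd (Fin n)) :=
  (hG []).2 (by rw [← FreeGroup.one_eq_mk, map_one])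

theorem notOrbG_sound (hF : GbFacts M S) (hG : Good π e) {s : GW M} (h : NotOrbG M S e s) :
    ¬ InComp e s := by
  rintro ⟨w, hw⟩
  obtain ⟨v, p, c, hv, hf, hp, -, -⟩ := split_comp hF hw
  rcases h v (mem_wordsUp.2 hv) with h' | ⟨c', hc', hgen⟩
  · exact h' c hf
  · have : c' = c := Y_inj hF (hc'.symm.trans hf)
    subst this
    exact hgen ((S.conn e (acc_nil hG) c').2 ⟨p, hp⟩)

theorem notOrbG_complete (hG : Good π e) {s : GW M} (h : ¬ InComp e s) : NotOrbG M S e s := by
  intro v _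
  by_cases hc : ∀ c, gVal M (formWordAt M s v) ≠ Y M c
  · exact .inl hc
  · obtain ⟨c, hc⟩ := not_forall.1 hc
    rw [not_not] at hc
    refine .inr ⟨c, hc, fun hgen => h ?_⟩
    obtain ⟨u, hu⟩ := (S.conn e (acc_nil hG) c).1 hgen
    obtain ⟨q, hq⟩ := eq_of_form hc
    refine ⟨v ++ u, ?_⟩
    have := mul_mem (inv_mem (path_mem M hu)) (liftH_mem q)
    rw [hq, liftR, wev_append, ← liftR, ← liftR]
    convert this using 1
    group

variable {O : Wd (Fin n) → Prop} {N : ℕ}

theorem pi_atom (x : Wd (Fin n)) (v : Wd (Fin M.nr)) (c : Cfg M.d) :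
    π (FreeGroup.mk (orbAtom M S x v c)) =
      (π (FreeGroup.mk x))⁻¹ * π (M.mono v) * π (FreeGroup.mk (S.off c)) := by
  rw [orbAtom, ← FreeGroup.mul_mk, ← FreeGroup.mul_mk, ← FreeGroup.inv_mk, map_mul, map_mul,
    map_inv, mk_twExp]

theorem notOrb_sound (hF : GbFacts M S) (hG : Good π e)
    (hO : ∀ v : Wd (Fin n), v.length ≤ N → O v → π (FreeGroup.mk v) ≠ 1)
    {p : Pt M} (h : NotOrb M S e O N p) : ptVal M p ∉ Orb M e := by
  rw [ptVal_mem_Orb]
  rintro ⟨w, hx, hw⟩
  rcases h with h | ⟨v, c, hc, hlen, ho⟩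
  · exact notOrbG_sound hF hG h ⟨w, hw⟩
  · obtain ⟨q, hq⟩ := eq_of_form hc
    have hm : (Y M c)⁻¹ * liftR M (FreeGroup.invRev v ++ w) * Y M (M.root1 e) ∈
        Subgroup.closure (Set.range (hRule M)) := by
      have := mul_mem (liftH_mem q) (inv_mem hw)
      rw [liftR, wev_append, Core.wev_invRev, ← liftR, ← liftR]
      convert this using 1
      rw [hq]
      group
    obtain ⟨u, hu, hmk⟩ := path_of_mem hF hm
    have hs := S.sound e π.ker (fun v hv => (hG v).1 hv) _ _ hu
    rw [MonoidHom.mem_ker, map_mul, map_inv, inv_mul_eq_one] at hs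
    refine hO _ hlen ho ?_
    have hu' : M.mono u = (M.mono v)⁻¹ * M.mono w := by
      rw [mono_eq, hmk, ← FreeGroup.mul_mk, ← FreeGroup.inv_mk, map_mul, map_inv, ← mono_eq,
        ← mono_eq]
    rw [pi_atom, hs, hx, hu', map_mul, map_inv]
    group

theorem notOrb_complete (hF : GbFacts M S) (hG : Good π e)
    (hO : ∀ v : Wd (Fin n), v.length ≤ N → π (FreeGroup.mk v) ≠ 1 → O v)
    {p : Pt M} (hN : p.2.length + 6 * p.1.length + 2 ≤ N) (h : ptVal M p ∉ Orb M e) :
    NotOrb M S e O N p := by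
  by_cases hC : InComp e p.1
  swap
  · exact .inl (notOrbG_complete hG hC)
  obtain ⟨w, hw⟩ := hC
  obtain ⟨v, u, c, hv, hc, hu, hmk, hoff⟩ := split_comp hF hw
  have hlen : (orbAtom M S p.2 v c).length ≤ N := by
    have := length_twExp S v
    simp [orbAtom]
    omega
  refine .inr ⟨v, c, hc, hlen, hO _ hlen fun hpi => h ?_⟩
  have hs := S.sound e π.ker (fun v hv => (hG v).1 hv) _ _ hu
  rw [MonoidHom.mem_ker, map_mul, map_inv, inv_mul_eq_one] at hs
  have hx : π (FreeGroup.mk p.2) = π (M.mono w) := by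
    rw [pi_atom, hs, mul_assoc, inv_mul_eq_one] at hpi
    rw [hpi, mono_eq M w, hmk, map_mul, ← mono_eq, ← mono_eq, map_mul]
  obtain ⟨k, hk⟩ : ∃ k : Wd (Fin n), FreeGroup.mk k = (M.mono w)⁻¹ * FreeGroup.mk p.2 :=
    ⟨_, FreeGroup.mk_toWord⟩
  obtain ⟨wk, hwk, hmk'⟩ := S.reach e k ((hG k).2 (by rw [hk, map_mul, map_inv, hx, inv_mul_cancel]))
  obtain ⟨w0, hw0, hm0⟩ := S.reach e [] (acc_nil hG)
  rw [ptVal_mem_Orb]
  refine ⟨w ++ (FreeGroup.invRev w0 ++ wk), ?_, ?_⟩
  · rw [Mach.mono, wev_append, wev_append, Core.wev_invRev, ← Mach.mono, ← Mach.mono, ← Mach.mono,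
      hm0, hmk', hk, ← FreeGroup.one_eq_mk]
    group
  · have := mul_mem (mul_mem (inv_mem (path_mem M hwk)) (path_mem M hw0)) hw
    rw [liftR, wev_append, wev_append, Core.wev_invRev, ← liftR, ← liftR, ← liftR]
    convert this using 1
    group

theorem ptNe_iff (q : Pt M × Pt M) : PtNe M q ↔ ptVal M q.1 ≠ ptVal M q.2 := Iff.rfl

/-! ### `L`, `U L`, `U` -/

theorem notRules_iff (z : Wd (K1L M)) :
    NotRules M z ↔ ¬ ∃ w : FreeGroup (Fin M.nr), (kVal M z).right.1 = RHom M w := by
  rw [right_kVal, NotRules, gVal_ruleUp, liftR_eq, ← RP_gVal]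
  constructor
  · rintro h ⟨w, hw⟩
    simp only at hw
    exact h (by rw [hw, RP_RHom])
  · exact fun h hh => h ⟨_, hh⟩

theorem right_liftP_iff (z : Wd (K1L M)) :
    (∃ w, (kVal M z).right = liftP M w) ↔ ¬ (NotRules M z ∨
      FreeGroup.mk (xPart M z) ≠ FreeGroup.mk (twExp M (rulePart M (gPart M z)))) := by
  rw [not_or, notRules_iff, not_not, not_not, mk_twExp, mono_eq, ← RP_gVal, right_kVal]
  constructor
  · rintro ⟨w, hw⟩
    have h1 : gVal M (gPart M z) = RHom M w := congrArg Prod.fst hw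
    exact ⟨⟨w, h1⟩, by rw [h1, RP_RHom]; exact congrArg Prod.snd hw⟩
  · rintro ⟨⟨w, h1⟩, h2⟩
    simp only at h1
    exact ⟨w, Prod.ext h1 (by rw [h2, h1, RP_RHom]; rfl)⟩

theorem notL_sound (hF : GbFacts M S) (hG : Good π e)
    (hO : ∀ v : Wd (Fin n), v.length ≤ N → O v → π (FreeGroup.mk v) ≠ 1)
    {z : Wd (K1L M)} (h : NotL M S e O N z) : kVal M z ∉ Lsub M e := by
  rw [mem_Lsub_iff]
  rintro ⟨w, hw, hl⟩
  rcases h with h | h
  · exact (right_liftP_iff z).1 ⟨w, hw⟩ h
  · refine RedCert.sound (f := ptVal M) (Φ := fun r => ∀ x ∈ r, x.1 ∈ Orb M e) (fun q hq => hq)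
      ?_ h ?_
    · rintro r ⟨x, hx, hn⟩ hall
      exact notOrb_sound hF hG hO hn (hall _ (List.mem_map.2 ⟨x, hx, rfl⟩))
    · rw [← toWord_left]; exact hl

theorem notL_complete (hF : GbFacts M S) (hG : Good π e)
    (hO : ∀ v : Wd (Fin n), v.length ≤ N → π (FreeGroup.mk v) ≠ 1 → O v)
    {z : Wd (K1L M)} (hN : z ≠ [] → 9 * z.length + 2 ≤ N) (h : kVal M z ∉ Lsub M e) :
    NotL M S e O N z := by
  by_cases hr : ∃ w, (kVal M z).right = liftP M w
  swap
  · exact .inl (by_contra fun hh => hr ((right_liftP_iff z).2 hh))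
  obtain ⟨w, hw⟩ := hr
  refine .inr (RedCert.complete (f := ptVal M) (Φ := fun r => ∀ x ∈ r, x.1 ∈ Orb M e)
    (fun a b hab hall x hx => hall x ((FreeGroup.Red.sublist hab).subset hx))
    (fun a _ b _ hne => hne) ?_ ?_)
  · intro r hr hn
    simp only [not_forall] at hn
    obtain ⟨x, hx, hn⟩ := hn
    obtain ⟨y, hy, rfl⟩ := List.mem_map.1 hx
    obtain ⟨h1, h2, h3⟩ := mem_tAux (hr y hy)
    refine ⟨y, hy, notOrb_complete hF hG hO ?_ hn⟩
    have := hN (by rintro rfl; simp at h3)
    omega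
  · rw [← toWord_left]
    exact fun hl => h ((mem_Lsub_iff M).2 ⟨w, hw, hl⟩)

/-- First letters over `root0`, then letters in the shifted orbit. -/
def Split (e : ℕ) (g : FreeGroup (Fin n)) (r : Wd (M0 M ⧸ Hh M)) : Prop :=
  ∃ r1 r2, r = r1 ++ r2 ∧ (∀ x ∈ r1, x.1 ∈ RootSet M e) ∧ ∀ x ∈ r2, (inX M g)⁻¹ • x.1 ∈ Orb M e

theorem split_sublist {g : FreeGroup (Fin n)} {a b : Wd (M0 M ⧸ Hh M)} (hab : List.Sublist b a)
    (h : Split (M := M) e g a) : Split e g b := by
  obtain ⟨r1, r2, rfl, h1, h2⟩ := h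
  obtain ⟨s1, s2, rfl, hs1, hs2⟩ := List.sublist_append_iff.1 hab
  exact ⟨s1, s2, rfl, fun x hx => h1 x (hs1.subset hx), fun x hx => h2 x (hs2.subset hx)⟩

theorem mem_image_inX {g : FreeGroup (Fin n)} {y : M0 M ⧸ Hh M} :
    y ∈ (fun z => inX M g • z) '' Orb M e ↔ (inX M g)⁻¹ • y ∈ Orb M e := by
  constructor
  · rintro ⟨z, hz, rfl⟩
    show (inX M g)⁻¹ • inX M g • z ∈ Orb M e
    rwa [inv_smul_smul]
  · exact fun h => ⟨_, h, smul_inv_smul _ _⟩

theorem inUL_split (v : K M) : InUL M e v ↔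
    (∃ w : FreeGroup (Fin M.nr), v.right.1 = RHom M w) ∧ Split e (gU M v) v.left.toWord := by
  rw [inUL_iff]
  refine and_congr_right fun _ => ⟨fun h => ?_, ?_⟩
  · have hs := FreeGroup.toWord_mul_sublist (filt M e v.left) ((filt M e v.left)⁻¹ * v.left)
    rw [mul_inv_cancel_left] at hs
    refine split_sublist ?_ ⟨_, _, rfl, filt_rootSet M e v.left, fun x hx => mem_image_inX.1 (h x hx)⟩
    convert hs using 4
  · rintro ⟨r1, r2, hr, h1, h2⟩
    have hv : v.left = FreeGroup.mk r1 * FreeGroup.mk r2 := by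
      rw [FreeGroup.mul_mk, ← hr, FreeGroup.mk_toWord]
    have l1 : LettersIn (RootSet M e) (FreeGroup.mk r1) := fun x hx =>
      h1 x ((FreeGroup.Red.sublist FreeGroup.reduce.red).subset (by rwa [FreeGroup.toWord_mk] at hx))
    have l2 : LettersIn ((fun z => inX M (gU M v) • z) '' Orb M e) (FreeGroup.mk r2) := fun x hx =>
      mem_image_inX.2 (h2 x ((FreeGroup.Red.sublist FreeGroup.reduce.red).subset
        (by rwa [FreeGroup.toWord_mk] at hx)))
    have he : (filt M e v.left)⁻¹ * v.left = (filt M e (FreeGroup.mk r2))⁻¹ * FreeGroup.mk r2 := by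
      rw [hv, map_mul, filt_fix M l1]
      group
    rw [he]
    exact lettersIn_mul (lettersIn_inv fun x hx => (filt_lettersIn M e l2 x hx).2) l2

theorem mk_gUWord (z : Wd (K1L M)) : FreeGroup.mk (gUWord M z) = gU M (kVal M z) := by
  rw [gU, right_kVal, gUWord, ← FreeGroup.mul_mk, ← FreeGroup.inv_mk, mk_twExp, mono_eq, RP_gVal]

theorem ptVal_shiftPt (z : Wd (K1L M)) (p : Pt M) :
    ptVal M (shiftPt M z p) = (inX M (gU M (kVal M z)))⁻¹ • ptVal M p := by
  rw [← mk_gUWord, ← map_inv, ptVal, ptVal, MulAction.Quotient.smul_coe, shiftPt, ← FreeGroup.mul_mk,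
    ← FreeGroup.inv_mk]
  simp [inX]

theorem notUL_sound (hF : GbFacts M S) (hG : Good π e)
    (hO : ∀ v : Wd (Fin n), v.length ≤ N → O v → π (FreeGroup.mk v) ≠ 1)
    {z : Wd (K1L M)} (h : NotUL M S e O N z) : ¬ InUL M e (kVal M z) := by
  rw [inUL_split]
  rintro ⟨hw, hsp⟩
  rcases h with h | h
  · exact (notRules_iff z).1 h hw
  · refine RedCert.sound (f := ptVal M) (Φ := Split e (gU M (kVal M z))) (fun q hq => hq) ?_ h ?_
    · rintro r hbad ⟨r1, r2, hr, h1, h2⟩
      have hlen : r1.length ≤ r.length := by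
        have := congrArg List.length hr
        simp [val] at this
        omega
      have e1 : val (ptVal M) (r.take r1.length) = r1 := by
        rw [val, List.map_take, ← val, hr, List.take_left]
      have e2 : val (ptVal M) (r.drop r1.length) = r2 := by
        rw [val, List.map_drop, ← val, hr, List.drop_left]
      rcases hbad r1.length (List.mem_range.2 (by omega)) with ⟨x, hx, hn⟩ | ⟨x, hx, hn⟩
      · exact hn (h1 (ptVal M x.1, x.2) (by rw [← e1]; exact List.mem_map.2 ⟨x, hx, rfl⟩))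
      · refine notOrb_sound hF hG hO hn ?_
        rw [ptVal_shiftPt]
        exact h2 (ptVal M x.1, x.2) (by rw [← e2]; exact List.mem_map.2 ⟨x, hx, rfl⟩)
    · rw [← toWord_left]; exact hsp

theorem notUL_complete (hF : GbFacts M S) (hG : Good π e)
    (hO : ∀ v : Wd (Fin n), v.length ≤ N → π (FreeGroup.mk v) ≠ 1 → O v)
    {z : Wd (K1L M)} (hN : z ≠ [] → 9 * z.length + 2 ≤ N) (h : ¬ InUL M e (kVal M z)) :
    NotUL M S e O N z := by
  rw [inUL_split] at h
  by_cases hr : NotRules M z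
  · exact .inl hr
  rw [notRules_iff, not_not] at hr
  refine .inr (RedCert.complete (f := ptVal M) (Φ := Split e (gU M (kVal M z)))
    (fun a b hab hsp => split_sublist (FreeGroup.Red.sublist hab) hsp)
    (fun a _ b _ hne => hne) ?_ ?_)
  · intro r hmem hn i _
    by_contra hcon
    simp only [not_or, not_exists, not_and] at hcon
    refine hn ⟨val (ptVal M) (r.take i), val (ptVal M) (r.drop i), ?_, ?_, ?_⟩
    · simp only [val]; rw [← List.map_append, List.take_append_drop]
    · intro x hx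
      obtain ⟨y, hy, rfl⟩ := List.mem_map.1 hx
      exact not_not.1 (hcon.1 y hy)
    · intro x hx
      obtain ⟨y, hy, rfl⟩ := List.mem_map.1 hx
      obtain ⟨g1, g2, g3⟩ := mem_tAux (hmem y (List.mem_of_mem_drop hy))
      by_contra hno
      refine hcon.2 y hy (notOrb_complete hF hG hO ?_ ?_)
      · have := hN (by rintro rfl; simp at g3)
        have := length_twExp S (rulePart M (gPart M z))
        have := length_rulePart (gPart M z)
        have := length_gPart z
        have := length_xPart z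
        simp [shiftPt, gUWord]
        omega
      · rwa [ptVal_shiftPt]
  · rw [← toWord_left]
    exact fun hsp => h ⟨hr, hsp⟩

theorem notU_iff {z : Wd (K1L M)} : NotU M e z ↔ kVal M z ∉ Usub M e := by
  rw [mem_Usub_iff]
  constructor
  · rintro h ⟨h1, hl⟩
    rw [right_kVal] at h1
    rcases h with h | h
    · exact h h1
    · refine RedCert.sound (f := ptVal M) (Φ := fun r => ∀ x ∈ r, x.1 ∈ RootSet M e) (fun q hq => hq)
        ?_ h ?_
      · rintro r ⟨x, hx, hn⟩ hall
        exact hn (hall _ (List.mem_map.2 ⟨x, hx, rfl⟩))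
      · rw [← toWord_left]; exact hl
  · intro h
    by_cases h1 : gVal M (gPart M z) = 1
    swap
    · exact .inl h1
    refine .inr (RedCert.complete (f := ptVal M) (Φ := fun r => ∀ x ∈ r, x.1 ∈ RootSet M e)
      (fun a b hab hall x hx => hall x ((FreeGroup.Red.sublist hab).subset hx))
      (fun a _ b _ hne => hne) ?_ ?_)
    · intro r _ hn
      simp only [not_forall] at hn
      obtain ⟨x, hx, hn⟩ := hn
      obtain ⟨y, hy, rfl⟩ := List.mem_map.1 hx
      exact ⟨y, hy, hn⟩
    · rw [← toWord_left]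
      exact fun hl => h ⟨by rw [right_kVal]; exact h1, hl⟩

theorem negK_iff {z : Wd (K1L M)} : NegK M z ↔ kVal M z ≠ 1 := by
  have key : kVal M z = 1 ↔ (gVal M (gPart M z) = 1 ∧ FreeGroup.mk (xPart M z) = 1) ∧
      (kVal M z).left.toWord = [] := by
    rw [FreeGroup.toWord_eq_nil_iff, SemidirectProduct.ext_iff, SemidirectProduct.one_left,
      SemidirectProduct.one_right, right_kVal, Prod.mk_eq_one, and_comm]
  constructor
  · intro h h1
    obtain ⟨⟨ha, hb⟩, hc⟩ := key.1 h1
    rcases h with (h | h) | h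
    · exact h ha
    · exact h hb
    · refine RedCert.sound (f := ptVal M) (Φ := fun r => r = []) (fun q hq => hq) ?_ h ?_
      · intro r hr hh
        exact hr (List.map_eq_nil_iff.1 hh)
      · rw [← toWord_left]; exact hc
  · intro h
    by_cases ha : gVal M (gPart M z) = 1
    swap
    · exact .inl (.inl ha)
    by_cases hb : FreeGroup.mk (xPart M z) = 1
    swap
    · exact .inl (.inr hb)
    refine .inr (RedCert.complete (f := ptVal M) (Φ := fun r => r = [])
      (fun a b hab ha => List.sublist_nil.1 (ha ▸ FreeGroup.Red.sublist hab))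
      (fun a _ b _ hne => hne) ?_ ?_)
    · intro r _ hn hr
      exact hn (by simp [hr, val])
    · rw [← toWord_left]
      exact fun hc => h (key.2 ⟨⟨ha, hb⟩, hc⟩)

theorem altW_iff {α : Type} {P : α → Prop} : ∀ {r : Wd α} {b : Bool},
    AltW P b r ↔ altB b (r.map Prod.snd) = true ∧ ∀ x ∈ r, P x.1
  | [], b => by simp [AltW, altB]
  | (a, c) :: r, b => by
      simp only [AltW, altW_iff (r := r), List.map_cons, altB, Bool.and_eq_true, beq_iff_eq,
        List.forall_mem_cons]
      constructor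
      · rintro ⟨h1, h2, h3, h4⟩; exact ⟨⟨h2.symm, h3⟩, h1, h4⟩
      · rintro ⟨⟨h2, h3⟩, h1, h4⟩; exact ⟨h1, h2.symm, h3, h4⟩

theorem coset_eq_iff {a b : Wd (K1L M)} :
    (kVal M a : K M ⧸ Lsub M e) = kVal M b ↔
      kVal M (FreeGroup.invRev a ++ b) ∈ Lsub M e := by
  rw [QuotientGroup.eq, kVal_append, kVal_invRev]

theorem kNe_complete (hF : GbFacts M S) (hG : Good π e)
    (hO : ∀ v : Wd (Fin n), v.length ≤ N → π (FreeGroup.mk v) ≠ 1 → O v)
    {w : Wd (K1L M)} (hN : CN * w.length ≤ N) :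
    ∀ a ∈ kAux M [] w, ∀ b ∈ kAux M [] w,
      (kVal M a.1 : K M ⧸ Lsub M e) ≠ kVal M b.1 → KNe M S e O N (a.1, b.1) := by
  intro a ha b hb hne
  have h1 := mem_kAux ha
  have h2 := mem_kAux hb
  refine notL_complete hF hG hO (fun _ => ?_) (fun h => hne (coset_eq_iff.2 h))
  simp [CN] at hN ⊢
  omega

theorem kNe_sound (hF : GbFacts M S) (hG : Good π e)
    (hO : ∀ v : Wd (Fin n), v.length ≤ N → O v → π (FreeGroup.mk v) ≠ 1)
    (q : Wd (K1L M) × Wd (K1L M)) (h : KNe M S e O N q) :
    (kVal M q.1 : K M ⧸ Lsub M e) ≠ kVal M q.2 :=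
  fun he => notL_sound hF hG hO h (coset_eq_iff.1 he)

end NK

open NK

variable {S : M.Spec} {e : ℕ} {B : Type} [Group B] {π : FreeGroup (Fin n) →* B}
  {O : Wd (Fin n) → Prop} {N : ℕ} {w : Wd (K1L M)}

theorem negK1_sound (hF : GbFacts M S) (hG : Good π e)
    (hO : ∀ v : Wd (Fin n), v.length ≤ N → O v → π (FreeGroup.mk v) ≠ 1)
    (h : NegK1 M S e O N w) : k1Val M e w ≠ 1 := by
  intro h1
  obtain ⟨hl, hr⟩ := toWord_k1 e w
  rw [h1] at hl hr
  rcases h with h | h
  · exact negK_iff.1 h hr.symm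
  · refine RedCert.sound (f := fun z => (kVal M z : K M ⧸ Lsub M e)) (Φ := fun r => r = [])
      (kNe_sound hF hG hO) ?_ h (by rw [← hl]; simp)
    intro r hr hh
    exact hr (List.map_eq_nil_iff.1 hh)

theorem negK1_complete (hF : GbFacts M S) (hG : Good π e)
    (hO : ∀ v : Wd (Fin n), v.length ≤ N → π (FreeGroup.mk v) ≠ 1 → O v)
    (hN : CN * w.length ≤ N) (h : k1Val M e w ≠ 1) : NegK1 M S e O N w := by
  by_cases hk : kVal M w = 1
  swap
  · exact .inl (negK_iff.2 hk)
  obtain ⟨hl, hr⟩ := toWord_k1 e w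
  refine .inr (RedCert.complete (f := fun z => (kVal M z : K M ⧸ Lsub M e)) (Φ := fun r => r = [])
    (fun a b hab ha => List.sublist_nil.1 (ha ▸ FreeGroup.Red.sublist hab))
    (kNe_complete hF hG hO hN) ?_ ?_)
  · intro r _ hn hh
    exact hn (by simp [hh, val])
  · rw [← hl, FreeGroup.toWord_eq_nil_iff]
    exact fun h0 => h (SemidirectProduct.ext (by simpa using h0) (by rw [hr, hk]; rfl))

theorem notUk_sound (hF : GbFacts M S) (hG : Good π e)
    (hO : ∀ v : Wd (Fin n), v.length ≤ N → O v → π (FreeGroup.mk v) ≠ 1)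
    (h : NotUk M S e O N w) : k1Val M e w ∉ Uk M e := by
  rw [mem_Uk_iff]
  rintro ⟨hU, hA⟩
  obtain ⟨hl, hr⟩ := toWord_k1 e w
  rw [hr] at hU
  rcases h with h | h
  · exact notU_iff.1 h hU
  · refine RedCert.sound (f := fun z => (kVal M z : K M ⧸ Lsub M e))
      (Φ := AltW (· ∈ ULset M e) true) (kNe_sound hF hG hO) ?_ h (hl ▸ hA)
    rintro r (hb | ⟨x, hx, hn⟩) hA'
    · rw [altW_iff] at hA'
      rw [val, List.map_map] at hA'
      exact absurd hA'.1 (by simpa [Function.comp_def] using hb)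
    · exact notUL_sound hF hG hO hn
        ((mem_ULset_coe M).1 ((altW_iff.1 hA').2 _ (List.mem_map.2 ⟨x, hx, rfl⟩)))

theorem notUk_complete (hF : GbFacts M S) (hG : Good π e)
    (hO : ∀ v : Wd (Fin n), v.length ≤ N → π (FreeGroup.mk v) ≠ 1 → O v)
    (hN : CN * w.length ≤ N) (h : k1Val M e w ∉ Uk M e) : NotUk M S e O N w := by
  obtain ⟨hl, hr⟩ := toWord_k1 e w
  by_cases hU : kVal M w ∈ Usub M e
  swap
  · exact .inl (notU_iff.2 hU)
  refine .inr (RedCert.complete (f := fun z => (kVal M z : K M ⧸ Lsub M e))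
    (Φ := AltW (· ∈ ULset M e) true) (fun a b hab ha => altW_red hab ha)
    (kNe_complete hF hG hO hN) ?_ ?_)
  · intro r hmem hn
    by_cases hb : altB true (r.map Prod.snd) = false
    · exact .inl hb
    refine .inr (by_contra fun hall => hn (altW_iff.2 ⟨?_, ?_⟩))
    · simpa [val, Function.comp_def] using hb
    · intro x hx
      obtain ⟨y, hy, rfl⟩ := List.mem_map.1 hx
      refine (mem_ULset_coe M).2 (by_contra fun hn' => hall ⟨y, hy, notUL_complete hF hG hO ?_ hn'⟩)
      intro _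
      have := mem_kAux (hmem y hy)
      simp [CN] at hN
      omega
  · rw [← hl]
    exact fun hA => h ((mem_Uk_iff M).2 ⟨by rw [hr]; exact hU, hA⟩)

end

end Vale.P193
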