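import Vale.Agent.P193.Layer.HWords
import Vale.Agent.P193.Layer.NegK
import Vale.Agent.P193.Gen.EmbCert

/-!
P193 M5: the stretched group `H`: certificates for `≠ 1` and for `outside the image of B`, with oracle questions
`C` times shorter than the weight divided by `L0`, and the short word of an element of `B`.
-/

namespace Vale.P193

noncomputable section

open Monoid

variable {n : ℕ} (M : Mach (Fin n)) (S : M.Spec) (L0 C e : ℕ) (O : Wd (Fin n) → Prop)
  (Dr5 : Wd (Fin 5) → Prop)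

/-- A five-letter word in the alphabet of `H`. -/
def up5 (u : Wd (Fin 5)) : Wd (G0 M.d M.nr n ⊕ Fin 5) := u.map fun l => (Sum.inr l.1, l.2)

/-- The bound on the length of oracle questions. -/
def atomN (u : Wd (Fin 5)) : ℕ := C * mu5 u / L0

/-- Derivability in `H`, read in `H0`. -/
def Dr0 (v : Wd (HL M)) : Prop := Dr5 ((ofW M v).flatMap (letW M L0))

/-- Derivability in `H`, read in the alphabet with tokens. -/
def DrH (v : Wd (G0 M.d M.nr n ⊕ Fin 5)) : Prop := Dr5 (expW M L0 v)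

/-- A token word is `≠ 1` in `H0`. -/
def NegTok (N : ℕ) (v : Wd (G0 M.d M.nr n)) : Prop :=
  NegH0 (NotUk M S e O N) (NegK1 M S e O N) O N (Dr0 M L0 Dr5) (toW M v)

/-- A token word is outside the image of `B` in `H0`. -/
def NotBTok (N : ℕ) (v : Wd (G0 M.d M.nr n)) : Prop :=
  NotBH0 (NotUk M S e O N) (NegK1 M S e O N) O N (Dr0 M L0 Dr5) (toW M v)

/-- Certificate for `≠ 1` in `H`. -/
def NegH (u : Wd (Fin 5)) : Prop :=
  EmbData.NegE (hCodes M L0) (NegTok M S L0 e O Dr5 (atomN L0 C u)) (DrH M L0 Dr5) (up5 M u)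

/-- Certificate for lying outside the image of `B` in `H`. -/
def NotTH (u : Wd (Fin 5)) : Prop :=
  EmbData.NotP (hCodes M L0) (NegTok M S L0 e O Dr5 (atomN L0 C u)) (NotBTok M S L0 e O Dr5 (atomN L0 C u))
    (DrH M L0 Dr5) (up5 M u)

/-- The constant of the certificates of `H`. -/
def CH : ℕ := 2 * (3 * (2 * C1 + 1))

theorem wsum_hCodes (v : Wd (G0 M.d M.nr n)) : wsum (hCodes M L0).tw v = v.length * L0 := by
  induction v with
  | nil => simp
  | cons l v ih => rw [wsum_cons, ih, List.length_cons, Nat.succ_mul, Nat.add_comm]; rfl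

theorem wsum_up5 (u : Wd (Fin 5)) : wsum (EmbData.wE (hCodes M L0).tw) (up5 M u) = mu5 u := by
  induction u with
  | nil => rfl
  | cons l u ih =>
    simp only [up5, List.map_cons, wsum_cons] at ih ⊢
    rw [ih]
    simp only [mu5, List.countP_cons, EmbData.wE, EmbData.w5]
    obtain ⟨j, b⟩ := l
    fin_cases j <;> simp <;> omega

variable {M} {L0} {C} {e} {O} {Dr5} {S}

theorem atom_bound (hC : CH ≤ C) (hL : 0 < L0) {u : Wd (Fin 5)} {v : Wd (G0 M.d M.nr n)}
    (hv : wsum (hCodes M L0).tw v ≤ 2 * mu5 u) :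
    3 * ((2 * C1 + 1) * v.length) ≤ atomN L0 C u ∧ CN * v.length ≤ atomN L0 C u := by
  rw [wsum_hCodes] at hv
  simp only [atomN, Nat.le_div_iff_mul_le hL]
  have hC' := Nat.mul_le_mul_right (mu5 u) hC
  simp only [CH, C1, CN] at hC' ⊢
  constructor
  · rw [show 3 * ((2 * 18 + 1) * v.length) * L0 = 111 * (v.length * L0) by ring]
    omega
  · rw [show 40 * v.length * L0 = 40 * (v.length * L0) by ring]
    omega

variable {B : Type} [Group B] {π : FreeGroup (Fin n) →* B} (h : PhiHom M π e)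

theorem wev_up5 (u : Wd (Fin 5)) :
    wev ((stretch M π e h L0).eVal (g0Val M π e h)) (up5 M u) = wev (stretch M π e h L0).five u := by
  rw [up5, wev_map]
  rfl

/-- The image of `B` in `H`. -/
def bTop : B →* HTower M π e h L0 :=
  (stretch M π e h L0).inP.comp (bH0 (phiHom M π e h))

theorem bTop_injective : Function.Injective (bTop (L0 := L0) h) :=
  (stretch M π e h L0).inP_injective.comp (bH0_injective (phiHom M π e h))

theorem bTop_of (a : Fin n) : bTop (L0 := L0) h (π (FreeGroup.of a)) =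
    wev (stretch M π e h L0).five (yWord (g0Code (G0.xb (d := M.d) (nr := M.nr) a)) L0) :=
  ((stretch M π e h L0).five_yWord (G0.xb a)).symm

theorem dr0_sound (hDr : ∀ v, Dr5 v → wev (stretch M π e h L0).five v = 1) (v : Wd (HL M))
    (hv : Dr0 M L0 Dr5 v) : wev (hlVal M π h) v = 1 := by
  refine (stretch M π e h L0).inP_injective ?_
  rw [← wev_ofW M π h, ← wev_letWord M π h L0, hDr _ hv, map_one]

theorem dr0_complete (hDr : ∀ v, wev (stretch M π e h L0).five v = 1 → Dr5 v) (v : Wd (HL M))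
    (hv : wev (hlVal M π h) v = 1) : Dr0 M L0 Dr5 v :=
  hDr _ (by rw [wev_letWord M π h L0, wev_ofW M π h, hv, map_one])

theorem drH_sound (hDr : ∀ v, Dr5 v → wev (stretch M π e h L0).five v = 1)
    (v : Wd (G0 M.d M.nr n ⊕ Fin 5)) (hv : DrH M L0 Dr5 v) :
    wev ((stretch M π e h L0).eVal (g0Val M π e h)) v = 1 := by
  rw [← wev_expW M π h L0, hDr _ hv]

theorem drH_complete (hDr : ∀ v, wev (stretch M π e h L0).five v = 1 → Dr5 v)
    (v : Wd (G0 M.d M.nr n ⊕ Fin 5)) (hv : wev ((stretch M π e h L0).eVal (g0Val M π e h)) v = 1) :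
    DrH M L0 Dr5 v :=
  hDr _ (by rw [wev_expW M π h L0, hv])

variable (hF : GbFacts M S) (hG : Good π e) {N : ℕ}
include hF hG

theorem negTok_sound (hO : ∀ v : Wd (Fin n), v.length ≤ N → O v → π (FreeGroup.mk v) ≠ 1)
    (hDr : ∀ v, Dr5 v → wev (stretch M π e h L0).five v = 1) (v : Wd (G0 M.d M.nr n))
    (hv : NegTok M S L0 e O Dr5 N v) : wev (g0Val M π e h) v ≠ 1 := by
  rw [← wev_toW M π h]
  exact negH0_sound (φ := phiHom M π e h) (fun m hm => notUk_sound hF hG hO hm)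
    (fun m hm => negK1_sound hF hG hO hm) hO (dr0_sound h hDr) hv

theorem notBTok_sound (hO : ∀ v : Wd (Fin n), v.length ≤ N → O v → π (FreeGroup.mk v) ≠ 1)
    (hDr : ∀ v, Dr5 v → wev (stretch M π e h L0).five v = 1) (v : Wd (G0 M.d M.nr n))
    (hv : NotBTok M S L0 e O Dr5 N v) : wev (g0Val M π e h) v ∉ (bH0 (phiHom M π e h)).range := by
  rw [← wev_toW M π h]
  exact notBH0_sound (φ := phiHom M π e h) (fun m hm => notUk_sound hF hG hO hm)
    (fun m hm => negK1_sound hF hG hO hm) hO (dr0_sound h hDr) hv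

theorem negTok_complete (hO : ∀ v : Wd (Fin n), v.length ≤ N → π (FreeGroup.mk v) ≠ 1 → O v)
    (hDr : ∀ v, wev (stretch M π e h L0).five v = 1 → Dr5 v) {v : Wd (G0 M.d M.nr n)}
    (h1 : 3 * ((2 * C1 + 1) * v.length) ≤ N) (h2 : CN * v.length ≤ N)
    (hv : wev (g0Val M π e h) v ≠ 1) : NegTok M S L0 e O Dr5 N v := by
  rw [← wev_toW M π h] at hv
  refine negH0_complete (φ := phiHom M π e h) (h0_wordBound M π h hF hG) (fun m hm hm1 => ?_)
    (fun m hm hm1 => ?_) hO (dr0_complete h hDr) (by rwa [length_toW]) hv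
  all_goals rw [length_toW] at hm
  · exact notUk_complete hF hG hO (le_trans (Nat.mul_le_mul_left _ hm) h2) hm1
  · exact negK1_complete hF hG hO (le_trans (Nat.mul_le_mul_left _ hm) h2) hm1

theorem notBTok_complete (hO : ∀ v : Wd (Fin n), v.length ≤ N → π (FreeGroup.mk v) ≠ 1 → O v)
    (hDr : ∀ v, wev (stretch M π e h L0).five v = 1 → Dr5 v) {v : Wd (G0 M.d M.nr n)}
    (h1 : 3 * ((2 * C1 + 1) * v.length) ≤ N) (h2 : CN * v.length ≤ N)
    (hv : wev (g0Val M π e h) v ∉ (bH0 (phiHom M π e h)).range) : NotBTok M S L0 e O Dr5 N v := by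
  rw [← wev_toW M π h] at hv
  refine notBH0_complete (φ := phiHom M π e h) (h0_wordBound M π h hF hG) (fun m hm hm1 => ?_)
    (fun m hm hm1 => ?_) hO (dr0_complete h hDr) (by rwa [length_toW]) hv
  all_goals rw [length_toW] at hm
  · exact notUk_complete hF hG hO (le_trans (Nat.mul_le_mul_left _ hm) h2) hm1
  · exact negK1_complete hF hG hO (le_trans (Nat.mul_le_mul_left _ hm) h2) hm1

variable (hπ : ∀ a, π (FreeGroup.of a) ≠ 1) (hL : 0 < L0) {u : Wd (Fin 5)}
include hπ hL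

theorem negH_sound (hO : ∀ v : Wd (Fin n), v.length * L0 ≤ C * mu5 u → O v → π (FreeGroup.mk v) ≠ 1)
    (hDr : ∀ v, Dr5 v → wev (stretch M π e h L0).five v = 1) (hu : NegH M S L0 C e O Dr5 u) :
    wev (stretch M π e h L0).five u ≠ 1 := by
  rw [← wev_up5 h]
  exact (hToks M π h L0 hπ).negE_sound
    (negTok_sound h hF hG (fun v hv => hO v ((Nat.le_div_iff_mul_le hL).1 hv)) hDr) (drH_sound h hDr) hu

theorem negH_complete (hC : CH ≤ C)
    (hO : ∀ v : Wd (Fin n), v.length * L0 ≤ C * mu5 u → π (FreeGroup.mk v) ≠ 1 → O v)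
    (hDr : ∀ v, wev (stretch M π e h L0).five v = 1 → Dr5 v)
    (hu : wev (stretch M π e h L0).five u ≠ 1) : NegH M S L0 C e O Dr5 u := by
  rw [← wev_up5 h] at hu
  refine (hToks M π h L0 hπ).negE_complete (w := up5 M u) (fun v hv hv1 => ?_) (drH_complete h hDr) hu
  have hb := atom_bound hC hL (le_of_le_of_eq hv (congrArg (2 * ·) (wsum_up5 M L0 u)))
  exact negTok_complete h hF hG (fun v hv => hO v ((Nat.le_div_iff_mul_le hL).1 hv)) hDr hb.1 hb.2 hv1

theorem notTH_sound (hO : ∀ v : Wd (Fin n), v.length * L0 ≤ C * mu5 u → O v → π (FreeGroup.mk v) ≠ 1)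
    (hDr : ∀ v, Dr5 v → wev (stretch M π e h L0).five v = 1) (hu : NotTH M S L0 C e O Dr5 u) :
    wev (stretch M π e h L0).five u ∉ (bTop (L0 := L0) h).range := by
  have hO' := fun v (hv : v.length ≤ atomN L0 C u) => hO v ((Nat.le_div_iff_mul_le hL).1 hv)
  rintro ⟨b, hb⟩
  refine (hToks M π h L0 hπ).notP_sound (S := (bH0 (phiHom M π e h)).range)
    (negTok_sound h hF hG hO' hDr) (notBTok_sound h hF hG hO' hDr) (drH_sound h hDr) hu
    (x := bH0 (phiHom M π e h) b) ⟨b, rfl⟩ ?_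
  exact (wev_up5 h u).trans hb.symm

theorem notTH_complete (hC : CH ≤ C)
    (hO : ∀ v : Wd (Fin n), v.length * L0 ≤ C * mu5 u → π (FreeGroup.mk v) ≠ 1 → O v)
    (hDr : ∀ v, wev (stretch M π e h L0).five v = 1 → Dr5 v)
    (hu : wev (stretch M π e h L0).five u ∉ (bTop (L0 := L0) h).range) :
    NotTH M S L0 C e O Dr5 u := by
  have hO' := fun v (hv : v.length ≤ atomN L0 C u) => hO v ((Nat.le_div_iff_mul_le hL).1 hv)
  have hb : ∀ v, wsum (hCodes M L0).tw v ≤ 2 * wsum (EmbData.wE (hCodes M L0).tw) (up5 M u) →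
      3 * ((2 * C1 + 1) * v.length) ≤ atomN L0 C u ∧ CN * v.length ≤ atomN L0 C u :=
    fun v hv => atom_bound hC hL (le_of_le_of_eq hv (congrArg (2 * ·) (wsum_up5 M L0 u)))
  refine (hToks M π h L0 hπ).notP_complete (S := (bH0 (phiHom M π e h)).range) (w := up5 M u)
    (fun v hv => negTok_complete h hF hG hO' hDr (hb v hv).1 (hb v hv).2)
    (fun v hv => notBTok_complete h hF hG hO' hDr (hb v hv).1 (hb v hv).2) (drH_complete h hDr) ?_
  rintro x ⟨b, rfl⟩ hx
  exact hu ⟨b, ((wev_up5 h u).symm.trans hx).symm⟩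

/-- An element of `B` has a word that is `L0` times shorter than its weight in `H`, up to a constant. -/
theorem hBWord {b : B} (hu : wev (stretch M π e h L0).five u = bTop (L0 := L0) h b) :
    ∃ v : Wd (Fin n), v.length * L0 ≤ CH * mu5 u ∧ π (FreeGroup.mk v) = b := by
  rw [← wev_up5 h] at hu
  obtain ⟨v, hv, hw⟩ := (hToks M π h L0 hπ).inP_word (w := up5 M u) (x := bH0 (phiHom M π e h) b) hu
  have hv' : wev (g0Val M π e h) v = bH0 (phiHom M π e h) b := hv
  rw [← wev_toW M π h] at hv'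
  obtain ⟨w, hwl, hwv⟩ := h0_bWord (h0_wordBound M π h hF hG) (toW M v) hv'
  refine ⟨w, ?_, hwv⟩
  replace hw : v.length * L0 ≤ mu5 u :=
    le_of_eq_of_le (wsum_hCodes M L0 v).symm (le_of_le_of_eq hw (wsum_up5 M L0 u))
  rw [length_toW] at hwl
  have h1 := Nat.mul_le_mul_right L0 hwl
  simp only [CH, C1] at h1 ⊢
  rw [Nat.mul_assoc, Nat.mul_assoc] at h1
  omega

end

end Vale.P193
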