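import Vale.Agent.P193.Layer.Defs
import Mathlib.GroupTheory.PresentedGroup
import Mathlib.GroupTheory.Coprod.Basic

/-!
P193: the robust group `T`, the presentation of `H`, and the fixed-point parameters.
Input alphabet `Fin (11 + nG)`: `0..4` five generators of `A`, `5` the letter `x`, `6..10` the five of `T`,
`11..` generators of `G`.
-/

namespace Vale.P193

noncomputable section

open Monoid

/-- Weight of a word in the five letters `a, c, e, f, t`: occurrences of `e` and `f`. -/
def mu5 (w : Wd (Fin 5)) : ℕ := w.countP fun l => l.1 == 2 || l.1 == 3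

/-- Indices of certificates: a word and a stage. -/
abbrev Idx := Wd (Fin 5) × ℕ

/-- Parameters of `T`. -/
structure TPar (nG : ℕ) where
  A : Type
  [grpA : Group A]
  five : Fin 5 → A
  G : Type
  [grpG : Group G]
  gG : Fin nG → G
  qv : Fin 5 → A
  L0 : ℕ
  C : Idx → Prop

attribute [instance] TPar.grpA TPar.grpG

namespace TPar

variable {nG : ℕ} (p : TPar nG)

/-- `A ∗ G ∗ ⟨x⟩ ∗ F{y_i}`; `none` is `x`. -/
abbrev P2 : Type := Coprod p.A (Coprod p.G (FreeGroup (Option {i : Idx // p.C i})))

/-- The letter `x`. -/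
def xP : p.P2 := Coprod.inr (Coprod.inr (FreeGroup.of none))

/-- The letter `y_i`. -/
def yP (i : {i : Idx // p.C i}) : p.P2 := Coprod.inr (Coprod.inr (FreeGroup.of (some i)))

/-- The value of the word of a certificate in `A`. -/
def gP (i : {i : Idx // p.C i}) : p.P2 := Coprod.inl (wev p.five i.1.1)

/-- Entries: the five `q`, and `y_i`, `z_i = x⁻¹ y_i⁻¹ g_i`. -/
abbrev Ent : Type := Fin 5 ⊕ ({i : Idx // p.C i} × Bool)

/-- Values of the entries. -/
def entVal : p.Ent → p.P2
  | .inl j => Coprod.inl (p.qv j)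
  | .inr (i, false) => p.yP i
  | .inr (i, true) => p.xP⁻¹ * (p.yP i)⁻¹ * p.gP i

/-- Weights of the entries. -/
def entW : p.Ent → ℕ
  | .inl _ => p.L0
  | .inr (i, _) => 1 + 8 * mu5 i.1.1

/-- Codes of the entries. -/
def entCode : p.Ent → ℕ
  | .inl j => j
  | .inr (i, b) => 5 + (2 * Encodable.encode i.1 + b.toNat)

theorem entCode_injective : Function.Injective p.entCode := by
  rintro (a | ⟨i, b⟩) (a' | ⟨i', b'⟩) h
  · exact congrArg Sum.inl (Fin.ext h)
  · simp [entCode] at h; omega
  · simp [entCode] at h; omega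
  · simp only [entCode] at h
    have hb : b = b' := by cases b <;> cases b' <;> simp at h ⊢ <;> omega
    subst hb
    have : Encodable.encode i.1 = Encodable.encode i'.1 := by omega
    rw [Subtype.ext (Encodable.encode_injective this)]

/-- The data of `T`. -/
def emb : EmbData p.P2 where
  ι := p.Ent
  code := p.entCode
  code_inj := p.entCode_injective
  val := p.entVal
  m := p.entW

/-- The group `T`. -/
abbrev T : Type := p.emb.Emb

/-- Values of the input letters in `T`. -/
def tVal (a : Fin (11 + nG)) : p.T :=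
  if h : (a : ℕ) < 5 then p.emb.inP (Coprod.inl (p.five ⟨a, h⟩))
  else if (a : ℕ) = 5 then p.emb.inP p.xP
  else if h2 : (a : ℕ) < 11 then p.emb.five ⟨(a : ℕ) - 6, by omega⟩
  else p.emb.inP (Coprod.inr (Coprod.inl (p.gG ⟨(a : ℕ) - 11, by omega⟩)))

/-- The quotient map onto `T`. -/
def piT : FreeGroup (Fin (11 + nG)) →* p.T := FreeGroup.lift p.tVal

/-- The subgroup `Q'`. -/
def Qsub : Subgroup p.T := Subgroup.closure (Set.range p.emb.five)

end TPar

/-- The word in the five letters that equals the entry with code `i` and weight `L0`. -/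
def yWord (i L0 : ℕ) : Wd (Fin 5) :=
  [(3, false)] ++ List.replicate i (1, false) ++ [(4, true)] ++ List.replicate i (0, true) ++
    List.replicate (L0 + 2) (2, true) ++ List.replicate i (0, false) ++ [(4, false)] ++
    List.replicate i (1, true) ++ [(3, false)]

/-- Inverse of a word. -/
def winv {α : Type} (w : Wd α) : Wd α := (w.map fun l => (l.1, !l.2)).reverse

/-- A relator saying that two words commute. -/
def wcomm {α : Type} (u v : Wd α) : Wd α := u ++ v ++ winv u ++ winv v

/-- A relator saying that `u = v`. -/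
def weq {α : Type} (u v : Wd α) : Wd α := u ++ winv v

section Pres

variable {n : ℕ} (M : Mach (Fin n))

/-- `y^c` as a word. -/
def yPow (c : Cfg M.d) : Wd (G0 M.d M.nr n) :=
  (List.finRange M.d).flatMap fun j => List.replicate (c j).natAbs (.y j, decide (0 ≤ c j))

/-- `tau c` as a word. -/
def tauW (c : Cfg M.d) : Wd (G0 M.d M.nr n) := yPow M c ++ [(.t, true)] ++ winv (yPow M c)

/-- Relators of `H0` for the parameter `e`. -/
def rel0 (e : ℕ) : List (Wd (G0 M.d M.nr n)) :=
  let ys := List.finRange M.d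
  let rs := List.finRange M.nr
  let xs := List.finRange n
  let k1 : List (G0 M.d M.nr n) := ys.map .y ++ rs.map .r ++ xs.map .x ++ [.t, .k]
  let bt : List (G0 M.d M.nr n) := xs.map .xa ++ xs.map .xb ++ [.beta]
  let h : Fin M.nr → Wd (G0 M.d M.nr n) := fun i =>
    yPow M (-(M.rule i).c1) ++ [(.r i, true)] ++ yPow M (M.rule i).c0
  let u0 : Wd (G0 M.d M.nr n) := tauW M (M.root0 e)
  let ku : Wd (G0 M.d M.nr n) → Wd (G0 M.d M.nr n) := fun u => [(.k, true)] ++ u ++ [(.k, false)]
  let rope : Wd (G0 M.d M.nr n) → Wd (G0 M.d M.nr n) → Wd (G0 M.d M.nr n) := fun u b =>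
    weq ([(.rope, true)] ++ u ++ [(.rope, false)]) (u ++ b)
  ys.flatMap (fun j => ys.map fun l => wcomm [(.y j, true)] [(.y l, true)]) ++
  rs.flatMap (fun i => ys.map fun j =>
    weq ([(.r i, true)] ++ List.replicate ((M.rule i).p j) (.y j, true) ++ [(.r i, false)])
      (List.replicate ((M.rule i).p' j) (.y j, true))) ++
  xs.flatMap (fun a => (ys.map (fun j => G0.y (nr := M.nr) (n := n) j) ++ rs.map (fun i => G0.r i)).map fun g => wcomm [(.x a, true)] [(g, true)]) ++
  rs.map (fun i => wcomm [(.t, true)] (h i)) ++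
  rs.map (fun i => wcomm [(.k, true)] ([(.r i, true)] ++ (M.tw i).map fun l => (.x l.1, l.2))) ++
  [wcomm [(.k, true)] (tauW M (M.root1 e))] ++
  k1.flatMap (fun g => bt.map fun b => wcomm [(g, true)] [(b, true)]) ++
  xs.flatMap (fun a => xs.map fun b => wcomm [(.xa a, true)] [(.xb b, true)]) ++
  xs.map (fun a => weq [(.beta, false), (.xa a, true), (.beta, true)] [(.xa a, true), (.xb a, true)]) ++
  [rope u0 [(.beta, true)], rope (ku u0) [(.beta, true)]] ++
  xs.map (fun a => rope [(.x a, true)] [(.xa a, true)]) ++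
  xs.map (fun a => rope (ku [(.x a, true)]) [])

/-- A letter of `H0` as a word in the five letters. -/
def letW (L0 : ℕ) (g : G0 M.d M.nr n × Bool) : Wd (Fin 5) :=
  if g.2 then yWord (g0Code g.1) L0 else winv (yWord (g0Code g.1) L0)

/-- Relators of `H`. -/
def relH (L0 e : ℕ) : List (Wd (Fin 5)) := (rel0 M e).map fun w => w.flatMap (letW M L0)

/-- `H` as a finitely presented group. -/
abbrev HPres (L0 e : ℕ) : Type :=
  PresentedGroup {x : FreeGroup (Fin 5) | ∃ w ∈ relH M L0 e, FreeGroup.mk w = x}

end Pres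

section Sys

variable {nG : ℕ} (M : Mach (Fin (11 + nG))) (L0 : ℕ) {G : Type} [Group G] (gG : Fin nG → G)

/-- Certified at some stage, read off the program `e`. -/
def CertAt (e : ℕ) (i : Idx) : Prop :=
  (Nat.Partrec.Code.evaln i.2 (Denumerable.ofNat Nat.Partrec.Code e)
    (Nat.pair 1 (Encodable.encode i.1))).isSome

/-- The parameters of `T_e`. -/
abbrev tpar (e : ℕ) : TPar nG where
  A := HPres M L0 e
  five := PresentedGroup.of
  G := G
  gG := gG
  qv j := wev (PresentedGroup.of) (yWord (g0Code (G0.xb (d := M.d) (nr := M.nr)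
    (⟨6 + j, by omega⟩ : Fin (11 + nG)))) L0)
  L0 := L0
  C := CertAt e

end Sys

end

end Vale.P193
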