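import Vale.Agent.P193.Layer.H0Letters
import Vale.Agent.P193.Gen.EmbRedDefs
import Vale.Agent.P193.Gen.EmbPres
import Vale.Agent.P193.Layer.TDefs
import Mathlib.Data.Finite.Sum
import Mathlib.Data.Finite.Prod

/-!
P193 M5: the tokens of the stretched group `H`, and the words in the five letters that they stand for.
-/

namespace Vale.P193

open Monoid

namespace EmbData

variable {P : Type} [Group P] (D : EmbData P)

theorem inP_injective : Function.Injective D.inP := fun x y h => by
  have h1 : (Coprod.inl x : Base P) = Coprod.inl y := HNNExtension.of_injective D.equiv h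
  exact Coprod.inl_injective h1

end EmbData

theorem mu5_yWord (i L0 : ℕ) : mu5 (yWord i L0) = L0 + 4 := by
  simp [mu5, yWord, List.countP_replicate]

variable {n : ℕ} (M : Mach (Fin n))

instance g0Finite (d nr k : ℕ) : Finite (G0 d nr k) := Finite.of_equiv _ (g0Equiv d nr k).symm

/-- All letters of `H0`. -/
def allG0 : List (G0 M.d M.nr n) :=
  (List.finRange M.d).map .y ++ (List.finRange M.nr).map .r ++ (List.finRange n).map .x ++
    (List.finRange n).map .xa ++ (List.finRange n).map .xb ++ [.t, .k, .beta, .rope]

theorem mem_allG0 (g : G0 M.d M.nr n) : g ∈ allG0 M := by cases g <;> simp [allG0]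

/-- The letter with the given code. -/
def g0LetterOf (c : ℕ) : Option (G0 M.d M.nr n) := (allG0 M).find? fun g => g0Code g == c

theorem g0LetterOf_code (g : G0 M.d M.nr n) : g0LetterOf M (g0Code g) = some g := by
  cases h : g0LetterOf M (g0Code g) with
  | none =>
    have := List.find?_eq_none.1 h g (mem_allG0 M g)
    simp at this
  | some g' =>
    have := List.find?_some h
    simp at this
    rw [g0Code_injective this]

theorem g0LetterOf_some {c : ℕ} {g : G0 M.d M.nr n} (h : g0LetterOf M c = some g) : g0Code g = c := by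
  simpa using List.find?_some h

/-- The tokens of `H`: every letter of `H0` weighs `L0`. -/
def hCodes (L0 : ℕ) : EmbData.Codes (G0 M.d M.nr n) where
  tw _ := L0
  wt c := (g0LetterOf M c).map fun _ => L0
  rep c := ((g0LetterOf M c).map fun g => [(g, true)]).getD []

variable {B : Type} [Group B] (π : FreeGroup (Fin n) →* B) {e : ℕ} (h : PhiHom M π e) (L0 : ℕ)

/-- The tokens of `H` with their values. -/
noncomputable def hToks (hπ : ∀ a, π (FreeGroup.of a) ≠ 1) :
    EmbData.Toks (stretch M π e h L0) (G0 M.d M.nr n) where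
  tv := g0Val M π e h
  C := hCodes M L0
  wt_iff c k := by
    constructor
    · intro hc
      simp only [hCodes, Option.map_eq_some_iff] at hc
      obtain ⟨g, hg, rfl⟩ := hc
      exact ⟨g, g0LetterOf_some M hg, rfl⟩
    · rintro ⟨g, rfl, rfl⟩
      revert g
      intro (g : G0 M.d M.nr n)
      show (g0LetterOf M (g0Code g)).map _ = _
      rw [g0LetterOf_code]
      rfl
  rep_val := fun (g : G0 M.d M.nr n) => by
    show wev _ (((g0LetterOf M (g0Code g)).map _).getD []) = _
    rw [g0LetterOf_code]
    exact wev_pos _ _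
  rep_w := fun (g : G0 M.d M.nr n) => by
    show wsum (fun _ => L0) (((g0LetterOf M (g0Code g)).map _).getD []) ≤ L0
    rw [g0LetterOf_code]
    simp [wsum]
  lb g v hv := by
    rcases v with _ | ⟨l, v⟩
    · exact absurd (hv.symm.trans (wev_nil _)) (g0Val_ne_one M π h hπ g)
    · simp [hCodes, stretch]

/-- A letter of the alphabet of `H` as a word in the five letters. -/
def expLetter (l : (G0 M.d M.nr n ⊕ Fin 5) × Bool) : Wd (Fin 5) :=
  Sum.elim (fun g => letW M L0 (g, l.2)) (fun j => [(j, l.2)]) l.1

/-- A word of `H` in the five letters. -/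
def expW (w : Wd (G0 M.d M.nr n ⊕ Fin 5)) : Wd (Fin 5) := w.flatMap (expLetter M L0)

theorem wev_hLetter (l : G0 M.d M.nr n × Bool) :
    wev (stretch M π e h L0).five (letW M L0 l) =
      wev (fun g => (stretch M π e h L0).inP (g0Val M π e h g)) [l] := by
  obtain ⟨g, b⟩ := l
  have hy : wev (stretch M π e h L0).five (yWord (g0Code g) L0) =
      (stretch M π e h L0).inP (g0Val M π e h g) :=
    (stretch M π e h L0).five_yWord g
  cases b
  · simp [letW, wev_winv, wev_neg, hy]
  · simp [letW, wev_pos, hy]

theorem wev_letWord (w : Wd (G0 M.d M.nr n)) :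
    wev (stretch M π e h L0).five (w.flatMap (letW M L0)) =
      (stretch M π e h L0).inP (wev (g0Val M π e h) w) := by
  rw [wev_flatMap _ _ _ (wev_hLetter M π h L0), hom_wev]

theorem wev_expW (w : Wd (G0 M.d M.nr n ⊕ Fin 5)) :
    wev (stretch M π e h L0).five (expW M L0 w) =
      wev ((stretch M π e h L0).eVal (g0Val M π e h)) w := by
  refine wev_flatMap _ _ _ ?_ w
  rintro ⟨g | j, b⟩
  · rw [expLetter]
    simp only [Sum.elim_inl, wev_hLetter]
    cases b <;> simp [wev_pos, wev_neg, EmbData.eVal]
  · cases b <;> simp [expLetter, wev_pos, wev_neg, EmbData.eVal]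

theorem primrec_letW : Primrec (letW M L0) := Primrec.dom_finite _

theorem primrec_expW : Primrec (expW M L0) :=
  Primrec.list_flatMap Primrec.id ((Primrec.dom_finite (expLetter M L0)).comp Primrec.snd).to₂

end Vale.P193
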