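import Vale.Agent.P193.Layer.Defs
import Vale.Agent.P193.Gen.FreeAux
import Mathlib.Tactic.Group

/-!
P193: structure of the subgroups `L` and `U` of `K`, and the criterion for `U L`.
-/

namespace Vale.P193

noncomputable section

open scoped Classical

variable {n : ℕ} (M : Mach (Fin n))

/-- The stable letters, as a homomorphism. -/
def RHom : FreeGroup (Fin M.nr) →* Gb M := FreeGroup.lift (R M)

/-- Monodromy, as a homomorphism. -/
def monoHom : FreeGroup (Fin M.nr) →* FreeGroup (Fin n) :=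
  FreeGroup.lift fun i => FreeGroup.mk (M.tw i)

theorem liftR_eq (w : Wd (Fin M.nr)) : liftR M w = RHom M (FreeGroup.mk w) := rfl

theorem mono_eq (w : Wd (Fin M.nr)) : M.mono w = monoHom M (FreeGroup.mk w) := rfl

/-- Projection to the rule letters. -/
def RP : Gb M →* FreeGroup (Fin M.nr) :=
  (multiCon (fun i => divSub (M.rule i).p) (fun i => divSub (M.rule i).p')
      (fun i => latEquiv (M.rule i))).lift (Monoid.Coprod.lift 1 (MonoidHom.id _))
    (Con.conGen_le.2 fun x y h => by
      obtain ⟨i, a, rfl, rfl⟩ := h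
      simp [Con.ker_apply])

theorem RP_R (i : Fin M.nr) : RP M (R M i) = FreeGroup.of i :=
  (Con.lift_mk' _ _).trans (Monoid.Coprod.lift_apply_inr _ _ _)

theorem RP_Y (c : Cfg M.d) : RP M (Y M c) = 1 :=
  (Con.lift_mk' _ _).trans (Monoid.Coprod.lift_apply_inl _ _ _)

theorem RP_RHom (w : FreeGroup (Fin M.nr)) : RP M (RHom M w) = w := by
  have h : (RP M).comp (RHom M) = MonoidHom.id _ :=
    FreeGroup.ext_hom _ _ fun i => by simp [RHom, RP_R]
  exact DFunLike.congr_fun h w

theorem RHom_injective : Function.Injective (RHom M) :=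
  Function.LeftInverse.injective (RP_RHom M)

/-- Lift of rule words to `Gb × F(X)`, twisted. -/
def liftP : FreeGroup (Fin M.nr) →* M0 M := (RHom M).prod (monoHom M)

/-- The letter over `c` with input coordinate `g`. -/
def ptLetter (c : Cfg M.d) (g : FreeGroup (Fin n)) : M0 M ⧸ Hh M := ((Y M c, g) : M0 M)

/-- The letters over `root0`. -/
def RootSet (e : ℕ) : Set (M0 M ⧸ Hh M) := Set.range (ptLetter M (M.root0 e))

/-- The orbit of the letter over `root1`. -/
def Orb (e : ℕ) : Set (M0 M ⧸ Hh M) := Set.range fun w => liftP M w • ptLetter M (M.root1 e) 1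

theorem mem_Orb_iff (e : ℕ) (z : M0 M ⧸ Hh M) : z ∈ Orb M e ↔
    ∃ w : Wd (Fin M.nr), z = ((liftR M w * Y M (M.root1 e), M.mono w) : M0 M) := by
  constructor
  · rintro ⟨w, rfl⟩
    refine ⟨w.toWord, ?_⟩
    simp [ptLetter, MulAction.Quotient.smul_mk, liftP, liftR_eq, mono_eq, FreeGroup.mk_toWord]
  · rintro ⟨w, rfl⟩
    exact ⟨FreeGroup.mk w, by simp [ptLetter, MulAction.Quotient.smul_mk, liftP, liftR_eq, mono_eq]⟩

theorem snd_eq_one_of_mem_Hh {a : M0 M} (h : a ∈ Hh M) : a.2 = 1 := by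
  have hle : Hh M ≤ (MonoidHom.snd (Gb M) (FreeGroup (Fin n))).ker := by
    rw [Hh, Subgroup.closure_le]
    rintro _ ⟨i, rfl⟩
    exact MonoidHom.mem_ker.2 rfl
  exact hle h

theorem ptLetter_snd {c c' : Cfg M.d} {g g' : FreeGroup (Fin n)}
    (h : ptLetter M c g = ptLetter M c' g') : g = g' := by
  have h' := snd_eq_one_of_mem_Hh M (QuotientGroup.eq.1 h)
  exact inv_mul_eq_one.1 h'

/-- The group of input coordinates inside `Gb × F(X)`. -/
abbrev inX : FreeGroup (Fin n) →* M0 M := MonoidHom.inr _ _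

theorem inX_smul_pt (c : Cfg M.d) (g h : FreeGroup (Fin n)) :
    inX M g • ptLetter M c h = ptLetter M c (g * h) := by
  simp [inX, ptLetter, MulAction.Quotient.smul_mk]

theorem inX_mem_RootSet {e : ℕ} (g : FreeGroup (Fin n)) {z : M0 M ⧸ Hh M} :
    inX M g • z ∈ RootSet M e ↔ z ∈ RootSet M e := by
  constructor
  · rintro ⟨h, hh⟩
    refine ⟨g⁻¹ * h, ?_⟩
    rw [← inX_smul_pt, hh, ← mul_smul, ← map_mul, inv_mul_cancel, map_one, one_smul]
  · rintro ⟨h, rfl⟩
    exact ⟨g * h, (inX_smul_pt M _ _ _).symm⟩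

theorem eq_inX_of_fst {a : M0 M} (h : a.1 = 1) : a = inX M a.2 :=
  Prod.ext h rfl

/-- A sufficient condition for equality of letters: a path. -/
theorem Y_mul (c c' : Cfg M.d) : Y M (c + c') = Y M c * Y M c' :=
  map_mul (MultiHNN.of _ _ _) (Multiplicative.ofAdd c) (Multiplicative.ofAdd c')

theorem move_mem {i : Fin M.nr} {c c' : Cfg M.d} (h : (M.rule i).Move c c') :
    R M i * Y M c = Y M c' * hRule M i := by
  obtain ⟨u, hc, hc'⟩ := h
  set a : Cfg M.d := fun j => ((M.rule i).p j : ℤ) * u j with ha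
  set b : Cfg M.d := fun j => ((M.rule i).p' j : ℤ) * u j with hb
  have e1 : c = a + (M.rule i).c0 := by funext j; simp [ha, hc j, add_comm]
  have e2 : c' = b + (M.rule i).c1 := by funext j; simp [hb, hc' j, add_comm]
  have e3 : R M i * Y M a = Y M b * R M i := by
    have h := MultiHNN.t_mul_of (fun i => divSub (M.rule i).p) (fun i => divSub (M.rule i).p')
      (fun i => latEquiv (M.rule i)) i ⟨Multiplicative.ofAdd a, fun j => dvd_mul_right _ _⟩
    have e : ((latEquiv (M.rule i) ⟨Multiplicative.ofAdd a, fun j => dvd_mul_right _ _⟩ :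
        divSub (M.rule i).p') : Lat M.d) = Multiplicative.ofAdd b := by
      apply Multiplicative.toAdd.injective
      funext j
      show a j / ((M.rule i).p j : ℤ) * ((M.rule i).p' j : ℤ) = b j
      by_cases hp : (M.rule i).p j = 0
      · simp [ha, hb, hp, ((M.rule i).zero_iff j).1 hp]
      · simp only [ha, hb]
        rw [Int.mul_ediv_cancel_left _ (by exact_mod_cast hp), mul_comm]
    rw [e] at h
    exact h
  rw [e1, Y_mul, ← mul_assoc, e3, e2, hRule, Y_mul, mul_assoc (Y M b) (Y M (M.rule i).c1),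
    ← mul_assoc (Y M (M.rule i).c1), ← mul_assoc (Y M (M.rule i).c1), ← Y_mul, add_neg_cancel,
    show Y M (0 : Cfg M.d) = 1 from map_one _, one_mul, mul_assoc]

theorem path_mem : ∀ {w : Wd (Fin M.nr)} {c c' : Cfg M.d}, M.Path w c c' →
    (Y M c')⁻¹ * liftR M w * Y M c ∈ Subgroup.closure (Set.range (hRule M))
  | [], c, c', h => by
      have h : c = c' := h
      subst h
      simp [liftR]
  | (i, s) :: w, c, c', ⟨m, hw, hs⟩ => by
      have ih := path_mem hw
      have hh : hRule M i ∈ Subgroup.closure (Set.range (hRule M)) := Subgroup.subset_closure ⟨i, rfl⟩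
      have e : liftR M ((i, s) :: w) = liftR M [(i, s)] * liftR M w := by
        rw [liftR, liftR, liftR, ← List.singleton_append, wev_append]
      have key : (Y M c')⁻¹ * liftR M [(i, s)] * Y M m ∈ Subgroup.closure (Set.range (hRule M)) := by
        cases s
        · have hm : (M.rule i).Move c' m := hs
          have h1 : (Y M c')⁻¹ * liftR M [(i, false)] * Y M m = (hRule M i)⁻¹ := by
            have h2 : Y M m = R M i * Y M c' * (hRule M i)⁻¹ := by
              rw [move_mem M hm, mul_inv_cancel_right]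
            rw [h2]
            simp [liftR, wev, mul_assoc]
          rw [h1]; exact inv_mem hh
        · have hm : (M.rule i).Move m c' := hs
          have h1 : (Y M c')⁻¹ * liftR M [(i, true)] * Y M m = hRule M i := by
            rw [mul_assoc, show liftR M [(i, true)] = R M i by simp [liftR, wev], move_mem M hm,
              inv_mul_cancel_left]
          rw [h1]; exact hh
      have := mul_mem key ih
      rw [e]
      convert this using 1
      group

/-- Root letters in the orbit are exactly the letters whose input is killed by `π`. -/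
def GoodRoot {B : Type} [Group B] (π : FreeGroup (Fin n) →* B) (e : ℕ) : Prop :=
  ∀ g, ptLetter M (M.root0 e) g ∈ Orb M e ↔ π g = 1

theorem root_mem_Orb_of_acc (S : M.Spec) {e : ℕ} {v : Wd (Fin n)} (h : Acc e v) :
    ptLetter M (M.root0 e) (FreeGroup.mk v) ∈ Orb M e := by
  obtain ⟨w, hw, hm⟩ := S.reach e v h
  rw [mem_Orb_iff]
  refine ⟨w, QuotientGroup.eq.2 ?_⟩
  have hmem : ((Y M (M.root0 e))⁻¹ * (liftR M w * Y M (M.root1 e)), (1 : FreeGroup (Fin n))) ∈ Hh M := by
    rw [← mul_assoc]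
    have hle : Subgroup.closure (Set.range (hRule M)) ≤
        (Hh M).comap (MonoidHom.inl (Gb M) (FreeGroup (Fin n))) := by
      rw [Subgroup.closure_le]
      rintro _ ⟨i, rfl⟩
      exact Subgroup.subset_closure ⟨i, rfl⟩
    exact hle (path_mem M hw)
  simpa [hm, -FreeGroup.inv_mk, -FreeGroup.mul_mk] using hmem

theorem fst_mem_of_mem_Hh {a : M0 M} (h : a ∈ Hh M) :
    a.1 ∈ Subgroup.closure (Set.range (hRule M)) := by
  have hle : Hh M ≤ (Subgroup.closure (Set.range (hRule M))).comap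
      (MonoidHom.fst (Gb M) (FreeGroup (Fin n))) := by
    rw [Hh, Subgroup.closure_le]
    rintro _ ⟨i, rfl⟩
    exact Subgroup.subset_closure ⟨i, rfl⟩
  exact hle h

/-- The forward direction of the valid lemma, as a property of the machine. -/
def ValidFwd : Prop :=
  ∀ (v : Wd (Fin M.nr)) (c c' : Cfg M.d), FreeGroup.IsReduced v →
    (Y M c')⁻¹ * liftR M v * Y M c ∈ Subgroup.closure (Set.range (hRule M)) → M.Path v c c'

/-- `Good` gives `GoodRoot`, given the forward direction of the valid lemma. -/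
theorem goodRoot_of_validFwd {B : Type} [Group B] {π : FreeGroup (Fin n) →* B} (S : M.Spec)
    (hV : ValidFwd M) {e : ℕ} (hG : Good π e) : GoodRoot M π e := by
  intro g
  refine ⟨fun h => ?_, fun h => ?_⟩
  · obtain ⟨w, hw⟩ := h
    have hmem := QuotientGroup.eq.1 (show ((Y M (M.root0 e), g) : M0 M) =
      ((RHom M w * Y M (M.root1 e), monoHom M w * 1) : M0 M ⧸ Hh M) from hw.symm)
    have h1 := fst_mem_of_mem_Hh M hmem
    have h2 : g = monoHom M w := by
      have := snd_eq_one_of_mem_Hh M hmem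
      simpa using inv_mul_eq_one.1 this
    have hp : M.Path w.toWord (M.root1 e) (M.root0 e) := hV _ _ _ FreeGroup.isReduced_toWord (by
      simpa [liftR_eq, FreeGroup.mk_toWord, mul_assoc] using h1)
    have hs := S.sound e π.ker (fun v hv => (hG v).1 hv) _ _ hp
    rw [S.off_root0, mono_eq, FreeGroup.mk_toWord, ← FreeGroup.one_eq_mk, inv_one, one_mul] at hs
    rw [h2]
    exact hs
  · rw [← FreeGroup.mk_toWord (x := g)] at h ⊢
    exact root_mem_Orb_of_acc M S ((hG _).2 h)

/-! ### `L` and `U` -/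

theorem act_lettersIn (m : M0 M) {S T : Set (M0 M ⧸ Hh M)} (h : ∀ z ∈ S, m • z ∈ T)
    {x : FreeGroup (M0 M ⧸ Hh M)} (hx : LettersIn S x) : LettersIn T (centAct (M0 M) (Hh M) m x) :=
  lettersIn_map (centAct (M0 M) (Hh M) m).toMonoidHom
    (fun z hz => by
      rw [MulEquiv.coe_toMonoidHom, Cent.centAct_of]
      exact lettersIn_of (h z hz)) hx

/-- Membership in `L`. -/
def InL (e : ℕ) (v : K M) : Prop :=
  ∃ w : FreeGroup (Fin M.nr), v.right = liftP M w ∧ LettersIn (Orb M e) v.left

theorem liftP_smul_Orb (e : ℕ) (w : FreeGroup (Fin M.nr)) {z : M0 M ⧸ Hh M} (hz : z ∈ Orb M e) :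
    liftP M w • z ∈ Orb M e := by
  obtain ⟨w', rfl⟩ := hz
  exact ⟨w * w', by simp [mul_smul]⟩

/-- The subgroup described by `InL`. -/
def Lset (e : ℕ) : Subgroup (K M) where
  carrier := {v | InL M e v}
  one_mem' := ⟨1, by simp, by simpa using lettersIn_one (Orb M e)⟩
  mul_mem' := by
    rintro a b ⟨w, hw, ha⟩ ⟨w', hw', hb⟩
    refine ⟨w * w', by simp [hw, hw'], ?_⟩
    rw [SemidirectProduct.mul_left]
    refine lettersIn_mul ha (act_lettersIn M _ (fun z hz => ?_) hb)
    rw [hw]
    exact liftP_smul_Orb M e w hz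
  inv_mem' := by
    rintro a ⟨w, hw, ha⟩
    refine ⟨w⁻¹, by simp [hw], ?_⟩
    rw [SemidirectProduct.inv_left]
    refine act_lettersIn M _ (fun z hz => ?_) (lettersIn_inv ha)
    rw [hw, ← map_inv]
    exact liftP_smul_Orb M e w⁻¹ hz

theorem tau_eq (c : Cfg M.d) : tau M c = Cent.letter (ptLetter M c 1) :=
  Cent.conj_k (M := M0 M) (L := Hh M) (Y M c, 1)

theorem Lsub_eq (e : ℕ) : Lsub M e = Lset M e := by
  refine le_antisymm ?_ ?_
  · rw [Lsub, Subgroup.closure_le]
    rintro v (rfl | ⟨i, rfl⟩)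
    · rw [tau_eq]
      refine ⟨1, by simp [Cent.letter], lettersIn_of ⟨1, ?_⟩⟩
      simp
    · refine ⟨FreeGroup.of i, ?_, ?_⟩
      · simp [gbK, xK, liftP, RHom, monoHom]
      · simpa [gbK, xK] using lettersIn_one (Orb M e)
  · rintro v ⟨w, hw, hl⟩
    have hbase : ∀ w, Cent.base (liftP M w) ∈ Lsub M e := by
      intro w
      have hle : (⊤ : Subgroup (FreeGroup (Fin M.nr))) ≤
          (Lsub M e).comap (Cent.base.comp (liftP M)) := by
        rw [← FreeGroup.closure_range_of, Subgroup.closure_le]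
        rintro _ ⟨i, rfl⟩
        refine Subgroup.subset_closure (Or.inr ⟨i, ?_⟩)
        simp [gbK, xK, liftP, RHom, monoHom, ← map_mul]
      exact hle (Subgroup.mem_top w)
    rw [← SemidirectProduct.inl_left_mul_inr_right v, hw]
    refine mul_mem ?_ (hbase w)
    have hle : Subgroup.closure (FreeGroup.of '' Orb M e) ≤
        (Lsub M e).comap (SemidirectProduct.inl (φ := centAct (M0 M) (Hh M))) := by
      rw [Subgroup.closure_le]
      rintro _ ⟨_, ⟨w, rfl⟩, rfl⟩
      show Cent.letter (liftP M w • ptLetter M (M.root1 e) 1) ∈ Lsub M e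
      have e' : Cent.letter (liftP M w • ptLetter M (M.root1 e) 1) =
          Cent.base (liftP M w) * tau M (M.root1 e) * (Cent.base (liftP M w))⁻¹ := by
        rw [tau_eq]
        show _ = SemidirectProduct.inr _ * SemidirectProduct.inl _ * (SemidirectProduct.inr _)⁻¹
        rw [← map_inv, ← SemidirectProduct.inl_aut, Cent.centAct_of]
        rfl
      rw [e']
      exact mul_mem (mul_mem (hbase w) (Subgroup.subset_closure (Or.inl rfl))) (inv_mem (hbase w))
    exact hle (lettersIn_iff.1 hl)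

theorem mem_Lsub_iff {e : ℕ} {v : K M} : v ∈ Lsub M e ↔ InL M e v := by rw [Lsub_eq]; rfl

/-- Membership in `U`. -/
def InU (e : ℕ) (v : K M) : Prop := v.right.1 = 1 ∧ LettersIn (RootSet M e) v.left

/-- The subgroup described by `InU`. -/
def Uset (e : ℕ) : Subgroup (K M) where
  carrier := {v | InU M e v}
  one_mem' := ⟨by simp, by simpa using lettersIn_one (RootSet M e)⟩
  mul_mem' := by
    rintro a b ⟨ha1, ha⟩ ⟨hb1, hb⟩
    refine ⟨by simp [ha1, hb1], ?_⟩
    rw [SemidirectProduct.mul_left]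
    refine lettersIn_mul ha (act_lettersIn M _ (fun z hz => ?_) hb)
    rw [eq_inX_of_fst M ha1]
    exact (inX_mem_RootSet M _).2 hz
  inv_mem' := by
    rintro a ⟨ha1, ha⟩
    refine ⟨by simp [ha1], ?_⟩
    rw [SemidirectProduct.inv_left]
    refine act_lettersIn M _ (fun z hz => ?_) (lettersIn_inv ha)
    rw [eq_inX_of_fst M ha1, ← map_inv]
    exact (inX_mem_RootSet M _).2 hz

theorem Usub_eq (e : ℕ) : Usub M e = Uset M e := by
  refine le_antisymm ?_ ?_
  · rw [Usub, Subgroup.closure_le]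
    rintro v (rfl | ⟨i, rfl⟩)
    · rw [tau_eq]
      exact ⟨by simp [Cent.letter], lettersIn_of ⟨1, rfl⟩⟩
    · exact ⟨by simp [xK], by simpa [xK] using lettersIn_one (RootSet M e)⟩
  · rintro v ⟨hv1, hl⟩
    have hbase : ∀ g, xK M g ∈ Usub M e := by
      intro g
      have hle : (⊤ : Subgroup (FreeGroup (Fin n))) ≤ (Usub M e).comap (xK M) := by
        rw [← FreeGroup.closure_range_of, Subgroup.closure_le]
        rintro _ ⟨i, rfl⟩
        exact Subgroup.subset_closure (Or.inr ⟨i, rfl⟩)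
      exact hle (Subgroup.mem_top g)
    rw [← SemidirectProduct.inl_left_mul_inr_right v, eq_inX_of_fst M hv1]
    refine mul_mem ?_ (hbase v.right.2)
    have hle : Subgroup.closure (FreeGroup.of '' RootSet M e) ≤
        (Usub M e).comap (SemidirectProduct.inl (φ := centAct (M0 M) (Hh M))) := by
      rw [Subgroup.closure_le]
      rintro _ ⟨_, ⟨g, rfl⟩, rfl⟩
      show Cent.letter (ptLetter M (M.root0 e) g) ∈ Usub M e
      have e' : Cent.letter (ptLetter M (M.root0 e) g) =
          xK M g * tau M (M.root0 e) * (xK M g)⁻¹ := by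
        rw [tau_eq]
        show _ = SemidirectProduct.inr _ * SemidirectProduct.inl _ * (SemidirectProduct.inr _)⁻¹
        rw [← map_inv, ← SemidirectProduct.inl_aut, Cent.centAct_of, inX_smul_pt, mul_one]
        rfl
      rw [e']
      exact mul_mem (mul_mem (hbase g) (Subgroup.subset_closure (Or.inl rfl))) (inv_mem (hbase g))
    exact hle (lettersIn_iff.1 hl)

theorem mem_Usub_iff {e : ℕ} {v : K M} : v ∈ Usub M e ↔ InU M e v := by rw [Usub_eq]; rfl

theorem right_eq_one {e : ℕ} {v : K M} (hU : v ∈ Usub M e) (hL : v ∈ Lsub M e) : v.right = 1 := by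
  obtain ⟨hu, -⟩ := (mem_Usub_iff M).1 hU
  obtain ⟨w, hw, -⟩ := (mem_Lsub_iff M).1 hL
  have h1 : RHom M w = RHom M 1 := by
    rw [map_one, ← hu, hw]
    rfl
  rw [hw, RHom_injective M h1, map_one]

/-! ### `U L` -/

/-- Keep the letters over `root0`. -/
def filt (e : ℕ) : FreeGroup (M0 M ⧸ Hh M) →* FreeGroup (M0 M ⧸ Hh M) :=
  FreeGroup.lift fun z => if z ∈ RootSet M e then FreeGroup.of z else 1

theorem filt_lettersIn (e : ℕ) {S : Set (M0 M ⧸ Hh M)} {x : FreeGroup (M0 M ⧸ Hh M)}
    (hx : LettersIn S x) : LettersIn (RootSet M e ∩ S) (filt M e x) :=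
  lettersIn_map (filt M e)
    (fun z hz => by
      simp only [filt, FreeGroup.lift_apply_of]
      split_ifs with h
      · exact lettersIn_of ⟨h, hz⟩
      · exact lettersIn_one _) hx

theorem filt_rootSet (e : ℕ) (x : FreeGroup (M0 M ⧸ Hh M)) :
    LettersIn (RootSet M e) (filt M e x) :=
  fun l hl => (filt_lettersIn M e (S := Set.univ) (fun _ _ => Set.mem_univ _) l hl).1

theorem filt_fix {e : ℕ} {x : FreeGroup (M0 M ⧸ Hh M)} (hx : LettersIn (RootSet M e) x) :
    filt M e x = x :=
  hom_eq_of_lettersIn (g := MonoidHom.id _) (fun z hz => by simp [filt, hz]) hx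

theorem filt_act (e : ℕ) (g : FreeGroup (Fin n)) (x : FreeGroup (M0 M ⧸ Hh M)) :
    filt M e (centAct (M0 M) (Hh M) (inX M g) x) = centAct (M0 M) (Hh M) (inX M g) (filt M e x) := by
  have h : (filt M e).comp (centAct (M0 M) (Hh M) (inX M g)).toMonoidHom =
      ((centAct (M0 M) (Hh M) (inX M g)).toMonoidHom).comp (filt M e) :=
    FreeGroup.ext_hom _ _ fun z => by
      simp only [MonoidHom.comp_apply, MulEquiv.coe_toMonoidHom, Cent.centAct_of, filt,
        FreeGroup.lift_apply_of]
      by_cases hz : z ∈ RootSet M e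
      · rw [if_pos hz, if_pos ((inX_mem_RootSet M g).2 hz), Cent.centAct_of]
      · rw [if_neg hz, if_neg (fun h => hz ((inX_mem_RootSet M g).1 h)), map_one]
  exact DFunLike.congr_fun h x

/-- The input part of the `U`-component of `v ∈ U L`. -/
def gU (v : K M) : FreeGroup (Fin n) := v.right.2 * (monoHom M (RP M v.right.1))⁻¹

/-- The canonical `U`-representative of `v L`. -/
def uRep (e : ℕ) (v : K M) : K M := ⟨filt M e v.left, inX M (gU M v)⟩

theorem uRep_mem (e : ℕ) (v : K M) : uRep M e v ∈ Usub M e :=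
  (mem_Usub_iff M).2 ⟨rfl, filt_rootSet M e _⟩

theorem uRep_spec {e : ℕ} {u l : K M} (hu : u ∈ Usub M e) (hl : l ∈ Lsub M e) :
    (uRep M e (u * l))⁻¹ * (u * l) ∈ Lsub M e := by
  obtain ⟨hu1, huL⟩ := (mem_Usub_iff M).1 hu
  obtain ⟨w, hw, hlL⟩ := (mem_Lsub_iff M).1 hl
  have hg : gU M (u * l) = u.right.2 := by
    simp [gU, hw, hu1, liftP, RP_RHom, mul_assoc]
  have hm : (uRep M e (u * l)) = u * SemidirectProduct.inl (filt M e l.left) := by
    ext
    · simp only [uRep, SemidirectProduct.mul_left, SemidirectProduct.left_inl, map_mul, filt_fix M huL]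
      rw [eq_inX_of_fst M hu1, filt_act]
    · simp [uRep, hu1]
    · simp [uRep, hg]
  rw [hm, mul_inv_rev, mul_assoc, inv_mul_cancel_left]
  refine mul_mem (inv_mem ?_) hl
  exact (mem_Lsub_iff M).2 ⟨1, by simp, fun l' hl' => (filt_lettersIn M e hlL l' hl').2⟩

/-- Membership in `U L`. -/
def InUL (e : ℕ) (v : K M) : Prop := ∃ u ∈ Usub M e, u⁻¹ * v ∈ Lsub M e

theorem inUL_iff_uRep {e : ℕ} {v : K M} : InUL M e v ↔ (uRep M e v)⁻¹ * v ∈ Lsub M e := by
  refine ⟨?_, fun h => ⟨_, uRep_mem M e v, h⟩⟩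
  rintro ⟨u, hu, hl⟩
  have := uRep_spec M hu hl
  rwa [mul_inv_cancel_left] at this

/-- Decidable-shape criterion for `U L`. -/
theorem inUL_iff {e : ℕ} {v : K M} : InUL M e v ↔
    (∃ w : FreeGroup (Fin M.nr), v.right.1 = RHom M w) ∧
      LettersIn ((fun z => inX M (gU M v) • z) '' Orb M e) ((filt M e v.left)⁻¹ * v.left) := by
  rw [inUL_iff_uRep, mem_Lsub_iff]
  have hleft : ((uRep M e v)⁻¹ * v).left =
      centAct (M0 M) (Hh M) (inX M (gU M v))⁻¹ ((filt M e v.left)⁻¹ * v.left) := by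
    simp [SemidirectProduct.mul_left, SemidirectProduct.inv_left, uRep]
  have hright : ((uRep M e v)⁻¹ * v).right = (inX M (gU M v))⁻¹ * v.right := by
    simp [uRep]
  constructor
  · rintro ⟨w, hw, hL⟩
    rw [hleft] at hL
    rw [hright] at hw
    refine ⟨⟨w, by simpa [liftP] using congrArg Prod.fst hw⟩, ?_⟩
    have := act_lettersIn M (inX M (gU M v))
      (T := (fun z => inX M (gU M v) • z) '' Orb M e) (fun z hz => ⟨z, hz, rfl⟩) hL
    rwa [← MulAut.mul_apply, ← map_mul, mul_inv_cancel, map_one, MulAut.one_apply] at this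
  · rintro ⟨⟨w, hw⟩, hL⟩
    refine ⟨w, ?_, ?_⟩
    · rw [hright]
      ext
      · simp [liftP, hw]
      · simp [liftP, gU, hw, RP_RHom]
    · rw [hleft]
      refine act_lettersIn M _ ?_ hL
      rintro z ⟨y, hy, rfl⟩
      simp only
      rwa [smul_smul, inv_mul_cancel, one_smul]

end

end Vale.P193
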