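import Vale.Agent.P193.Layer.MainCore
import Vale.Agent.P193.Mach.Spec
import Vale.Agent.P193.Layer.GoodRoot

/-!
P193, M10: assembly of the fixed point and the extension, over the layer facts.
-/

namespace Vale.P193

noncomputable section

open Monoid

variable {nG : ℕ} (M : Mach (Fin (11 + nG))) (L0 : ℕ) {G : Type} [Group G] (gG : Fin nG → G)
  (F : HForm (11 + nG))

/-- The two facts about the subgroup `Q'` of `T` used for the extension. -/
structure QFacts (e : ℕ) : Prop where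
  mem : ∀ a, (tpar M L0 gG e).emb.inP (Coprod.inl a) ∈ (tpar M L0 gG e).Qsub ↔ a ∈ Qe M L0 gG e
  core : ∀ a ∈ Qe M L0 gG e, a ≠ 1 → (tpar M L0 gG e).emb.inP ((tpar M L0 gG e).xP *
    Coprod.inl a * (tpar M L0 gG e).xP⁻¹) ∉ (tpar M L0 gG e).Qsub

theorem nice_of_layers [Infinite G] (hL : 20 * F.C + 8 ≤ L0)
    (hre : REPred fun p : ℕ × ℕ => SysF M L0 gG F p.1 p.2)
    (hH : ∀ e, Good (tpar M L0 gG e).piT e → Nonempty (HFacts M L0 gG F e))
    (hT : ∀ e, HFacts M L0 gG F e → TFacts M L0 gG e)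
    (hQ : ∀ e, HFacts M L0 gG F e →
      (∀ g, (∃ s, CertAt e (g, s)) ↔ wev (tpar M L0 gG e).five g ∉ Qe M L0 gG e) → QFacts M L0 gG e) :
    NiceEnvelope G := by
  obtain ⟨e, hfix⟩ := RE.exists_fixed _ hre
  obtain ⟨H⟩ := hH e (good_of_fix M L0 gG F hfix (nOf_injective _))
  have hcert := cert_iff M L0 gG F hfix (hT e H) H hL
  have hq := hQ e H hcert
  exact nice_of_cert M L0 gG F H hcert hq.mem hq.core

end

end Vale.P193
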