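import Vale.Agent.P193.Layer.Fix
import Vale.Agent.P193.Lam.Nice
import Vale.Agent.P193.Layer.Iso

/-!
P193, M10: a parameter whose certified words are the complement of `Q` gives the data of the ascending extension.
-/

namespace Vale.P193

noncomputable section

open Monoid

variable {nG : ℕ} (M : Mach (Fin (11 + nG))) (L0 : ℕ) {G : Type} [Group G] (gG : Fin nG → G)
  (F : HForm (11 + nG)) {e : ℕ}

theorem emb_inP_injective {P : Type} [Group P] (D : EmbData P) : Function.Injective D.inP :=
  (HNNExtension.of_injective D.equiv).comp Coprod.inl_injective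

theorem wev_mem_closure {α K : Type} [Group K] (f : α → K) (w : Wd α) :
    wev f w ∈ Subgroup.closure (Set.range f) := by
  rw [← FreeGroup.range_lift_eq_closure]
  exact ⟨_, rfl⟩

/-- The value of an entry lies in the subgroup of the five letters. -/
theorem inP_ent_mem (p : TPar nG) [DecidablePred p.C] (i : p.Ent) :
    p.emb.inP (p.entVal i) ∈ p.Qsub := by
  rw [← p.wev_yWord i]
  exact wev_mem_closure _ _

theorem nice_of_cert [Infinite G] (H : HFacts M L0 gG F e)
    (hcert : ∀ g, (∃ s, CertAt e (g, s)) ↔ wev (tpar M L0 gG e).five g ∉ Qe M L0 gG e)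
    (hmem : ∀ a, (tpar M L0 gG e).emb.inP (Coprod.inl a) ∈ (tpar M L0 gG e).Qsub ↔ a ∈ Qe M L0 gG e)
    (hcore : ∀ a ∈ Qe M L0 gG e, a ≠ 1 → (tpar M L0 gG e).emb.inP ((tpar M L0 gG e).xP *
      Coprod.inl a * (tpar M L0 gG e).xP⁻¹) ∉ (tpar M L0 gG e).Qsub) :
    NiceEnvelope G := by
  classical
  set p := tpar M L0 gG e with hp
  have hmap : ∀ x, H.th x ∈ Qe M L0 gG e ↔ x ∈ p.Qsub := fun x => by
    rw [← map_Qsub M L0 gG F H]
    exact Subgroup.mem_map_iff_mem H.th_inj
  let i : G →* p.T := p.emb.inP.comp (Coprod.inr.comp Coprod.inl)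
  have i_inj : Function.Injective i :=
    (emb_inP_injective _).comp (Coprod.inr_injective.comp Coprod.inl_injective)
  let θ : p.A →* p.A := H.th.comp (p.emb.inP.comp Coprod.inl)
  let C : Core G :=
    { H := p.A
      grp := p.grpA
      fp := hPres_fp M L0 e
      inf := Infinite.of_injective _ (H.th_inj.comp i_inj)
      θ := θ
      inj := H.th_inj.comp ((emb_inP_injective _).comp Coprod.inl_injective)
      Q := Qe M L0 gG e
      fg := ⟨(Finset.univ : Finset (Fin 5)).image p.qv, by
        rw [Finset.coe_image, Finset.coe_univ, Set.image_univ]; rfl⟩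
      hQ := fun h => (hmap _).trans (hmem h)
      x := H.th (p.emb.inP p.xP)
      dc := ?_
      core := fun q hq hne => by
        have e : H.th (p.emb.inP p.xP) * θ q * (H.th (p.emb.inP p.xP))⁻¹ =
            H.th (p.emb.inP (p.xP * Coprod.inl q * p.xP⁻¹)) := by
          simp [θ]
        rw [e, hmap]
        exact hcore q hq hne
      i := H.th.comp i
      i_inj := H.th_inj.comp i_inj }
  · exact C.nice
  intro h hh
  obtain ⟨x, rfl⟩ := PresentedGroup.mk_surjective _ h
  obtain ⟨g, rfl⟩ : ∃ g, FreeGroup.mk g = x := Quot.exists_rep x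
  have hg : wev p.five g = PresentedGroup.mk _ (FreeGroup.mk g) := by
    show FreeGroup.lift (PresentedGroup.of (rels := _)) (FreeGroup.mk g) = _
    congr 1
    exact FreeGroup.ext_hom _ _ fun a => FreeGroup.lift_apply_of
  rw [← hg] at hh ⊢
  obtain ⟨s, hs⟩ := (hcert g).2 hh
  let i : {i : Idx // p.C i} := ⟨(g, s), hs⟩
  refine ⟨_, (hmap _).2 (inP_ent_mem p (.inr (i, false))), _,
    (hmap _).2 (inP_ent_mem p (.inr (i, true))), ?_⟩
  show H.th (p.emb.inP (Coprod.inl (wev p.five g))) = _
  rw [← map_mul, ← map_mul, ← map_mul, ← map_mul]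
  congr 2
  simp [TPar.entVal, TPar.gP, i, mul_assoc]

end

end Vale.P193
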