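import Vale.Agent.P193.Layer.Core
import Vale.Agent.P193.Layer.KL
import Vale.Agent.P193.Gen.ReduceCert
import Vale.Agent.P193.WordLemmas
import Mathlib.Algebra.BigOperators.Pi
import Mathlib.Algebra.Group.Subgroup.Finite

/-!
P193 (M4): certificates for negative statements in `K` and `K1`, relative to an oracle `O` for `≠ 1` in `B`, used
only on words of length at most `N`.

* `NegK1 e O N w`: the value of `w` in `K1` is not `1`;
* `NotUk e O N w`: it is not in `Uk`.
-/

namespace Vale.P193

noncomputable section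

open RedCert

variable {n : ℕ} (M : Mach (Fin n))

/-- Letters of the rules group. -/
abbrev GW : Type := Wd (Fin M.d ⊕ Fin M.nr)

/-- A represented point of `Gb × F(X)`. -/
abbrev Pt : Type := GW M × Wd (Fin n)

/-- The letters of the rules group in a word of `K`. -/
def gPart (z : Wd (K1L M)) : GW M :=
  z.filterMap fun l => match l.1 with
    | .inl j => some (.inl j, l.2)
    | .inr (.inl i) => some (.inr i, l.2)
    | .inr (.inr _) => none

/-- The input letters in a word of `K`. -/
def xPart (z : Wd (K1L M)) : Wd (Fin n) :=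
  z.filterMap fun l => match l.1 with
    | .inr (.inr (.inl a)) => some (a, l.2)
    | _ => none

/-- The rule letters. -/
def rulePart (s : GW M) : Wd (Fin M.nr) :=
  s.filterMap fun l => match l.1 with
    | .inl _ => none
    | .inr i => some (i, l.2)

/-- Rule letters as letters of the rules group. -/
def ruleUp (r : Wd (Fin M.nr)) : GW M := r.map fun l => (.inr l.1, l.2)

/-- The monodromy as a word. -/
def twExp (r : Wd (Fin M.nr)) : Wd (Fin n) :=
  r.flatMap fun l => cond l.2 (M.tw l.1) (FreeGroup.invRev (M.tw l.1))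

/-- Both parts. -/
def ptOf (z : Wd (K1L M)) : Pt M := (gPart M z, xPart M z)

/-- The coset of a represented point. -/
def ptVal (p : Pt M) : M0 M ⧸ Hh M := ((gVal M p.1, FreeGroup.mk p.2) : M0 M)

/-- Letters paired with the word before them, after a given word. -/
def preAux {α : Type} : Wd α → Wd α → List (Wd α × (α × Bool))
  | _, [] => []
  | pre, l :: w => (pre, l) :: preAux (pre ++ [l]) w

/-- The occurrences of `t`, after a given word. -/
def tAux (pre w : Wd (K1L M)) : Wd (Pt M) :=
  (preAux pre w).filterMap fun q =>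
    if q.2.1 = .inr (.inr (.inr false)) then some (ptOf M q.1, q.2.2) else none

/-- The occurrences of `k`, after a given word. -/
def kAux (pre w : Wd (K1L M)) : Wd (Wd (K1L M)) :=
  (preAux pre w).filterMap fun q =>
    if q.2.1 = .inr (.inr (.inr true)) then some (q.1, q.2.2) else none

/-- All words in a finite alphabet up to a length. -/
def wordsUp (m : ℕ) : ℕ → List (Wd (Fin m))
  | 0 => [[]]
  | k + 1 => [] :: (wordsUp m k).flatMap fun w =>
      (List.finRange m).flatMap fun i => [(i, true) :: w, (i, false) :: w]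

theorem mem_wordsUp {m : ℕ} : ∀ {k : ℕ} {w : Wd (Fin m)}, w ∈ wordsUp m k ↔ w.length ≤ k
  | 0, w => by simp [wordsUp]
  | k + 1, [] => by simp [wordsUp]
  | k + 1, (i, b) :: w => by
      have := @mem_wordsUp m k w
      cases b <;> simp [wordsUp, this]

theorem exists_yWord (c : Cfg M.d) : ∃ q : GW M, gVal M q = Y M c := by
  refine Core.exists_word _ ?_
  have hgen : ∀ j, Y M (Pi.single j 1) ∈ Subgroup.closure
      (Set.range (Sum.elim (fun j => Y M (Pi.single j 1)) (R M))) :=
    fun j => Subgroup.subset_closure ⟨.inl j, rfl⟩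
  let A : AddSubgroup (Cfg M.d) :=
    { carrier := {c | Y M c ∈ Subgroup.closure
        (Set.range (Sum.elim (fun j => Y M (Pi.single j 1)) (R M)))}
      add_mem' := fun {a b} ha hb => by
        simp only [Set.mem_ofPred_eq] at ha hb ⊢
        rw [Y_mul]; exact mul_mem ha hb
      zero_mem' := by
        simp only [Set.mem_ofPred_eq, show Y M (0 : Cfg M.d) = 1 from map_one _]
        exact one_mem _
      neg_mem' := fun {a} ha => by
        simp only [Set.mem_ofPred_eq] at ha ⊢
        rw [show Y M (-a) = (Y M a)⁻¹ from map_inv _ _]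
        exact inv_mem ha }
  show c ∈ A
  rw [← Finset.univ_sum_single c]
  refine AddSubgroup.sum_mem _ fun j _ => ?_
  have : Pi.single j (c j) = c j • (Pi.single j (1 : ℤ) : Cfg M.d) := by
    funext k
    rcases eq_or_ne k j with rfl | hk
    · simp
    · simp [Pi.single_eq_of_ne hk]
  rw [this]
  refine AddSubgroup.zsmul_mem _ ?_ _
  exact hgen j

theorem exists_hWord (i : Fin M.nr) : ∃ q : GW M, gVal M q = hRule M i := by
  obtain ⟨a, ha⟩ := exists_yWord M (-(M.rule i).c1)
  obtain ⟨b, hb⟩ := exists_yWord M (M.rule i).c0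
  refine ⟨a ++ [(.inr i, true)] ++ b, ?_⟩
  simp only [gVal, wev_append] at ha hb ⊢
  rw [ha, hb, hRule]
  simp [wev]

/-- A word for a generator of `⟨h⟩`. -/
def hWord (i : Fin M.nr) : GW M := (exists_hWord M i).choose

/-- A word in the generators of `⟨h⟩`, expanded. -/
def hExp (r : Wd (Fin M.nr)) : GW M :=
  r.flatMap fun l => cond l.2 (hWord M l.1) (FreeGroup.invRev (hWord M l.1))

/-- `v⁻¹ γ q⁻¹`, where `q` is the only candidate for the `⟨h⟩` part. -/
def formWordAt (s : GW M) (v : Wd (Fin M.nr)) : GW M :=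
  ruleUp M (FreeGroup.invRev v) ++ s ++
    FreeGroup.invRev (hExp M (rulePart M (ruleUp M (FreeGroup.invRev v) ++ s)))

variable (S : M.Spec) (e : ℕ) (O : Wd (Fin n) → Prop) (N : ℕ)

/-- The point is outside the component of `root1` in the rules group. -/
def NotOrbG (s : GW M) : Prop :=
  ∀ v ∈ wordsUp M.nr s.length, (∀ c, gVal M (formWordAt M s v) ≠ Y M c) ∨
    ∃ c, gVal M (formWordAt M s v) = Y M c ∧ ¬ S.Gen e c

/-- The word sent to the oracle. -/
def orbAtom (x : Wd (Fin n)) (v : Wd (Fin M.nr)) (c : Cfg M.d) : Wd (Fin n) :=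
  FreeGroup.invRev x ++ twExp M v ++ S.off c

/-- The point is outside the orbit. -/
def NotOrb (p : Pt M) : Prop :=
  NotOrbG M S e p.1 ∨ ∃ (v : Wd (Fin M.nr)) (c : Cfg M.d),
    gVal M (formWordAt M p.1 v) = Y M c ∧ (orbAtom M S p.2 v c).length ≤ N ∧ O (orbAtom M S p.2 v c)

/-- Two points are different. -/
def PtNe (q : Pt M × Pt M) : Prop := ptVal M q.1 ≠ ptVal M q.2

/-- The part in the rules group is not a word of rules. -/
def NotRules (z : Wd (K1L M)) : Prop :=
  gVal M (gPart M z) ≠ gVal M (ruleUp M (rulePart M (gPart M z)))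

/-- Not in `L`. -/
def NotL (z : Wd (K1L M)) : Prop :=
  (NotRules M z ∨ FreeGroup.mk (xPart M z) ≠ FreeGroup.mk (twExp M (rulePart M (gPart M z)))) ∨
    Cert (PtNe M) (fun r => ∃ x ∈ r, NotOrb M S e O N x.1) (tAux M [] z)

/-- The input part of the `U`-component. -/
def gUWord (z : Wd (K1L M)) : Wd (Fin n) :=
  xPart M z ++ FreeGroup.invRev (twExp M (rulePart M (gPart M z)))

/-- The point seen from the `U`-component of `z`. -/
def shiftPt (z : Wd (K1L M)) (p : Pt M) : Pt M :=
  (p.1, FreeGroup.invRev (gUWord M z) ++ p.2)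

/-- Not in `U L`. -/
def NotUL (z : Wd (K1L M)) : Prop :=
  NotRules M z ∨ Cert (PtNe M) (fun r => ∀ i ∈ List.range (r.length + 1),
    (∃ x ∈ r.take i, ptVal M x.1 ∉ RootSet M e) ∨
      ∃ x ∈ r.drop i, NotOrb M S e O N (shiftPt M z x.1)) (tAux M [] z)

/-- Not in `U`. -/
def NotU (z : Wd (K1L M)) : Prop :=
  gVal M (gPart M z) ≠ 1 ∨
    Cert (PtNe M) (fun r => ∃ x ∈ r, ptVal M x.1 ∉ RootSet M e) (tAux M [] z)

/-- Not `1` in `K`. -/
def NegK (z : Wd (K1L M)) : Prop :=
  (gVal M (gPart M z) ≠ 1 ∨ FreeGroup.mk (xPart M z) ≠ 1) ∨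
    Cert (PtNe M) (fun r => r ≠ []) (tAux M [] z)

/-- Different cosets of `L`. -/
def KNe (q : Wd (K1L M) × Wd (K1L M)) : Prop :=
  NotL M S e O N (FreeGroup.invRev q.1 ++ q.2)

/-- Not `1` in `K1`. -/
def NegK1 (w : Wd (K1L M)) : Prop :=
  NegK M w ∨ Cert (KNe M S e O N) (fun r => r ≠ []) (kAux M [] w)

/-- The signs alternate from `b` on and end with `false`. -/
def altB : Bool → List Bool → Bool
  | b, [] => b
  | b, c :: l => (b == c) && altB (!b) l

/-- Not in `Uk`. -/
def NotUk (w : Wd (K1L M)) : Prop :=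
  NotU M e w ∨ Cert (KNe M S e O N)
    (fun r => altB true (r.map Prod.snd) = false ∨ ∃ x ∈ r, NotUL M S e O N x.1) (kAux M [] w)

/-- The constant for completeness of the certificates. -/
def CN : ℕ := 40

end

end Vale.P193
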