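import Vale.Agent.P193.WordLemmas
import Mathlib.GroupTheory.Coprod.Basic
import Mathlib.GroupTheory.Perm.Basic
import Mathlib.Data.List.Chain

/-!
P193, M9: normal forms in `A ∗ G ∗ F(L)`. A normal list has nontrivial factor atoms, no two adjacent atoms in
the same factor, and no adjacent inverse letters. It is unique.
-/

namespace Vale.P193

open Monoid

/-- Atoms of a normal list. -/
inductive At (A G L : Type) where
  | a (x : A)
  | g (x : G)
  | l (x : L × Bool)

namespace At

variable {A G L : Type} [Group A] [Group G]

/-- `A ∗ G ∗ F(L)`. -/
abbrev N3 (A G L : Type) [Group A] [Group G] : Type := Coprod A (Coprod G (FreeGroup L))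

/-- The value of an atom. -/
def val : At A G L → N3 A G L
  | .a x => Coprod.inl x
  | .g x => Coprod.inr (Coprod.inl x)
  | .l x => Coprod.inr (Coprod.inr (FreeGroup.mk [x]))

/-- The value of a list. -/
def eval (w : List (At A G L)) : N3 A G L := (w.map val).prod

/-- Two atoms that may be adjacent. -/
def Ok : At A G L → At A G L → Prop
  | .a _, .a _ => False
  | .g _, .g _ => False
  | .l x, .l y => x.1 = y.1 → x.2 = y.2
  | _, _ => True

/-- Nontrivial factor atom. -/
def Ne1 : At A G L → Prop
  | .a x => x ≠ 1
  | .g x => x ≠ 1
  | .l _ => True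

/-- Normal lists. -/
def Normal : List (At A G L) → Prop
  | [] => True
  | p :: w => Ne1 p ∧ (∀ q ∈ w.head?, Ok p q) ∧ Normal w

theorem Normal.tail {p : At A G L} {w : List (At A G L)} (h : Normal (p :: w)) : Normal w := h.2.2

section Act

open Classical

/-- Left multiplication by an element of `A`. -/
noncomputable def actA (x : A) : List (At A G L) → List (At A G L)
  | .a y :: w => if x * y = 1 then w else .a (x * y) :: w
  | w => if x = 1 then w else .a x :: w

/-- Left multiplication by an element of `G`. -/
noncomputable def actG (x : G) : List (At A G L) → List (At A G L)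
  | .g y :: w => if x * y = 1 then w else .g (x * y) :: w
  | w => if x = 1 then w else .g x :: w

/-- Left multiplication by a letter. -/
noncomputable def actL (x : L × Bool) : List (At A G L) → List (At A G L)
  | .l y :: w => if x.1 = y.1 ∧ x.2 ≠ y.2 then w else .l x :: .l y :: w
  | w => .l x :: w

theorem actA_normal (x : A) {w : List (At A G L)} (h : Normal w) : Normal (actA x w) := by
  rcases w with _ | ⟨p, w⟩
  · simp only [actA]; split_ifs with hx <;> simp [Normal, Ne1, hx]
  cases p with
  | a y =>
    simp only [actA]; split_ifs with hx
    · exact h.tail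
    · refine ⟨hx, ?_, h.tail⟩
      intro q hq
      have := h.2.1 q hq
      cases q <;> simp_all [Ok]
  | g y => simp only [actA]; split_ifs with hx <;> first | exact h | exact ⟨hx, by simp [Ok], h⟩
  | l y => simp only [actA]; split_ifs with hx <;> first | exact h | exact ⟨hx, by simp [Ok], h⟩

theorem actG_normal (x : G) {w : List (At A G L)} (h : Normal w) : Normal (actG x w) := by
  rcases w with _ | ⟨p, w⟩
  · simp only [actG]; split_ifs with hx <;> simp [Normal, Ne1, hx]
  cases p with
  | g y =>
    simp only [actG]; split_ifs with hx
    · exact h.tail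
    · refine ⟨hx, ?_, h.tail⟩
      intro q hq
      have := h.2.1 q hq
      cases q <;> simp_all [Ok]
  | a y => simp only [actG]; split_ifs with hx <;> first | exact h | exact ⟨hx, by simp [Ok], h⟩
  | l y => simp only [actG]; split_ifs with hx <;> first | exact h | exact ⟨hx, by simp [Ok], h⟩

theorem actL_normal (x : L × Bool) {w : List (At A G L)} (h : Normal w) : Normal (actL x w) := by
  rcases w with _ | ⟨p, w⟩
  · simp [actL, Normal, Ne1]
  cases p with
  | l y =>
    simp only [actL]; split_ifs with hx
    · exact h.tail
    · refine ⟨trivial, ?_, h⟩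
      simp only [List.head?_cons, Option.mem_def, Option.some.injEq, forall_eq']
      intro e
      by_contra hne
      exact hx ⟨e, hne⟩
  | a y => exact ⟨trivial, by simp [Ok], h⟩
  | g y => exact ⟨trivial, by simp [Ok], h⟩

theorem actA_one {w : List (At A G L)} (h : Normal w) : actA (1 : A) w = w := by
  rcases w with _ | ⟨p, w⟩
  · simp [actA]
  cases p <;> simp [actA]
  intro e; exact absurd e h.1

theorem actG_one {w : List (At A G L)} (h : Normal w) : actG (1 : G) w = w := by
  rcases w with _ | ⟨p, w⟩
  · simp [actG]
  cases p <;> simp [actG]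
  intro e; exact absurd e h.1

theorem actA_mul (x y : A) {w : List (At A G L)} (h : Normal w) :
    actA x (actA y w) = actA (x * y) w := by
  have hnil : ∀ v : List (At A G L), (∀ z v', v ≠ .a z :: v') →
      actA x v = if x = 1 then v else .a x :: v := by
    intro v hv
    rcases v with _ | ⟨p, v⟩
    · simp [actA]
    · cases p <;> first | exact absurd rfl (hv _ _) | simp [actA]
  rcases w with _ | ⟨p, w⟩
  · by_cases hy : y = 1
    · simp [actA, hy]
    · simp [actA, hy]
  cases p with
  | a z =>
    by_cases hy : y * z = 1
    · have : z = y⁻¹ := eq_inv_of_mul_eq_one_right hy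
      subst this
      have e : actA y (.a y⁻¹ :: w : List (At A G L)) = w := by simp [actA]
      rw [e, hnil w]
      · by_cases hx : x = 1
        · simp [actA, hx]
        · simp [actA, hx]
      · rintro z' v rfl; exact h.2.1 (.a z') rfl
    · simp [actA, hy, mul_assoc]
  | g z => by_cases hy : y = 1 <;> simp [actA, hy]
  | l z => by_cases hy : y = 1 <;> simp [actA, hy]

theorem actG_mul (x y : G) {w : List (At A G L)} (h : Normal w) :
    actG x (actG y w) = actG (x * y) w := by
  have hnil : ∀ v : List (At A G L), (∀ z v', v ≠ .g z :: v') →
      actG x v = if x = 1 then v else .g x :: v := by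
    intro v hv
    rcases v with _ | ⟨p, v⟩
    · simp [actG]
    · cases p <;> first | exact absurd rfl (hv _ _) | simp [actG]
  rcases w with _ | ⟨p, w⟩
  · by_cases hy : y = 1
    · simp [actG, hy]
    · simp [actG, hy]
  cases p with
  | g z =>
    by_cases hy : y * z = 1
    · have : z = y⁻¹ := eq_inv_of_mul_eq_one_right hy
      subst this
      have e : actG y (.g y⁻¹ :: w : List (At A G L)) = w := by simp [actG]
      rw [e, hnil w]
      · by_cases hx : x = 1
        · simp [actG, hx]
        · simp [actG, hx]
      · rintro z' v rfl; exact h.2.1 (.g z') rfl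
    · simp [actG, hy, mul_assoc]
  | a z => by_cases hy : y = 1 <;> simp [actG, hy]
  | l z => by_cases hy : y = 1 <;> simp [actG, hy]

theorem actL_cancel (i : L) (b : Bool) {w : List (At A G L)} (h : Normal w) :
    actL (i, b) (actL (i, !b) w) = w := by
  rcases w with _ | ⟨p, w⟩
  · simp [actL]
  cases p with
  | a z => simp [actL]
  | g z => simp [actL]
  | l y =>
    obtain ⟨j, c⟩ := y
    by_cases hj : i = j ∧ (!b) ≠ c
    · obtain ⟨rfl, hc⟩ := hj
      have : c = b := by cases b <;> cases c <;> simp_all
      subst this
      rcases w with _ | ⟨q, w⟩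
      · simp [actL]
      · cases q with
        | a z => simp [actL]
        | g z => simp [actL]
        | l y =>
          have := h.2.1 (.l y) rfl
          simp only [Ok] at this
          simp [actL]
          intro e hne
          exact absurd (this e) hne
    · have hj' : ¬(i = j ∧ b = c) := fun hh => hj ⟨hh.1, by cases b <;> simp [← hh.2]⟩
      simp [actL, hj']

/-- Normal lists as a type. -/
abbrev NList (A G L : Type) [Group A] [Group G] : Type := {w : List (At A G L) // Normal w}

/-- The permutations given by `A`. -/
noncomputable def permA : A →* Equiv.Perm (NList A G L) where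
  toFun x :=
    { toFun := fun w => ⟨actA x w.1, actA_normal x w.2⟩
      invFun := fun w => ⟨actA x⁻¹ w.1, actA_normal _ w.2⟩
      left_inv := fun w => Subtype.ext (by simp [actA_mul _ _ w.2, actA_one w.2])
      right_inv := fun w => Subtype.ext (by simp [actA_mul _ _ w.2, actA_one w.2]) }
  map_one' := Equiv.ext fun w => Subtype.ext (actA_one w.2)
  map_mul' x y := Equiv.ext fun w => Subtype.ext (actA_mul x y w.2).symm

/-- The permutations given by `G`. -/
noncomputable def permG : G →* Equiv.Perm (NList A G L) where
  toFun x :=
    { toFun := fun w => ⟨actG x w.1, actG_normal x w.2⟩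
      invFun := fun w => ⟨actG x⁻¹ w.1, actG_normal _ w.2⟩
      left_inv := fun w => Subtype.ext (by simp [actG_mul _ _ w.2, actG_one w.2])
      right_inv := fun w => Subtype.ext (by simp [actG_mul _ _ w.2, actG_one w.2]) }
  map_one' := Equiv.ext fun w => Subtype.ext (actG_one w.2)
  map_mul' x y := Equiv.ext fun w => Subtype.ext (actG_mul x y w.2).symm

/-- The permutation given by a letter. -/
noncomputable def permL (i : L) : Equiv.Perm (NList A G L) where
  toFun w := ⟨actL (i, true) w.1, actL_normal _ w.2⟩
  invFun w := ⟨actL (i, false) w.1, actL_normal _ w.2⟩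
  left_inv w := Subtype.ext (by simpa using actL_cancel i false w.2)
  right_inv w := Subtype.ext (by simpa using actL_cancel i true w.2)

/-- The action of the free product. -/
noncomputable def perm : N3 A G L →* Equiv.Perm (NList A G L) :=
  Coprod.lift permA (Coprod.lift permG (FreeGroup.lift permL))

theorem perm_val (p : At A G L) (w : NList A G L) (h : Normal (p :: w.1)) :
    (perm (val p) w).1 = p :: w.1 := by
  obtain ⟨w, hw⟩ := w
  cases p with
  | a x =>
    simp only [perm, val, Coprod.lift_apply_inl]
    show actA x w = _
    rcases w with _ | ⟨q, w⟩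
    · simp [actA, show x ≠ 1 from h.1]
    · have := h.2.1 q rfl
      cases q <;> simp_all [actA, Ok, Normal, Ne1]
  | g x =>
    simp only [perm, val, Coprod.lift_apply_inl, Coprod.lift_apply_inr]
    show actG x w = _
    rcases w with _ | ⟨q, w⟩
    · simp [actG, show x ≠ 1 from h.1]
    · have := h.2.1 q rfl
      cases q <;> simp_all [actG, Ok, Normal, Ne1]
  | l x =>
    obtain ⟨i, b⟩ := x
    have key : ((perm (A := A) (G := G) (val (.l (i, b)))) ⟨w, hw⟩).1 = actL (i, b) w := by
      cases b
      · have : FreeGroup.mk [(i, false)] = (FreeGroup.of i)⁻¹ := rfl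
        simp only [perm, val, Coprod.lift_apply_inr, this, map_inv, FreeGroup.lift_apply_of]
        rfl
      · have : FreeGroup.mk [(i, true)] = FreeGroup.of i := rfl
        simp only [perm, val, Coprod.lift_apply_inr, this, FreeGroup.lift_apply_of]
        rfl
    rw [key]
    rcases w with _ | ⟨q, w⟩
    · simp [actL]
    · have := h.2.1 q rfl
      cases q with
      | a z => simp [actL]
      | g z => simp [actL]
      | l y =>
        simp only [Ok] at this
        simp only [actL]
        rw [if_neg]
        rintro ⟨e, hne⟩
        exact hne (this e)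

theorem perm_eval : ∀ w : List (At A G L), (h : Normal w) →
    perm (eval w) ⟨[], trivial⟩ = ⟨w, h⟩
  | [], _ => by simp [eval]
  | p :: w, h => by
    have e : eval (p :: w) = val p * eval w := by simp [eval]
    rw [e, map_mul, Equiv.Perm.mul_apply, perm_eval w h.tail]
    exact Subtype.ext (perm_val p ⟨w, h.tail⟩ h)

theorem Normal.unique {u v : List (At A G L)} (hu : Normal u) (hv : Normal v) (e : eval u = eval v) :
    u = v := by
  have := perm_eval u hu
  rw [e, perm_eval v hv] at this
  exact (congrArg Subtype.val this).symm

theorem eval_ne_one {u : List (At A G L)} (hu : Normal u) (hne : u ≠ []) : eval u ≠ 1 := fun e =>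
  hne (hu.unique (v := []) trivial (by simpa [eval] using e))

end Act

end At

end Vale.P193
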