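import Vale.Agent.P193.WordLemmas
import Vale.Agent.P193.Statement
import Mathlib.Algebra.Group.Prod
import Mathlib.Data.Int.Order.Basic
import Mathlib.Computability.Primrec.List

/-!
P193, M10: `G × ℤ` has a generating tuple of nontrivial elements with decidable word problem, and is infinite.
-/

namespace Vale.P193

noncomputable section

variable {G : Type} [Group G] {n : ℕ}

/-- Generators `(g_i, 1)` and `(1, 1)` of `G × ℤ`. -/
def padGen (f : FreeGroup (Fin n) →* G) (a : Fin (n + 1)) : G × Multiplicative ℤ :=
  if h : (a : ℕ) < n then (f (FreeGroup.of ⟨a, h⟩), Multiplicative.ofAdd 1) else (1, Multiplicative.ofAdd 1)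

/-- A letter read in the old generators. -/
def unpadL (l : Fin (n + 1) × Bool) : Wd (Fin n) := if h : (l.1 : ℕ) < n then [(⟨l.1, h⟩, l.2)] else []

/-- Letters with positive sign. -/
def posC (w : Wd (Fin (n + 1))) : ℕ := (w.flatMap fun l => if l.2 then [()] else []).length

/-- Letters with negative sign. -/
def negC (w : Wd (Fin (n + 1))) : ℕ := (w.flatMap fun l => if l.2 then [] else [()]).length

theorem wev_padGen (f : FreeGroup (Fin n) →* G) (w : Wd (Fin (n + 1))) :
    wev (padGen f) w =
      (f (FreeGroup.mk (w.flatMap unpadL)), Multiplicative.ofAdd ((posC w : ℤ) - negC w)) := by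
  induction w with
  | nil => simp [posC, negC, ← FreeGroup.one_eq_mk, Prod.ext_iff]
  | cons l w ih =>
    rw [wev_cons, ih]
    obtain ⟨a, b⟩ := l
    have h1 : ∀ i : Fin n, FreeGroup.mk [(i, false)] = (FreeGroup.of i)⁻¹ := fun i => rfl
    by_cases h : (a : ℕ) < n
    · have hm : ∀ u : Wd (Fin n), FreeGroup.mk ((⟨a, h⟩, b) :: u) =
          FreeGroup.mk [((⟨a, h⟩ : Fin n), b)] * FreeGroup.mk u := fun u => by rw [FreeGroup.mul_mk]; rfl
      cases b
      · refine Prod.ext ?_ ?_
        · simp only [wev_neg, padGen, dif_pos h, unpadL, List.flatMap_cons, List.singleton_append, Prod.fst_mul, Prod.fst_inv]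
          rw [hm, map_mul, h1, map_inv]
        · apply Multiplicative.toAdd.injective
          simp [wev_neg, padGen, h, posC, negC]; omega
      · refine Prod.ext ?_ ?_
        · simp only [wev_pos, padGen, dif_pos h, unpadL, List.flatMap_cons, List.singleton_append, Prod.fst_mul]
          rw [hm, map_mul]
          rfl
        · apply Multiplicative.toAdd.injective
          simp [wev_pos, padGen, h, posC, negC]; omega
    · cases b
      · refine Prod.ext ?_ ?_
        · simp [wev_neg, padGen, h, unpadL]
        · apply Multiplicative.toAdd.injective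
          simp [wev_neg, padGen, h, posC, negC]; omega
      · refine Prod.ext ?_ ?_
        · simp [wev_pos, padGen, h, unpadL]
        · apply Multiplicative.toAdd.injective
          simp [wev_pos, padGen, h, posC, negC]; omega

theorem padGen_ne_one (f : FreeGroup (Fin n) →* G) (a : Fin (n + 1)) : padGen f a ≠ 1 := by
  intro h
  have := congrArg (fun x : G × Multiplicative ℤ => Multiplicative.toAdd x.2) h
  by_cases ha : (a : ℕ) < n <;> simp [padGen, ha] at this

theorem padGen_surjective (f : FreeGroup (Fin n) →* G) (hf : Function.Surjective f) :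
    Function.Surjective (FreeGroup.lift (padGen f)) := by
  have hz : ∀ k : ℤ, ((1 : G), Multiplicative.ofAdd k) ∈ (FreeGroup.lift (padGen f)).range := by
    intro k
    refine ⟨FreeGroup.of (Fin.last n) ^ k, ?_⟩
    rw [map_zpow, FreeGroup.lift_apply_of]
    simp [padGen, Prod.ext_iff, ← ofAdd_zsmul]
  have hg : ∀ x : FreeGroup (Fin n), (f x, (1 : Multiplicative ℤ)) ∈ (FreeGroup.lift (padGen f)).range := by
    intro x
    induction x using FreeGroup.induction_on with
    | C1 => rw [map_one]; exact one_mem (FreeGroup.lift (padGen f)).range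
    | of i =>
      have h1 : padGen f i.castSucc ∈ (FreeGroup.lift (padGen f)).range := ⟨_, FreeGroup.lift_apply_of⟩
      have h := mul_mem h1 (hz (-1))
      simpa [padGen, i.isLt] using h
    | inv_of i hi => simpa using inv_mem hi
    | mul x y hx hy => simpa using mul_mem hx hy
  rintro ⟨g, k⟩
  obtain ⟨x, rfl⟩ := hf g
  have h := mul_mem (hg x) (hz k.toAdd)
  simpa using h

theorem padGen_wp (f : FreeGroup (Fin n) →* G) (hd : DecidableWP f) :
    ComputablePred fun w : Wd (Fin (n + 1)) => wev (padGen f) w = 1 := by
  obtain ⟨d, hd, hdf⟩ := ComputablePred.computable_iff.1 hd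
  have hu : Primrec fun w : Wd (Fin (n + 1)) => w.flatMap unpadL :=
    Primrec.list_flatMap Primrec.id ((Primrec.dom_finite (unpadL (n := n))).comp Primrec.snd).to₂
  have hp : Primrec (posC (n := n)) := Primrec.list_length.comp (Primrec.list_flatMap Primrec.id
    ((Primrec.dom_finite fun l : Fin (n + 1) × Bool => if l.2 then [()] else []).comp Primrec.snd).to₂)
  have hn : Primrec (negC (n := n)) := Primrec.list_length.comp (Primrec.list_flatMap Primrec.id
    ((Primrec.dom_finite fun l : Fin (n + 1) × Bool => if l.2 then [] else [()]).comp Primrec.snd).to₂)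
  refine ComputablePred.computable_iff.2 ⟨fun w => d (w.flatMap unpadL) && decide (posC w = negC w), ?_, ?_⟩
  · exact Primrec.and.to_comp.comp (hd.comp hu.to_comp)
      ((Primrec.eq (α := ℕ)).decide.to_comp.comp hp.to_comp hn.to_comp)
  · funext w
    have h := congrFun hdf (w.flatMap unpadL)
    apply propext
    rw [wev_padGen, Prod.mk_eq_one]
    simp only [Bool.and_eq_true, decide_eq_true_eq, ← h]
    refine and_congr Iff.rfl ?_
    rw [show (1 : Multiplicative ℤ) = Multiplicative.ofAdd 0 from rfl, Multiplicative.ofAdd.apply_eq_iff_eq]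
    omega

/-- Padding. -/
theorem exists_pad (f : FreeGroup (Fin n) →* G) (hf : Function.Surjective f) (hd : DecidableWP f) :
    ∃ g : Fin (n + 1) → G × Multiplicative ℤ, Function.Surjective (FreeGroup.lift g) ∧ (∀ a, g a ≠ 1) ∧
      ComputablePred fun w : Wd (Fin (n + 1)) => wev g w = 1 :=
  ⟨padGen f, padGen_surjective f hf, padGen_ne_one f, padGen_wp f hd⟩

theorem simpleEnvelope_mono {G' : Type} [Group G'] (j : G →* G') (hj : Function.Injective j)
    (h : SimpleEnvelope G') : SimpleEnvelope G := by
  obtain ⟨Γ, iG, hs, hfp, i, hi⟩ := h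
  exact ⟨Γ, iG, hs, hfp, i.comp j, hi.comp hj⟩

end

end Vale.P193
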