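import Vale.Agent.P193.Layer.ParseDefs

/-!
P193, M9a: the parse is sound (a passing run lies in the subgroup of the generators) and complete (a product of
generators with valid indices passes, the tests being products of at most as many `q` as the product has).
-/

namespace Vale.P193.Parse

open Monoid

variable {A G I : Type} [Group A] [Group G] (g : I → A) (q : Fin 5 → A)

/-- The atom of `x` (`true`) or `x⁻¹` (`false`). -/
abbrev atX (b : Bool) : Atom A G I := .l (.inr none, b)

/-- The atom of `y_i` or its inverse. -/
abbrev atY (i : I) (b : Bool) : Atom A G I := .l (.inr (some i), b)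

theorem eval_cons (p : At A G (FL I)) (w : List (At A G (FL I))) :
    At.eval (p :: w) = At.val p * At.eval w := by simp [At.eval]

theorem Pass.mono {S T : Set A} (h : S ⊆ T) :
    ∀ {l : List (Atom A G I)} {s : State A}, Pass g S s l → Pass g T s l
  | [], some _, hp => h hp
  | [], none, hp => hp.elim
  | _ :: _, some _, ⟨o, ho, ht, hr⟩ => ⟨o, ho, fun a ha => h (ht a ha), Pass.mono h hr⟩
  | _ :: _, none, ⟨o, ho, ht, hr⟩ => ⟨o, ho, fun a ha => h (ht a ha), Pass.mono h hr⟩

/-- No run starts with `x`. -/
theorem not_pass_x (S : Set A) (b : A) (l : List (Atom A G I)) :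
    ¬ Pass g S (some b) (atX true :: l) := by
  rintro ⟨o, ho, -, -⟩
  simp [opts] at ho

/-- The subgroup of the generators. -/
abbrev genSub : Subgroup (At.N3 A G (FL I)) := Subgroup.closure (Set.range (gnVal g q))

/-- What a state says about the prefix read so far. -/
def Inv : State A → At.N3 A G (FL I) → Prop
  | some b, p => p * (Coprod.inl b)⁻¹ ∈ genSub g q
  | none, p => p * At.val (atX true) ∈ genSub g q

theorem inl_mem {S : Set A} (hS : S ⊆ (Subgroup.closure (Set.range q) : Set A)) {b : A} (hb : b ∈ S) :
    (Coprod.inl b : At.N3 A G (FL I)) ∈ genSub g q := by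
  have hle : Subgroup.closure (Set.range q) ≤
      (genSub g q).comap (Coprod.inl : A →* At.N3 A G (FL I)) := by
    rw [Subgroup.closure_le]
    rintro _ ⟨j, rfl⟩
    exact Subgroup.subset_closure ⟨.q j, rfl⟩
  exact hle (hS hb)

theorem mk_false {α : Type} (a : α) : FreeGroup.mk [(a, false)] = (FreeGroup.of a)⁻¹ := rfl

theorem mk_true {α : Type} (a : α) : FreeGroup.mk [(a, true)] = FreeGroup.of a := rfl

theorem pass_inv {S : Set A} (hS : S ⊆ (Subgroup.closure (Set.range q) : Set A)) :
    ∀ (l : List (Atom A G I)) (s : State A) (p : At.N3 A G (FL I)), Inv g q s p → Pass g S s l →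
      p * At.eval l ∈ genSub g q
  | [], some b, p, hi, hp => by
      have := mul_mem (show p * (Coprod.inl b)⁻¹ ∈ genSub g q from hi) (inl_mem g q hS (b := b) hp)
      simpa [At.eval, mul_assoc] using this
  | [], none, _, _, hp => hp.elim
  | a :: l, s, p, hi, hp => by
      have ⟨o, ho, ht, hr⟩ : ∃ o ∈ opts g s a, (∀ x ∈ o.1, x ∈ S) ∧ Pass g S o.2 l := by
        cases s <;> exact hp
      rw [eval_cons, ← mul_assoc]
      refine pass_inv hS l o.2 _ ?_ hr
      have gen : ∀ n : Gn I, gnVal g q n ∈ genSub (G := G) g q := fun n =>
        Subgroup.subset_closure ⟨n, rfl⟩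
      cases s with
      | some b =>
        have hi' : p * (Coprod.inl b)⁻¹ ∈ genSub g q := hi
        cases a with
        | g x => simp [opts] at ho
        | a x =>
          simp only [opts, List.mem_singleton] at ho
          subst ho
          simpa [Inv, At.val, mul_assoc] using hi'
        | l x =>
          obtain ⟨v, c⟩ := x
          have hp0 : b ∈ S → p ∈ genSub g q := fun hb => by
            have := mul_mem hi' (inl_mem g q hS (b := b) hb)
            simpa [mul_assoc] using this
          rcases v with j | (_ | i)
          · simp only [opts, List.mem_singleton] at ho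
            subst ho
            have := hp0 (ht b rfl)
            cases c
            · simpa [Inv, At.val, gnVal, mk_false] using mul_mem this (inv_mem (gen (.f j)))
            · simpa [Inv, At.val, gnVal, mk_true] using mul_mem this (gen (.f j))
          · cases c
            · simp only [opts, List.mem_singleton] at ho
              subst ho
              simpa [Inv, At.val, mk_false, mk_true] using hp0 (ht b rfl)
            · simp [opts] at ho
          · cases c
            · simp only [opts, List.mem_singleton] at ho
              subst ho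
              simpa [Inv, At.val, gnVal, mk_false] using mul_mem (hp0 (ht b rfl)) (inv_mem (gen (.y i)))
            · simp only [opts, List.mem_cons, List.not_mem_nil, or_false] at ho
              rcases ho with rfl | rfl
              · simpa [Inv, At.val, gnVal, mk_true] using mul_mem (hp0 (ht b rfl)) (gen (.y i))
              · have h1 := mul_mem (mul_mem hi' (inl_mem g q hS (b := b * g i) (ht _ rfl)))
                  (inv_mem (gen (.z i)))
                simpa [Inv, At.val, gnVal, mk_false, mk_true, mul_assoc] using h1
      | none =>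
        have hi' : p * At.val (atX true) ∈ genSub g q := hi
        cases a with
        | g x => simp [opts] at ho
        | a x => simp [opts] at ho
        | l x =>
          obtain ⟨v, c⟩ := x
          rcases v with j | (_ | i) <;> cases c <;>
            simp only [opts, List.mem_singleton, List.not_mem_nil] at ho <;> subst ho
          · simpa [Inv] using hi'
          · have h1 := mul_mem hi' (gen (.z i))
            simpa [Inv, At.val, gnVal, mk_false, mk_true, mul_assoc] using h1

/-- (P1) A passing run gives an element of the subgroup of the generators. -/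
theorem pass_mem {S : Set A} (hS : S ⊆ (Subgroup.closure (Set.range q) : Set A))
    {l : List (Atom A G I)} (h : Pass g S (some 1) l) :
    At.eval l ∈ Subgroup.closure (Set.range (gnVal g q)) := by
  have := pass_inv g q hS l (some 1) 1 (by simpa [Inv] using one_mem (genSub g q)) h
  simpa using this

/-! ### Completeness -/

theorem one_mem_Qk (k : ℕ) : (1 : A) ∈ Qk q k := ⟨[], Nat.zero_le _, by simp⟩

theorem Qk_mono {j k : ℕ} (h : j ≤ k) : Qk q j ⊆ Qk q k :=
  fun _ ⟨w, hw, e⟩ => ⟨w, hw.trans h, e⟩

theorem inv_mem_Qk {j : ℕ} {a : A} (h : a ∈ Qk q j) : a⁻¹ ∈ Qk q j := by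
  obtain ⟨w, hw, rfl⟩ := h
  exact ⟨FreeGroup.invRev w, by simpa [FreeGroup.invRev] using hw,
    by rw [wev, ← FreeGroup.inv_mk, map_inv]; rfl⟩

theorem Qk_subset_closure (k : ℕ) : Qk q k ⊆ (Subgroup.closure (Set.range q) : Set A) := by
  rintro _ ⟨w, -, rfl⟩
  rw [wev, SetLike.mem_coe, ← FreeGroup.range_lift_eq_closure]
  exact ⟨_, rfl⟩

/-- A run with a budget for all tests together. -/
def PassN : ℕ → State A → List (Atom A G I) → Prop
  | k, some b, [] => b ∈ Qk q k
  | _, none, [] => False
  | k, s, p :: l => ∃ o ∈ opts g s p, ∃ j, j ≤ k ∧ (∀ a ∈ o.1, a ∈ Qk q j) ∧ PassN (k - j) o.2 l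

theorem passN_cons {k : ℕ} {s : State A} {p : Atom A G I} {l : List (Atom A G I)} :
    PassN g q k s (p :: l) ↔
      ∃ o ∈ opts g s p, ∃ j, j ≤ k ∧ (∀ a ∈ o.1, a ∈ Qk q j) ∧ PassN g q (k - j) o.2 l := by
  cases s <;> exact Iff.rfl

theorem PassN.pass : ∀ {l : List (Atom A G I)} {k : ℕ} {s : State A},
    PassN g q k s l → Pass g (Qk q k) s l
  | [], _, some _, h => h
  | [], _, none, h => h.elim
  | _ :: _, k, some _, ⟨o, ho, j, hj, ht, hr⟩ =>
    ⟨o, ho, fun a ha => Qk_mono q hj (ht a ha), Pass.mono g (Qk_mono q (Nat.sub_le k j)) hr.pass⟩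
  | _ :: _, k, none, ⟨o, ho, j, hj, ht, hr⟩ =>
    ⟨o, ho, fun a ha => Qk_mono q hj (ht a ha), Pass.mono g (Qk_mono q (Nat.sub_le k j)) hr.pass⟩

theorem passN_mono : ∀ {l : List (Atom A G I)} {j k : ℕ} {s : State A}, j ≤ k →
    PassN g q j s l → PassN g q k s l
  | [], _, _, some _, h, hp => Qk_mono q h hp
  | [], _, _, none, _, hp => hp.elim
  | _ :: _, _, _, some _, h, ⟨o, ho, i, hi, ht, hr⟩ =>
    ⟨o, ho, i, hi.trans h, ht, passN_mono (Nat.sub_le_sub_right h i) hr⟩
  | _ :: _, _, _, none, h, ⟨o, ho, i, hi, ht, hr⟩ =>
    ⟨o, ho, i, hi.trans h, ht, passN_mono (Nat.sub_le_sub_right h i) hr⟩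

/-- A `q` on the left of the current coset costs one. -/
theorem passN_mul (j : Fin 5) (c : Bool) : ∀ {l : List (Atom A G I)} {k : ℕ} {b : A},
    PassN g q k (some b) l → PassN g q (k + 1) (some (wev q [(j, c)] * b)) l
  | [], k, b, ⟨w, hw, e⟩ =>
    ⟨(j, c) :: w, by simp; omega, by rw [← List.singleton_append, wev_append, e]⟩
  | p :: l, k, b, ⟨o, ho, i, hi, ht, hr⟩ => by
    have key : ∀ a, a ∈ Qk q i → wev q [(j, c)] * a ∈ Qk q (i + 1) := by
      rintro a ⟨w, hw, rfl⟩
      exact ⟨(j, c) :: w, by simp; omega, by rw [← List.singleton_append, wev_append]⟩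
    rw [passN_cons]
    cases p with
    | g x => simp [opts] at ho
    | a x =>
      simp only [opts, List.mem_singleton] at ho
      subst ho
      refine ⟨_, List.mem_singleton_self _, 0, Nat.zero_le _, by simp, ?_⟩
      rw [mul_assoc]
      exact passN_mul j c (passN_mono g q (Nat.sub_le k i) hr)
    | l x =>
      obtain ⟨v, d⟩ := x
      have hk : k + 1 - (i + 1) = k - i := by omega
      rcases v with f | (_ | m)
      · simp only [opts, List.mem_singleton] at ho
        subst ho
        exact ⟨(some _, some 1), List.mem_singleton_self _, i + 1, by omega,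
          fun a ha => Option.some.inj ha ▸ key _ (ht b rfl), hk ▸ hr⟩
      · cases d
        · simp only [opts, List.mem_singleton] at ho
          subst ho
          exact ⟨(some _, none), List.mem_singleton_self _, i + 1, by omega,
            fun a ha => Option.some.inj ha ▸ key _ (ht b rfl), hk ▸ hr⟩
        · simp [opts] at ho
      · cases d
        · simp only [opts, List.mem_singleton] at ho
          subst ho
          exact ⟨(some _, some 1), List.mem_singleton_self _, i + 1, by omega,
            fun a ha => Option.some.inj ha ▸ key _ (ht b rfl), hk ▸ hr⟩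
        · simp only [opts, List.mem_cons, List.not_mem_nil, or_false] at ho
          rcases ho with rfl | rfl
          · exact ⟨(some _, some 1), by simp [opts], i + 1, by omega,
              fun a ha => Option.some.inj ha ▸ key _ (ht b rfl), hk ▸ hr⟩
          · refine ⟨(some (wev q [(j, c)] * b * g m), none), by simp [opts], i + 1, by omega,
              fun a ha => ?_, hk ▸ hr⟩
            rw [← Option.some.inj ha, mul_assoc]
            exact key _ (ht _ rfl)

theorem eval_actA (x : A) : ∀ l : List (Atom A G I),
    At.eval (At.actA x l) = Coprod.inl x * At.eval l := by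
  intro l
  rcases l with _ | ⟨p, l⟩
  · simp only [At.actA]; split_ifs with h <;> simp [At.eval, At.val, h]
  cases p with
  | a y =>
    simp only [At.actA]
    split_ifs with h
    · rw [eval_cons, ← mul_assoc]
      simp [At.val, ← map_mul, h]
    · simp [eval_cons, At.val, mul_assoc]
  | g y => simp only [At.actA]; split_ifs with h <;> simp [eval_cons, At.val, h]
  | l y => simp only [At.actA]; split_ifs with h <;> simp [eval_cons, At.val, h]

theorem eval_actL (v : FL I) (c : Bool) : ∀ l : List (Atom A G I),
    At.eval (At.actL (v, c) l) = At.val (.l (v, c)) * At.eval l := by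
  intro l
  rcases l with _ | ⟨p, l⟩
  · simp [At.actL, eval_cons]
  cases p with
  | l y =>
    obtain ⟨u, d⟩ := y
    simp only [At.actL]
    split_ifs with h
    · obtain ⟨rfl, hd⟩ := h
      cases c <;> cases d <;> simp_all [eval_cons, At.val, mk_true, mk_false]
    · simp [eval_cons]
  | a y => simp [At.actL, eval_cons]
  | g y => simp [At.actL, eval_cons]

/-- Absorbing an element of `A` into the initial state. -/
theorem passN_actA (x : A) (k : ℕ) (l : List (Atom A G I)) :
    PassN g q k (some 1) (At.actA x l) ↔ PassN g q k (some x) l := by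
  have hcons : ∀ (y : A) (m : List (Atom A G I)) (b : A),
      PassN g q k (some b) (.a y :: m) ↔ PassN g q k (some (b * y)) m := by
    intro y m b
    rw [passN_cons]
    constructor
    · rintro ⟨o, ho, j, hj, -, hr⟩
      simp only [opts, List.mem_singleton] at ho
      subst ho
      exact passN_mono g q (Nat.sub_le k j) hr
    · intro h
      exact ⟨_, List.mem_singleton_self _, 0, Nat.zero_le _, by simp, by simpa using h⟩
  rcases l with _ | ⟨p, l⟩
  · simp only [At.actA]
    split_ifs with h
    · subst h; rfl
    · rw [hcons, one_mul]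
  cases p with
  | a y =>
    simp only [At.actA]
    split_ifs with h
    · rw [hcons, h]
    · rw [hcons, hcons, one_mul]
  | g y =>
    simp only [At.actA]
    split_ifs with h
    · subst h; rfl
    · rw [hcons, one_mul]
  | l y =>
    simp only [At.actA]
    split_ifs with h
    · subst h; rfl
    · rw [hcons, one_mul]

theorem passN_free {k : ℕ} {p : Atom A G I} {l : List (Atom A G I)} {s : State A}
    (h : (some (1 : A), s) ∈ opts g (some 1) p) (hr : PassN g q k s l) :
    PassN g q k (some 1) (p :: l) :=
  ⟨_, h, 0, Nat.zero_le _, fun a ha => Option.some.inj ha ▸ one_mem_Qk q 0, by simpa using hr⟩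

/-- Elements with a passing normal list. -/
def Good' (k : ℕ) (v : At.N3 A G (FL I)) : Prop :=
  ∃ l, At.Normal l ∧ At.eval l = v ∧ PassN g q k (some 1) l

variable {g q}

theorem good_q (j : Fin 5) (c : Bool) {k : ℕ} {v : At.N3 A G (FL I)} (h : Good' g q k v) :
    Good' g q (k + 1) (Coprod.inl (wev q [(j, c)]) * v) := by
  obtain ⟨l, hn, rfl, hp⟩ := h
  refine ⟨_, At.actA_normal _ hn, eval_actA _ _, ?_⟩
  rw [passN_actA]
  simpa using passN_mul g q j c hp

theorem good_f (j : Fin 4) (c : Bool) {k : ℕ} {v : At.N3 A G (FL I)} (h : Good' g q k v) :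
    Good' g q k (At.val (.l (.inl j, c)) * v) := by
  obtain ⟨l, hn, rfl, hp⟩ := h
  refine ⟨_, At.actL_normal _ hn, eval_actL _ _ _, ?_⟩
  have hfree : PassN g q k (some 1) (.l (.inl j, c) :: l) := passN_free g q (by simp [opts]) hp
  rcases l with _ | ⟨p, l⟩
  · exact hfree
  cases p with
  | a y => exact hfree
  | g y => exact hfree
  | l y =>
    obtain ⟨u, d⟩ := y
    simp only [At.actL]
    split_ifs with hc
    · obtain ⟨rfl, -⟩ := hc
      obtain ⟨o, ho, i, -, -, hr⟩ := hp
      simp only [opts, List.mem_singleton] at ho
      subst ho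
      exact passN_mono g q (Nat.sub_le k i) hr
    · exact hfree

theorem good_y (i : I) (c : Bool) {k : ℕ} {v : At.N3 A G (FL I)} (hval : g i ∉ Qk q k)
    (h : Good' g q k v) : Good' g q k (At.val (atY i c) * v) := by
  obtain ⟨l, hn, rfl, hp⟩ := h
  refine ⟨_, At.actL_normal _ hn, eval_actL _ _ _, ?_⟩
  have hfree : PassN g q k (some 1) (atY i c :: l) :=
    passN_free g q (by cases c <;> simp [opts]) hp
  rcases l with _ | ⟨p, l⟩
  · exact hfree
  cases p with
  | a y => exact hfree
  | g y => exact hfree
  | l y =>
    obtain ⟨u, d⟩ := y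
    simp only [At.actL]
    split_ifs with hc
    · obtain ⟨rfl, -⟩ := hc
      obtain ⟨o, ho, n, hn', ht, hr⟩ := hp
      have : o = (some 1, some 1) := by
        cases d
        · simpa [opts] using ho
        · simp only [opts, List.mem_cons, List.not_mem_nil, or_false] at ho
          rcases ho with rfl | rfl
          · rfl
          · exact absurd (by simpa using ht _ rfl) fun hh => hval (Qk_mono q hn' hh)
      subst this
      exact passN_mono g q (Nat.sub_le k n) hr
    · exact hfree

theorem good_z (i : I) {k : ℕ} {v : At.N3 A G (FL I)} (hval : g i ∉ Qk q k) (h : Good' g q k v) :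
    Good' g q k (gnVal g q (.z i) * v) := by
  obtain ⟨l, hn, rfl, hp⟩ := h
  refine ⟨At.actL (.inr none, false) (At.actL (.inr (some i), false) (At.actA (g i) l)),
    At.actL_normal _ (At.actL_normal _ (At.actA_normal _ hn)), ?_, ?_⟩
  · simp [eval_actL, eval_actA, gnVal, At.val, mk_false, mul_assoc]
  have hne : g i ≠ 1 := fun e => hval (e ▸ one_mem_Qk q k)
  have hfree : PassN g q k (some 1) (atX false :: atY i false :: At.actA (g i) l) := by
    refine passN_free g q (s := none) (by simp [opts]) ?_
    refine ⟨(none, some (g i)⁻¹), by simp [opts], 0, Nat.zero_le _, by simp, ?_⟩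
    have h1 := (passN_actA g q (g i) k l).mpr
    rcases l with _ | ⟨p, l⟩
    · simp only [At.actA, if_neg hne, Nat.sub_zero]
      exact ⟨_, List.mem_singleton_self _, 0, Nat.zero_le _, by simp, by simpa using hp⟩
    cases p with
    | a y =>
      obtain ⟨o, ho, n, -, -, hr⟩ := hp
      simp only [opts, List.mem_singleton] at ho
      subst ho
      simp only [one_mul] at hr
      simp only [At.actA, Nat.sub_zero]
      split_ifs with hy
      · have : (g i)⁻¹ = y := (eq_inv_of_mul_eq_one_right hy).symm
        rw [this]
        exact passN_mono g q (Nat.sub_le k n) hr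
      · exact ⟨_, List.mem_singleton_self _, 0, Nat.zero_le _, by simp,
          by simpa using passN_mono g q (Nat.sub_le k n) hr⟩
    | g y => exact absurd hp (by rintro ⟨o, ho, -⟩; simp [opts] at ho)
    | l y =>
      simp only [At.actA, if_neg hne, Nat.sub_zero]
      exact ⟨_, List.mem_singleton_self _, 0, Nat.zero_le _, by simp, by simpa using hp⟩
  rcases hl : At.actA (g i) l with _ | ⟨p, m⟩
  · rw [hl] at hfree; simpa [At.actL] using hfree
  rw [hl] at hfree
  cases p with
  | a y => simpa [At.actL] using hfree
  | g y => simpa [At.actL] using hfree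
  | l y =>
    obtain ⟨u, d⟩ := y
    simp only [At.actL]
    by_cases hc : (.inr (some i) : FL I) = u ∧ false ≠ d
    · obtain ⟨rfl, hd⟩ := hc
      obtain rfl : d = true := by simpa using hd
      simp only [ne_eq, Bool.false_eq_true, not_false_eq_true, and_self, if_true]
      -- `l` is `g_i⁻¹ y_i m`
      obtain rfl : l = .a (g i)⁻¹ :: atY i true :: m := by
        rcases l with _ | ⟨p, l⟩
        · simp [At.actA, hne] at hl
        cases p with
        | a z =>
          simp only [At.actA] at hl
          split_ifs at hl with hz
          · rw [hl, eq_inv_of_mul_eq_one_right hz]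
          · simp at hl
        | g z => simp [At.actA, hne] at hl
        | l z => simp [At.actA, hne] at hl
      obtain ⟨o, ho, n, -, -, hr⟩ := hp
      simp only [opts, List.mem_singleton] at ho
      subst ho
      obtain ⟨o, ho, n', hn', ht, hr⟩ := hr
      simp only [one_mul, opts, List.mem_cons, List.not_mem_nil, or_false] at ho
      rcases ho with rfl | rfl
      · refine absurd ?_ hval
        simpa using Qk_mono q (by omega : n' ≤ k) (inv_mem_Qk q (ht _ rfl))
      · have hr' : PassN g q k none m := passN_mono g q (by omega) hr
        have hx : PassN g q k (some 1) (atX false :: m) := passN_free g q (by simp [opts]) hr'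
        rcases m with _ | ⟨p, m⟩
        · exact hx
        cases p with
        | a y => exact hx
        | g y => exact hx
        | l y =>
          obtain ⟨u, d⟩ := y
          simp only [At.actL]
          split_ifs with hc
          · obtain ⟨rfl, hd⟩ := hc
            obtain rfl : d = true := by simpa using hd
            obtain ⟨o, ho, n'', -, -, hr''⟩ := hr'
            simp only [opts, List.mem_singleton] at ho
            subst ho
            exact passN_mono g q (Nat.sub_le k n'') hr''
          · exact hx
    · rw [if_neg hc]
      simpa using hfree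

theorem good_zinv (i : I) {k : ℕ} {v : At.N3 A G (FL I)} (h : Good' g q k v) :
    Good' g q k ((gnVal g q (.z i))⁻¹ * v) := by
  obtain ⟨l, hn, rfl, hp⟩ := h
  refine ⟨At.actA (g i)⁻¹ (At.actL (.inr (some i), true) (At.actL (.inr none, true) l)),
    At.actA_normal _ (At.actL_normal _ (At.actL_normal _ hn)), ?_, ?_⟩
  · simp [eval_actL, eval_actA, gnVal, At.val, mk_true, mul_assoc]
  rw [passN_actA]
  have opt : ∀ m : List (Atom A G I), PassN g q k none m →
      PassN g q k (some (g i)⁻¹) (atY i true :: m) := fun m hm =>
    ⟨(some ((g i)⁻¹ * g i), none), by simp [opts], 0, Nat.zero_le _,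
      fun a ha => by rw [← Option.some.inj ha, inv_mul_cancel]; exact one_mem_Qk q 0, by simpa using hm⟩
  have hfree : PassN g q k (some (g i)⁻¹) (atY i true :: atX true :: l) :=
    opt _ ⟨(none, some 1), by simp [opts], 0, Nat.zero_le _, by simp, by simpa using hp⟩
  rcases l with _ | ⟨p, l⟩
  · simpa [At.actL] using hfree
  cases p with
  | a y => simpa [At.actL] using hfree
  | g y => simpa [At.actL] using hfree
  | l y =>
    obtain ⟨u, d⟩ := y
    by_cases hc : (.inr none : FL I) = u ∧ true ≠ d
    · obtain ⟨rfl, hd⟩ := hc
      obtain rfl : d = false := by simpa using hd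
      obtain ⟨o, ho, n, -, -, hr⟩ := hp
      simp only [opts, List.mem_singleton] at ho
      subst ho
      have hr' : PassN g q k none l := passN_mono g q (Nat.sub_le k n) hr
      have e : At.actL (.inr none, true) (atX false :: l : List (Atom A G I)) = l := by
        simp [At.actL]
      rw [e]
      rcases l with _ | ⟨p, l⟩
      · exact hr'.elim
      cases p with
      | a y => exact absurd hr' (by rintro ⟨o, ho, -⟩; simp [opts] at ho)
      | g y => exact absurd hr' (by rintro ⟨o, ho, -⟩; simp [opts] at ho)
      | l y =>
        obtain ⟨u, d⟩ := y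
        simp only [At.actL]
        split_ifs with hc'
        · obtain ⟨rfl, hd'⟩ := hc'
          obtain rfl : d = false := by simpa using hd'
          obtain ⟨o, ho, n', -, -, hr''⟩ := hr'
          simp only [opts, List.mem_singleton] at ho
          subst ho
          exact passN_mono g q (Nat.sub_le k n') hr''
        · exact opt _ hr'
    · have e : At.actL (.inr none, true) (.l (u, d) :: l : List (Atom A G I)) =
          atX true :: .l (u, d) :: l := by
        simp only [At.actL]; rw [if_neg hc]
      rw [e]
      simpa [At.actL] using hfree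

variable (g q)

theorem qCount_cons (a : Gn I × Bool) (w : Wd (Gn I)) : qCount w ≤ qCount (a :: w) := by
  simp only [qCount, List.countP_cons]; omega

theorem good_of_gen : ∀ w : Wd (Gn I), (∀ i ∈ indices w, g i ∉ Qk q (qCount w)) →
    Good' (G := G) g q (qCount w) (wev (gnVal g q) w)
  | [], _ => ⟨[], trivial, by simp [At.eval], one_mem_Qk q _⟩
  | (a, c) :: w, hv => by
      have hval : ∀ i ∈ indices w, g i ∉ Qk q (qCount w) := fun i hi hm =>
        hv i (by rcases a <;> simp_all [indices]) (Qk_mono q (qCount_cons (a, c) w) hm)
      have ih := good_of_gen w hval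
      rw [← List.singleton_append, wev_append]
      cases a with
      | q j =>
        have hk : qCount ([(Gn.q j, c)] ++ w : Wd (Gn I)) = qCount w + 1 := by
          simp [qCount, List.countP_cons]
        rw [hk]
        have := good_q (G := G) j c ih
        cases c <;> simpa [wev, gnVal, mk_true, mk_false] using this
      | f j =>
        have hk : qCount ([(Gn.f j, c)] ++ w : Wd (Gn I)) = qCount w := by
          simp [qCount, List.countP_cons]
        rw [hk]
        have := good_f (G := G) j c ih
        cases c <;> simpa [wev, gnVal, At.val, mk_true, mk_false] using this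
      | y i =>
        have hk : qCount ([(Gn.y i, c)] ++ w : Wd (Gn I)) = qCount w := by
          simp [qCount, List.countP_cons]
        have hi : g i ∉ Qk q (qCount w) := by
          have := hv i (by simp [indices])
          rwa [← List.singleton_append, hk] at this
        rw [hk]
        have := good_y (G := G) i c hi ih
        cases c <;> simpa [wev, gnVal, At.val, mk_true, mk_false] using this
      | z i =>
        have hk : qCount ([(Gn.z i, c)] ++ w : Wd (Gn I)) = qCount w := by
          simp [qCount, List.countP_cons]
        have hi : g i ∉ Qk q (qCount w) := by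
          have := hv i (by simp [indices])
          rwa [← List.singleton_append, hk] at this
        rw [hk]
        cases c
        · simpa [wev, mk_false] using good_zinv (G := G) i ih
        · simpa [wev, mk_true] using good_z (G := G) i hi ih

/-- (P2) A product of generators with valid indices passes. -/
theorem pass_of_gen (w : Wd (Gn I)) {l : List (Atom A G I)} (hn : At.Normal l)
    (he : At.eval l = wev (gnVal g q) w)
    (hv : ∀ i ∈ indices w, g i ∉ Qk q (qCount w)) : Pass g (Qk q (qCount w)) (some 1) l := by
  obtain ⟨m, hm, hme, hp⟩ := good_of_gen (G := G) g q w hv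
  rw [hn.unique hm (he.trans hme.symm)]
  exact hp.pass

end Vale.P193.Parse
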