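import Vale.Agent.P193.Layer.Normal
import Mathlib.GroupTheory.Coprod.Basic

/-!
P193, M9: the parse of `Q''` on normal lists of `A ∗ G ∗ F(Fin 4 ⊕ Option I)`, abstractly. `none` is `x`,
`some i` is `y_i`; the entries are the five `q`, and `y_i`, `z_i = x⁻¹ y_i⁻¹ g_i`.
-/

namespace Vale.P193.Parse

open Monoid

variable {A G I : Type} [Group A] [Group G]

/-- Letters: `a, c, e, f`, the letter `x`, the letters `y_i`. -/
abbrev FL (I : Type) := Fin 4 ⊕ Option I

/-- Atoms. -/
abbrev Atom (A G I : Type) := At A G (FL I)

/-- A state: at the coset of an element of `A`, or at the vertex behind `x⁻¹`. -/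
abbrev State (A : Type) := Option A

variable (g : I → A)

/-- The options at a state for an atom: the element to be tested (if any) and the next state. -/
def opts : State A → Atom A G I → List (Option A × State A)
  | some b, .a a => [(none, some (b * a))]
  | some b, .l (.inl _, _) => [(some b, some 1)]
  | some b, .l (.inr none, false) => [(some b, none)]
  | some b, .l (.inr (some i), true) => [(some b, some 1), (some (b * g i), none)]
  | some b, .l (.inr (some _), false) => [(some b, some 1)]
  | none, .l (.inr none, true) => [(none, some 1)]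
  | none, .l (.inr (some i), false) => [(none, some (g i)⁻¹)]
  | _, _ => []

/-- A run in which every tested element lies in `S`. -/
def Pass (S : Set A) : State A → List (Atom A G I) → Prop
  | some b, [] => b ∈ S
  | none, [] => False
  | s, p :: l => ∃ o ∈ opts g s p, (∀ a ∈ o.1, a ∈ S) ∧ Pass S o.2 l

/-- Generators of `Q''` and the free letters `a, c, e, f`. -/
inductive Gn (I : Type) where
  | q (j : Fin 5)
  | y (i : I)
  | z (i : I)
  | f (j : Fin 4)

/-- Values of the generators. -/
def gnVal (q : Fin 5 → A) : Gn I → At.N3 A G (FL I)
  | .q j => Coprod.inl (q j)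
  | .y i => Coprod.inr (Coprod.inr (FreeGroup.of (.inr (some i))))
  | .z i => (Coprod.inr (Coprod.inr (FreeGroup.of (.inr none))))⁻¹ *
      (Coprod.inr (Coprod.inr (FreeGroup.of (.inr (some i)))))⁻¹ * Coprod.inl (g i)
  | .f j => Coprod.inr (Coprod.inr (FreeGroup.of (.inl j)))

/-- Number of `q` letters. -/
def qCount (w : Wd (Gn I)) : ℕ :=
  w.countP fun l => match l.1 with | .q _ => true | _ => false

/-- Products of at most `k` signed `q`. -/
def Qk (q : Fin 5 → A) (k : ℕ) : Set A := {a | ∃ w : Wd (Fin 5), w.length ≤ k ∧ wev q w = a}

/-- The indices occurring in a generator word. -/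
def indices (w : Wd (Gn I)) : List I :=
  w.filterMap fun l => match l.1 with | .y i => some i | .z i => some i | _ => none

end Vale.P193.Parse
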