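import Vale.Agent.P193.Layer.TFormRE
import Vale.Agent.P193.Mach.Spec

/-!
P193, M9: the formula of the fixed point is recursively enumerable in the program and the argument.
-/

namespace Vale.P193

noncomputable section

attribute [local instance 10000] certAtDec

variable {nG : ℕ} (M : Mach (Fin (11 + nG))) (L0 : ℕ) {G : Type} [Group G] (gG : Fin nG → G) (F : HForm (11 + nG))

theorem re_ans (k : ℕ) : REPred fun x : ℕ × Wd (Fin 5) => Ans x.1 k x.2 :=
  (Nat.Partrec.Code.eval_part.comp ((Computable.ofNat Nat.Partrec.Code).comp Computable.fst)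
    (Primrec₂.natPair.to_comp.comp (Computable.const k) (Computable.encode.comp Computable.snd))).dom_re

theorem re_bnd {P α : Type} [Primcodable P] [Primcodable α] (C L : ℕ) {u : P → Wd (Fin 5)} (hu : Primrec u)
    {size : α → ℕ} (hs : Primrec size) : REPred fun x : P × α => Bnd C L (u x.1) size x.2 :=
  (RE.of_primrec (Primrec.nat_le.comp (Primrec.nat_mul.comp (hs.comp Primrec.snd) (Primrec.const L))
    (Primrec.nat_mul.comp (Primrec.const C) (primrec_mu5'.comp (hu.comp Primrec.fst))))).of_eq fun _ => Iff.rfl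

theorem re_atomH (k : ℕ) : REPred fun x : (ℕ × Wd (Fin 5)) × Wd (Fin 5) =>
    Bnd (16 * F.C) L0 x.1.2 mu5 x.2 ∧ Ans x.1.1 k x.2 :=
  RE.and (re_bnd (16 * F.C) L0 (u := fun q : ℕ × Wd (Fin 5) => q.2) Primrec.snd primrec_mu5')
    (RE.comp (p := fun y : ℕ × Wd (Fin 5) => Ans y.1 k y.2)
      (g := fun x : (ℕ × Wd (Fin 5)) × Wd (Fin 5) => (x.1.1, x.2)) (re_ans k)
      ((Computable.fst.comp Computable.fst).pair Computable.snd))

variable (h0 : Computable M.root0) (h1 : Computable M.root1) (hgG : Function.Surjective (FreeGroup.lift gG))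
  (hG : ComputablePred fun w : Wd (Fin nG) => wev gG w = 1)

include h0 h1 hgG hG in
theorem re_drTe : REPred fun x : (ℕ × Wd (Fin 5)) × Wd (EmbData.EL (TTok nG)) => DrTe M L0 gG x.1.1 x.2 :=
  (RE.comp (p := fun y : ℕ × Wd (Fin (11 + nG)) => (tpar M L0 gG y.1).piT (FreeGroup.mk y.2) = 1)
    (g := fun x : (ℕ × Wd (Fin 5)) × Wd (EmbData.EL (TTok nG)) =>
      (x.1.1, (tpar M L0 gG x.1.1).sub (qWord M L0) x.2))
    (re_piT M L0 gG h0 h1 hgG hG.to_re)
    ((Primrec.fst.comp Primrec.fst).pair ((primrec_sub M L0 gG (qWord M L0)).comp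
      (Primrec.fst.comp Primrec.fst) Primrec.snd)).to_comp).of_eq fun _ => Iff.rfl

include h0 h1 hgG hG in
theorem re_oT : REPred fun x : (ℕ × Wd (Fin 5)) × Wd (Fin (11 + nG)) => OT M L0 gG F x.1.1 x.1.2 x.2 := by
  have hN := re_negT M L0 gG (P := ℕ × Wd (Fin 5)) (e := fun q => q.1)
    (O1 := fun q => O1 L0 F q.1 q.2) (Dr := fun q => DrTe M L0 gG q.1)
    Computable.fst (re_atomH L0 F 2) (re_drTe M L0 gG h0 h1 hgG hG) hG
  exact RE.and (RE.of_primrec (Primrec.eq.comp Primrec.snd (Primrec.const [])).not)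
    (RE.and (re_bnd F.C L0 (u := fun q : ℕ × Wd (Fin 5) => q.2) Primrec.snd Primrec.list_length)
      (RE.comp (p := fun y : (ℕ × Wd (Fin 5)) × Wd (EmbData.EL (TTok nG)) =>
          (tpar M L0 gG y.1.1).NegT (O1 L0 F y.1.1 y.1.2) (DrTe M L0 gG y.1.1) y.2)
        (g := fun x : (ℕ × Wd (Fin 5)) × Wd (Fin (11 + nG)) => (x.1, xW x.2)) hN
        (Primrec.fst.pair (TRE.primrec_xW.comp Primrec.snd)).to_comp))

include h0 h1 hgG hG in
theorem re_inTNotQ : REPred fun x : ℕ × Wd (Fin 5) => InTNotQ M L0 gG F x.1 x.2 := by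
  have hN := re_notQT M L0 gG (P := ℕ × Wd (Fin 5)) (e := fun q => q.1)
    (O1 := fun q => O1 L0 F q.1 q.2) (O2 := fun q => O2 L0 F q.1 q.2) (Dr := fun q => DrTe M L0 gG q.1)
    Computable.fst (re_atomH L0 F 2) (re_atomH L0 F 1) (re_drTe M L0 gG h0 h1 hgG hG) hG
  have hth : Primrec fun v : Wd (Fin (11 + nG)) => thW M L0 v :=
    (primrec_expand M L0).comp (primrec_mapLetters (Primrec.dom_finite fun a => G0.xb (d := M.d) (nr := M.nr) a))
  refine RE.exists_ (p := fun (x : ℕ × Wd (Fin 5)) (v : Wd (Fin (11 + nG))) => v ≠ [] ∧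
    Bnd F.C L0 x.2 List.length v ∧
    wev (PresentedGroup.of : Fin 5 → HPres M L0 x.1) (weq (thW M L0 v) x.2) = 1 ∧
    (tpar M L0 gG x.1).NotQT (O1 L0 F x.1 x.2) (O2 L0 F x.1 x.2) (DrTe M L0 gG x.1) (xW v))
    (RE.and (RE.of_primrec (Primrec.eq.comp Primrec.snd (Primrec.const [])).not)
      (RE.and (re_bnd F.C L0 (u := fun q : ℕ × Wd (Fin 5) => q.2) Primrec.snd Primrec.list_length)
        (RE.and ?_ ?_)))
  · exact RE.comp (p := fun y : ℕ × Wd (Fin 5) => wev (PresentedGroup.of : Fin 5 → HPres M L0 y.1) y.2 = 1)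
      (g := fun x : (ℕ × Wd (Fin 5)) × Wd (Fin (11 + nG)) => (x.1.1, weq (thW M L0 x.2) x.1.2))
      (re_hPres M h0 h1 L0)
      ((Primrec.fst.comp Primrec.fst).pair
        (primrec_weq.comp (hth.comp Primrec.snd) (Primrec.snd.comp Primrec.fst))).to_comp
  · exact RE.comp (p := fun y : (ℕ × Wd (Fin 5)) × Wd (EmbData.EL (TTok nG)) =>
        (tpar M L0 gG y.1.1).NotQT (O1 L0 F y.1.1 y.1.2) (O2 L0 F y.1.1 y.1.2) (DrTe M L0 gG y.1.1) y.2)
      (g := fun x : (ℕ × Wd (Fin 5)) × Wd (Fin (11 + nG)) => (x.1, xW x.2)) hN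
      (Primrec.fst.pair (TRE.primrec_xW.comp Primrec.snd)).to_comp

include h0 h1 hgG hG in
/-- The formula of the fixed point is r.e. -/
theorem re_sysF
    (hH : ∀ {P : Type} [Primcodable P] {e : P → ℕ} {O : P → Wd (Fin (11 + nG)) → Prop}, Computable e →
      (REPred fun x : P × Wd (Fin (11 + nG)) => O x.1 x.2) →
      REPred fun x : P × Wd (Fin 5) => F.NegH (e x.1) (O x.1) x.2)
    (hT : ∀ {P : Type} [Primcodable P] {e : P → ℕ} {O : P → Wd (Fin (11 + nG)) → Prop}, Computable e →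
      (REPred fun x : P × Wd (Fin (11 + nG)) => O x.1 x.2) →
      REPred fun x : P × Wd (Fin 5) => F.NotTH (e x.1) (O x.1) x.2) :
    REPred fun p : ℕ × ℕ => SysF M L0 gG F p.1 p.2 := by
  have hoT := re_oT M L0 gG F h0 h1 hgG hG
  have h2 : REPred fun x : ℕ × Wd (Fin 5) => Neg1F M L0 gG F x.1 x.2 :=
    RE.comp (p := fun y : (ℕ × Wd (Fin 5)) × Wd (Fin 5) => F.NegH y.1.1 (OT M L0 gG F y.1.1 y.1.2) y.2)
      (g := fun x : ℕ × Wd (Fin 5) => (x, x.2))
      (hH (P := ℕ × Wd (Fin 5)) (e := fun q => q.1) (O := fun q => OT M L0 gG F q.1 q.2) Computable.fst hoT)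
      (Computable.id.pair Computable.snd)
  have hq : REPred fun x : ℕ × Wd (Fin 5) => NegQF M L0 gG F x.1 x.2 :=
    RE.or (RE.comp (p := fun y : (ℕ × Wd (Fin 5)) × Wd (Fin 5) => F.NotTH y.1.1 (OT M L0 gG F y.1.1 y.1.2) y.2)
      (g := fun x : ℕ × Wd (Fin 5) => (x, x.2))
      (hT (P := ℕ × Wd (Fin 5)) (e := fun q => q.1) (O := fun q => OT M L0 gG F q.1 q.2) Computable.fst hoT)
      (Computable.id.pair Computable.snd)) (re_inTNotQ M L0 gG F h0 h1 hgG hG)
  have hk : ∀ (k : ℕ) {R : ℕ → Wd (Fin 5) → Prop}, (REPred fun x : ℕ × Wd (Fin 5) => R x.1 x.2) →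
      REPred fun p : ℕ × ℕ => ∃ g : Wd (Fin 5), p.2 = Nat.pair k (Encodable.encode g) ∧ R p.1 g :=
    fun k R hR => RE.exists_ (p := fun (p : ℕ × ℕ) (g : Wd (Fin 5)) =>
        p.2 = Nat.pair k (Encodable.encode g) ∧ R p.1 g)
      (RE.and (RE.eq (Computable.snd.comp Computable.fst)
          (Primrec₂.natPair.to_comp.comp (Computable.const k) (Computable.encode.comp Computable.snd)))
        (RE.comp (p := fun y : ℕ × Wd (Fin 5) => R y.1 y.2)
          (g := fun x : (ℕ × ℕ) × Wd (Fin 5) => (x.1.1, x.2)) hR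
          ((Computable.fst.comp Computable.fst).pair Computable.snd)))
  refine RE.or (RE.and (RE.eq (Computable.fst.comp (Computable.unpair.comp Computable.snd)) (Computable.const 0))
    (RE.exists_ (p := fun (p : ℕ × ℕ) (v : Wd (Fin (11 + nG))) =>
        nOf v = p.2.unpair.2 ∧ (tpar M L0 gG p.1).piT (FreeGroup.mk v) = 1) (RE.and ?_ ?_)))
    (RE.or (hk 1 hq) (hk 2 h2))
  · exact RE.eq ((nOf_primrec (11 + nG)).to_comp.comp Computable.snd)
      (Computable.snd.comp (Computable.unpair.comp (Computable.snd.comp Computable.fst)))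
  · exact RE.comp (p := fun y : ℕ × Wd (Fin (11 + nG)) => (tpar M L0 gG y.1).piT (FreeGroup.mk y.2) = 1)
      (g := fun x : (ℕ × ℕ) × Wd (Fin (11 + nG)) => (x.1.1, x.2))
      (re_piT M L0 gG h0 h1 hgG hG.to_re)
      ((Computable.fst.comp Computable.fst).pair Computable.snd)

end

end Vale.P193
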