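import Vale.Agent.P193.Layer.TParse
import Vale.Agent.P193.Gen.EmbCert
import Vale.Agent.P193.Gen.EmbEntry

/-!
P193, M9: soundness and completeness of the certificate formulas of `T`, relative to the oracles, and the facts
about `Q'` for the envelope.
-/

namespace Vale.P193

noncomputable section

open Monoid

namespace TPar

variable {nG : ℕ} (p : TPar nG)

theorem normal_of_sok : ∀ {l : List (Sy nG)},
    (∀ q ∈ l.zip l.tail, SOk q.1 q.2) → (∀ a ∈ l, At.Ne1 (p.syAt a)) → At.Normal (l.map p.syAt)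
  | [], _, _ => trivial
  | a :: l, h1, h2 => by
    refine ⟨h2 a List.mem_cons_self, ?_, normal_of_sok ?_ fun b hb => h2 b (List.mem_cons_of_mem _ hb)⟩
    · rintro q hq
      rcases l with _ | ⟨b, l⟩
      · simp at hq
      · simp only [List.map_cons, List.head?_cons, Option.mem_def, Option.some.injEq] at hq
        subst hq
        have := h1 (a, b) (by simp)
        rcases a with w | w | x <;> rcases b with w' | w' | x' <;> exact this
    · rcases l with _ | ⟨b, l⟩
      · simp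
      · intro q hq
        exact h1 q (List.mem_cons_of_mem _ hq)

theorem sok_of_normal : ∀ {l : List (Sy nG)}, At.Normal (l.map p.syAt) →
    ∀ q ∈ l.zip l.tail, SOk q.1 q.2
  | [], _, q, hq => by simp at hq
  | [_], _, q, hq => by simp at hq
  | a :: b :: l, h, q, hq => by
    rcases List.mem_cons.1 hq with rfl | hq
    · have := h.2.1 (p.syAt b) (by simp)
      rcases a with w | w | x <;> rcases b with w' | w' | x' <;> exact this
    · exact sok_of_normal h.tail q hq

theorem ne1_of_mem : ∀ {l : List (Sy nG)}, At.Normal (l.map p.syAt) → ∀ a ∈ l, At.Ne1 (p.syAt a)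
  | a :: _, h, b, hb => by
    rcases List.mem_cons.1 hb with rfl | hb
    · exact h.1
    · exact ne1_of_mem h.tail b hb

theorem mu5_le_syA : ∀ {l : List (Sy nG)} {w : Wd (Fin 5)}, .inl w ∈ l → mu5 w ≤ syA l
  | s :: l, w, h => by
    rcases List.mem_cons.1 h with rfl | h
    · simp [syA]
    · have := mu5_le_syA h
      rcases s with w' | w' | x <;> simp only [syA] <;> omega

theorem wsum_w5_le (u : Wd (Fin 5)) : wsum EmbData.w5 u ≤ u.length := by
  induction u with
  | nil => simp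
  | cons l u ih =>
    have : EmbData.w5 l.1 ≤ 1 := by unfold EmbData.w5; split_ifs <;> omega
    rw [wsum_cons, List.length_cons]
    omega

variable {O1 O2 : Wd (Fin 5) → Prop} {Dr : Wd (EmbData.EL (TTok nG)) → Prop}

/-- (S1) A certified normal list is normal and has the value of the segment. -/
theorem snorm_sound (hO1 : ∀ w, O1 w → wev p.five w ≠ 1)
    (hDr : ∀ v, Dr v → wev (p.emb.eVal p.tokVal) v = 1) {s : EmbData.SW (TTok nG)} {l : List (Sy nG)}
    (h : p.SNorm O1 Dr s l) :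
    At.Normal (l.map p.syAt) ∧ p.syOk l ∧ p.syEval l = p.toBig (wev p.segLet s) := by
  obtain ⟨h1, h2, h3⟩ := h
  have hok : p.syOk l := fun i b hi => h2 _ hi
  refine ⟨p.normal_of_sok h1 fun a ha => ?_, hok, ?_⟩
  · rcases a with w | w | x
    · exact hO1 w (h2 _ ha)
    · exact h2 _ ha
    · trivial
  · have e := hDr _ h3
    rw [wev_weq, EmbData.wev_up, EmbData.wev_up] at e
    rw [p.syEval_toSW hok, segLet, ← HNNExtension.of_injective _ e]

variable [DecidablePred p.C] {qW : Fin 5 → Wd (Fin 5)}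

/-- (S1) Every segment has a certified normal list. -/
theorem snorm_complete (hqv : ∀ j, wev p.five (qW j) = p.qv j) (hqμ : ∀ j, mu5 (qW j) ≤ 2 * p.L0)
    (hDr : ∀ v, wev (p.emb.eVal p.tokVal) v = 1 → Dr v) {s : EmbData.SW (TTok nG)}
    (hO1 : ∀ w, mu5 w ≤ 2 * p.segW s → wev p.five w ≠ 1 → O1 w) :
    ∃ l, p.SNorm O1 Dr s l ∧ At.Normal (l.map p.syAt) ∧ p.syOk l ∧
      p.syEval l = p.toBig (wev p.segLet s) ∧ syA l ≤ 2 * p.segW s := by
  obtain ⟨l, hn, he, ha, -, hok⟩ := p.exists_normal (expWd p qW s)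
  have hok' : p.syOk l := hok (p.syOk_expWd qW s)
  have hw : syA l ≤ 2 * p.segW s := ha.trans (p.syA_expWd qW hqμ s)
  have hev : p.syEval l = p.toBig (wev p.segLet s) := he.trans (p.syEval_expWd qW hqv s)
  refine ⟨l, ⟨p.sok_of_normal hn, fun a ha' => ?_, hDr _ ?_⟩, hn, hok', hev, hw⟩
  · have hne := p.ne1_of_mem hn a ha'
    rcases a with w | w | ⟨x, b⟩
    · exact hO1 w ((mu5_le_syA ha').trans hw) hne
    · exact hne
    · rcases x with j | _ | i
      · trivial
      · trivial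
      · exact hok' i b ha'
  · have e : wev p.segLet s = wev p.segLet (toSW l) :=
      p.toBig_injective (hev.symm.trans (p.syEval_toSW hok'))
    rw [wev_weq, EmbData.wev_up, EmbData.wev_up]
    exact congrArg _ e

omit [DecidablePred p.C] in
theorem npT_sound (hO1 : ∀ w, O1 w → wev p.five w ≠ 1)
    (hDr : ∀ v, Dr v → wev (p.emb.eVal p.tokVal) v = 1) {v : Wd (TTok nG)} (h : p.NPT O1 Dr v) :
    wev p.tokVal v ≠ 1 := by
  obtain ⟨l, hl, hne⟩ := h
  obtain ⟨hn, -, he⟩ := p.snorm_sound hO1 hDr hl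
  intro e
  refine At.eval_ne_one hn (by simpa using hne) ?_
  show p.syEval l = 1
  rw [he, segLet, EmbData.wev_inT, e, map_one, map_one]

theorem npT_complete (hqv : ∀ j, wev p.five (qW j) = p.qv j) (hqμ : ∀ j, mu5 (qW j) ≤ 2 * p.L0)
    (hDr : ∀ v, wev (p.emb.eVal p.tokVal) v = 1 → Dr v) {v : Wd (TTok nG)}
    (hO1 : ∀ w, mu5 w ≤ 2 * wsum p.tokW v → wev p.five w ≠ 1 → O1 w) (h : wev p.tokVal v ≠ 1) :
    p.NPT O1 Dr v := by
  obtain ⟨l, hl, -, -, he, -⟩ := p.snorm_complete (O1 := O1) hqv hqμ hDr (s := EmbData.inT v)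
    (fun w hw => hO1 w (by rwa [segW, EmbData.wsum_inT] at hw))
  refine ⟨l, hl, ?_⟩
  rintro rfl
  refine h ?_
  have e : p.toBig (wev p.segLet (EmbData.inT v)) = p.toBig 1 := by rw [map_one, ← he, syEval_nil]
  have := congrArg Coprod.fst (p.toBig_injective e)
  simpa [segLet, EmbData.wev_inT] using this

variable (hq : ∀ j u, wev p.five u = p.qv j → p.L0 ≤ mu5 u)
include hq

/-- (S3) A certificate for `≠ 1` is sound. -/
theorem negT_sound (hO1 : ∀ w, O1 w → wev p.five w ≠ 1)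
    (hDr : ∀ v, Dr v → wev (p.emb.eVal p.tokVal) v = 1) {v : Wd (EmbData.EL (TTok nG))}
    (h : p.NegT O1 Dr v) : wev (p.emb.eVal p.tokVal) v ≠ 1 :=
  (p.toks hq).negE_sound (fun _ hv => p.npT_sound hO1 hDr hv) hDr h

/-- (S3) A certificate for `≠ 1` exists. -/
theorem negT_complete (hqv : ∀ j, wev p.five (qW j) = p.qv j) (hqμ : ∀ j, mu5 (qW j) ≤ 2 * p.L0)
    (hDr : ∀ v, wev (p.emb.eVal p.tokVal) v = 1 → Dr v) {v : Wd (EmbData.EL (TTok nG))}
    (hO1 : ∀ w, mu5 w ≤ 4 * wsum (EmbData.wE p.tokW) v → wev p.five w ≠ 1 → O1 w)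
    (h : wev (p.emb.eVal p.tokVal) v ≠ 1) : p.NegT O1 Dr v := by
  refine (p.toks hq).negE_complete (fun u hu hne => ?_) hDr h
  refine p.npT_complete hqv hqμ hDr (fun w hw => hO1 w ?_) hne
  have hu' : wsum p.tokW u ≤ 2 * wsum (EmbData.wE p.tokW) v := hu
  omega

/-- (S4) A certificate for lying outside `Q'` exists. -/
theorem notQT_complete (hqv : ∀ j, wev p.five (qW j) = p.qv j) (hqμ : ∀ j, mu5 (qW j) ≤ 2 * p.L0)
    (hDr : ∀ v, wev (p.emb.eVal p.tokVal) v = 1 → Dr v) {v : Wd (EmbData.EL (TTok nG))}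
    (hO1 : ∀ w, mu5 w ≤ 4 * wsum (EmbData.wE p.tokW) v → wev p.five w ≠ 1 → O1 w)
    (hO2 : ∀ w, mu5 w ≤ 4 * wsum (EmbData.wE p.tokW) v →
      wev p.five w ∉ Subgroup.closure (Set.range p.qv) → O2 w)
    (h : wev (p.emb.eVal p.tokVal) v ∉ p.Qsub) : p.NotQT O1 O2 Dr v := by
  refine (p.toks hq).formCert_complete (fun u hu hne => ?_) hDr fun f hf hv hw => ⟨hw, ?_⟩
  · refine p.npT_complete hqv hqμ hDr (fun w hw' => hO1 w ?_) hne
    have hu' : wsum p.tokW u ≤ 2 * wsum (EmbData.wE p.tokW) v := hu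
    omega
  have hf' : p.emb.Red p.tokVal f := hf
  rw [TPar.Qsub, show wev (p.emb.eVal p.tokVal) v = p.emb.fVal p.tokVal f from hv.symm,
    p.emb.mem_five_iff hf'] at h
  obtain ⟨s, hs⟩ := not_forall.1 h
  obtain ⟨hs, hns⟩ := Classical.not_imp.1 hs
  have hw' : EmbData.formW p.tokW f ≤ wsum (EmbData.wE p.tokW) v := hw
  have hsw : p.segW s ≤ EmbData.formW p.tokW f := EmbData.seg_le_formW p.tokW hs
  obtain ⟨l, hl, -, hok, he, hA⟩ := p.snorm_complete (O1 := O1) hqv hqμ hDr (s := s)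
    (fun w hw'' => hO1 w (by omega))
  refine ⟨s, hs, l, hl, fun r hr => ?_⟩
  by_contra hall
  refine hns (p.pass_withQ hok ((p.pass_iff_runs _ l).2 ⟨r, hr, fun a ha => ?_⟩) he)
  by_contra hna
  exact hall ⟨a, ha, hO2 a (by have := runs_weight hr ha; omega) hna⟩

/-- (S5) A certified word differs from every product of at most `k` of the five letters. -/
theorem notQT_sound_k {k : ℕ} {v : Wd (EmbData.EL (TTok nG))}
    (hO1 : ∀ w, O1 w → wev p.five w ≠ 1) (hDr : ∀ v, Dr v → wev (p.emb.eVal p.tokVal) v = 1)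
    (hO2 : ∀ a q, O2 a → q * p.L0 ≤ 4 * (k + wsum (EmbData.wE p.tokW) v) →
      wev p.five a ∉ Parse.Qk p.qv q)
    (hval : ∀ i, p.C i → ∀ q, 8 * mu5 i.1 + q * p.L0 ≤ 4 * (k + wsum (EmbData.wE p.tokW) v) →
      wev p.five i.1 ∉ Parse.Qk p.qv q)
    (h : p.NotQT O1 O2 Dr v) {u : Wd (Fin 5)} (hu : u.length ≤ k) :
    wev (p.emb.eVal p.tokVal) v ≠ wev p.emb.five u := by
  intro e
  obtain ⟨f, hf, ⟨hw, s, hs, l, hl, hfail⟩, hv⟩ :=
    (p.toks hq).formCert_sound (fun _ hv => p.npT_sound hO1 hDr hv) hDr h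
  obtain ⟨hn, hok, he⟩ := p.snorm_sound hO1 hDr hl
  obtain ⟨W, hW, hWw⟩ :
      ∃ W : Wd (p.Ent ⊕ Fin 4), wev (EmbData.bl p.entVal) W = wev p.segLet s ∧
        wsum (EmbData.wB p.entW) W ≤ 2 * (wsum EmbData.w5 u + EmbData.formW p.tokW f) :=
    (p.toks hq).seg_entry_bound hf (hv.trans e) s hs
  obtain ⟨hc1, hc2⟩ := p.qCount_entWd W
  have hwu := wsum_w5_le u
  have hB : wsum (EmbData.wB p.entW) W ≤ 4 * (k + wsum (EmbData.wE p.tokW) v) := by omega
  have hpass := Parse.pass_of_gen p.gI p.qv (p.entWd W) hn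
    (show At.eval _ = _ by rw [wev_entWd, hW]; exact he)
    (fun i hi => hval i (hc2 i hi).1 _ ((hc2 i hi).2.trans hB))
  obtain ⟨r, hr, hall⟩ := (p.pass_iff_runs _ l).1 hpass
  obtain ⟨a, ha, hOa⟩ := hfail r hr
  exact hO2 a _ hOa (hc1.trans hB) (hall a ha)

omit hq

/-! ### Facts for the envelope -/

omit [DecidablePred p.C]

theorem inP_mem_Qsub_iff (y : p.P2) : p.emb.inP y ∈ p.Qsub ↔ y ∈ p.emb.valSub := by
  have h := p.emb.mem_five_iff (tv := (id : p.P2 → p.P2)) (f := ([(Sum.inl y, true)], []))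
    HNNRed.pf_nil
  have e1 : p.emb.fVal (id : p.P2 → p.P2) ([(Sum.inl y, true)], []) = p.emb.inP y := by
    simp [EmbData.fVal, EmbData.vlist, HNNRed.hval, HNNRed.prodT, wev_pos, EmbData.bl, EmbData.inP]
  rw [e1] at h
  refine h.trans ?_
  simp only [EmbData.segs, List.map_nil, List.forall_mem_singleton, wev_pos, EmbData.bl, id]
  have := CoprodNF.mem_withQ_iff (Q := EmbData.F4) p.emb.valSub (p := y) (l := []) trivial
  simpa [CoprodNF.nfVal, CoprodNF.lVal] using this

/-- Every product of entries passes with tests in `⟨q⟩`, when all indices are valid. -/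
theorem pass_of_valSub (hvalid : ∀ i, p.C i → wev p.five i.1 ∉ Subgroup.closure (Set.range p.qv))
    {y : p.P2} (hy : y ∈ p.emb.valSub) {l : List (Parse.Atom p.A p.G Idx)} (hn : At.Normal l)
    (he : At.eval l = p.p2Big y) :
    Parse.Pass p.gI (Subgroup.closure (Set.range p.qv) : Set p.A) (some 1) l := by
  rw [EmbData.valSub, ← FreeGroup.range_lift_eq_closure, EmbData.mem_range_lift] at hy
  obtain ⟨W0, -, hW0⟩ := hy
  obtain ⟨W, hW⟩ : ∃ W : Wd p.Ent, wev p.entVal W = y := ⟨W0, hW0⟩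
  set W' : Wd (p.Ent ⊕ Fin 4) := W.map fun a => (Sum.inl a.1, a.2) with hW'
  have e : wev (EmbData.bl p.entVal) W' = Coprod.inl y := by
    rw [hW', wev_map, ← hW, hom_wev (Coprod.inl : p.P2 →* EmbData.Base p.P2)]
    rfl
  obtain ⟨-, hc2⟩ := p.qCount_entWd W'
  refine Parse.Pass.mono p.gI (Parse.Qk_subset_closure p.qv _)
    (Parse.pass_of_gen p.gI p.qv (p.entWd W') hn ?_ fun i hi hQ =>
      hvalid i (hc2 i hi).1 (Parse.Qk_subset_closure p.qv _ hQ))
  rw [wev_entWd, e, he]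
  simp [toBig]

/-- (S6) An element of `A` lies in `Q'` exactly when it lies in `⟨q⟩`. -/
theorem inl_mem_Qsub_iff (hvalid : ∀ i, p.C i → wev p.five i.1 ∉ Subgroup.closure (Set.range p.qv))
    (a : p.A) : p.emb.inP (Coprod.inl a) ∈ p.Qsub ↔ a ∈ Subgroup.closure (Set.range p.qv) := by
  rw [inP_mem_Qsub_iff]
  constructor
  · intro h
    by_cases ha : a = 1
    · subst ha; exact one_mem _
    have hn : At.Normal ([.a a] : List (Parse.Atom p.A p.G Idx)) :=
      ⟨ha, fun _ hh => by simp at hh, trivial⟩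
    have hp := p.pass_of_valSub hvalid h hn (by simp [At.eval, At.val, p2Big])
    obtain ⟨o, ho, -, hr⟩ := hp
    simp only [Parse.opts, List.mem_singleton] at ho
    subst ho
    have hr' : (1 : p.A) * a ∈ Subgroup.closure (Set.range p.qv) := hr
    rwa [one_mul] at hr'
  · intro h
    refine (Subgroup.closure_le (K := p.emb.valSub.comap
      (Coprod.inl : p.A →* p.P2))).2 ?_ h
    rintro _ ⟨j, rfl⟩
    exact Subgroup.subset_closure ⟨.inl j, rfl⟩

/-- (S6) A nontrivial element of `A` conjugated by `x` lies outside `Q'`. -/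
theorem conj_x_notMem_Qsub (hvalid : ∀ i, p.C i → wev p.five i.1 ∉ Subgroup.closure (Set.range p.qv))
    {a : p.A} (ha : a ≠ 1) : p.emb.inP (p.xP * Coprod.inl a * p.xP⁻¹) ∉ p.Qsub := by
  rw [inP_mem_Qsub_iff]
  intro h
  have hn : At.Normal ([Parse.atX true, .a a, Parse.atX false] : List (Parse.Atom p.A p.G Idx)) :=
    ⟨trivial, fun _ hh => by simp at hh; subst hh; trivial, ha,
      fun _ hh => by simp at hh; subst hh; trivial, trivial, fun _ hh => by simp at hh, trivial⟩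
  have hp := p.pass_of_valSub hvalid h hn (by
    simp [At.eval, At.val, p2Big, xP, bigL, Parse.mk_true, Parse.mk_false, mul_assoc])
  exact Parse.not_pass_x p.gI _ _ _ hp

end TPar

end

end Vale.P193
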