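import Vale.Agent.P193.Layer.Fix
import Vale.Agent.P193.Layer.TSem
import Vale.Agent.P193.Layer.HWords

/-!
P193, M9: the token facts at a parameter `e`, from the general semantics of the tokens of `T`.
-/

namespace Vale.P193

noncomputable section

variable {nG : ℕ} (M : Mach (Fin (11 + nG))) (L0 : ℕ) {G : Type} [Group G] (gG : Fin nG → G) (e : ℕ)

theorem wev_qWord (j : Fin 5) :
    wev (tpar M L0 gG e).five (qWord M L0 j) = (tpar M L0 gG e).qv j := rfl

theorem mu5_qWord_le (hL : 4 ≤ L0) (j : Fin 5) : mu5 (qWord M L0 j) ≤ 2 * (tpar M L0 gG e).L0 := by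
  rw [qWord, mu5_yWord]
  show L0 + 4 ≤ 2 * L0
  omega

theorem drTe_iff (w : Wd (EmbData.EL (TTok nG))) :
    DrTe M L0 gG e w ↔ wev ((tpar M L0 gG e).emb.eVal (tpar M L0 gG e).tokVal) w = 1 :=
  (tpar M L0 gG e).drT_iff (qWord M L0) (wev_qWord M L0 gG e) w

/-- The token facts at the parameter `e`. -/
theorem tFacts (hq : ∀ j u, wev (tpar M L0 gG e).five u = (tpar M L0 gG e).qv j → L0 ≤ mu5 u)
    (hL : 4 ≤ L0) : TFacts M L0 gG e where
  negT_sound O1 h1 v h :=
    (tpar M L0 gG e).negT_sound hq h1 (fun w hw => (drTe_iff M L0 gG e w).1 hw) h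
  negT_complete O1 v h1 h :=
    (tpar M L0 gG e).negT_complete hq (wev_qWord M L0 gG e) (mu5_qWord_le M L0 gG e hL)
      (fun w hw => (drTe_iff M L0 gG e w).2 hw) (fun a ha => h1 a (by omega)) h
  notQT_complete O1 O2 v h1 h2 h :=
    (tpar M L0 gG e).notQT_complete hq (wev_qWord M L0 gG e) (mu5_qWord_le M L0 gG e hL)
      (fun w hw => (drTe_iff M L0 gG e w).2 hw) (fun a ha => h1 a (by omega))
      (fun a ha => h2 a (by omega)) h
  notQT_sound_k O1 O2 v k h1 h2 hval h w hw :=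
    (tpar M L0 gG e).notQT_sound_k hq h1 (fun u hu => (drTe_iff M L0 gG e u).1 hu) h2
      (fun i hi q => hval i q hi) h hw

end

end Vale.P193
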