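import Vale.Agent.P193.Layer.TToks

/-!
P193, M9: the certificate formulas of `T` over oracles: `O1` certifies an atom of `A` nontrivial, `O2` certifies a
word of `A` outside `Q`. Everything here is syntax in the program through the decidable set of certified indices.
-/

namespace Vale.P193

noncomputable section

/-- States of the parse on words. -/
abbrev StW := Option (Wd (Fin 5))

namespace TPar

variable {nG : ℕ}

/-- Two syntactic atoms that may be adjacent. -/
def SOk : Sy nG → Sy nG → Prop
  | .inl _, .inl _ => False
  | .inr (.inl _), .inr (.inl _) => False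
  | .inr (.inr x), .inr (.inr y) => x.1 = y.1 → x.2 = y.2
  | _, _ => True

/-- The token of a letter. -/
def flTok : Parse.FL Idx → TTok nG ⊕ Fin 4
  | .inl j => .inr j
  | .inr none => .inl (.inr (.inr (.inl ())))
  | .inr (some i) => .inl (.inr (.inr (.inr (.inr (i, false)))))

/-- An atom as a segment word. -/
def symTok : Sy nG → EmbData.SW (TTok nG)
  | .inl w => w.map fun l => (.inl (.inl l.1), l.2)
  | .inr (.inl w) => w.map fun l => (.inl (.inr (.inl l.1)), l.2)
  | .inr (.inr x) => [(flTok x.1, x.2)]

/-- A list of atoms as a segment word. -/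
def toSW (l : List (Sy nG)) : EmbData.SW (TTok nG) := l.flatMap symTok

/-- The options of the parse at a state for an atom: a word to be tested (if any) and the next state. -/
def optsW : StW → Sy nG → List (Option (Wd (Fin 5)) × StW)
  | some b, .inl w => [(none, some (b ++ w))]
  | some b, .inr (.inr (.inl _, _)) => [(some b, some [])]
  | some b, .inr (.inr (.inr none, false)) => [(some b, none)]
  | some b, .inr (.inr (.inr (some i), true)) => [(some b, some []), (some (b ++ i.1), none)]
  | some b, .inr (.inr (.inr (some _), false)) => [(some b, some [])]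
  | none, .inr (.inr (.inr none, true)) => [(none, some [])]
  | none, .inr (.inr (.inr (some i), false)) => [(none, some (winv i.1))]
  | _, _ => []

/-- One step of all runs: the words tested so far and the state. -/
def stepR (cs : List (List (Wd (Fin 5)) × StW)) (p : Sy nG) : List (List (Wd (Fin 5)) × StW) :=
  cs.flatMap fun c => (optsW c.2 p).map fun o => (c.1 ++ o.1.toList, o.2)

/-- The tests along every complete run. -/
def runs (l : List (Sy nG)) : List (List (Wd (Fin 5))) :=
  (l.foldl stepR [([], some [])]).filterMap fun c => c.2.map fun b => c.1 ++ [b]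

variable (p : TPar nG) (O1 O2 : Wd (Fin 5) → Prop) (Dr : Wd (EmbData.EL (TTok nG)) → Prop)

/-- An atom certified nontrivial. -/
def SNe : Sy nG → Prop
  | .inl w => O1 w
  | .inr (.inl w) => wev p.gG w ≠ 1
  | .inr (.inr (.inr (some i), _)) => p.C i
  | .inr (.inr _) => True

/-- A certified normal list of a segment. -/
def SNorm (s : EmbData.SW (TTok nG)) (l : List (Sy nG)) : Prop :=
  (∀ q ∈ l.zip l.tail, SOk q.1 q.2) ∧ (∀ a ∈ l, p.SNe O1 a) ∧
    Dr (weq (EmbData.up s) (EmbData.up (toSW l)))

/-- A token word certified nontrivial. -/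
def NPT (v : Wd (TTok nG)) : Prop := ∃ l, p.SNorm O1 Dr (EmbData.inT v) l ∧ l ≠ []

/-- Every run of the parse meets a word certified outside `Q`. -/
def Fail (l : List (Sy nG)) : Prop := ∀ r ∈ runs l, ∃ a ∈ r, O2 a

/-- A segment certified outside the subgroup of the entries and the free letters. -/
def SegFail (s : EmbData.SW (TTok nG)) : Prop := ∃ l, p.SNorm O1 Dr s l ∧ Fail O2 l

variable [DecidablePred p.C]

/-- Certificate for `≠ 1` in `T`. -/
def NegT (v : Wd (EmbData.EL (TTok nG))) : Prop := EmbData.NegE p.codes (p.NPT O1 Dr) Dr v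

/-- Certificate for lying outside the subgroup of the five letters of `T`. -/
def NotQT (v : Wd (EmbData.EL (TTok nG))) : Prop :=
  EmbData.FormCert p.codes (p.NPT O1 Dr) Dr
    (fun f => EmbData.formW p.tokW f ≤ wsum (EmbData.wE p.tokW) v ∧
      ∃ s ∈ EmbData.segs f, p.SegFail O1 O2 Dr s) v

end TPar

/-- An input word as a word of `T`. -/
def xW {nG : ℕ} (v : Wd (Fin (11 + nG))) : Wd (EmbData.EL (TTok nG)) := v.map fun l => (xTok l.1, l.2)

end

end Vale.P193
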