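import Vale.Agent.P193.Layer.TForm
import Vale.Agent.P193.Layer.TPres
import Vale.Agent.P193.Gen.EmbCertRE
import Vale.Agent.P193.Layer.Sys

/-!
P193, M9: the words of the certificates of `T` are primitive recursive and the atoms are recursively enumerable,
uniformly in the program.
-/

namespace Vale.P193

noncomputable section

namespace TRE

open TPar Encodable

/-- Equality of tokens is decidable. -/
instance decEqTTok (nG : ℕ) : DecidableEq (TTok nG) :=
  @instDecidableEqSum _ _ _ (@instDecidableEqSum _ _ _ (@instDecidableEqSum _ _ _ inferInstance))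

variable {nG : ℕ}

theorem primrec_decEnt : Primrec decEnt :=
  Primrec.option_map
    ((Primrec.decode₂ (α := Idx)).comp (Primrec.nat_div.comp
      (Primrec.nat_sub.comp Primrec.id (Primrec.const 5)) (Primrec.const 2)))
    (Primrec.snd.pair ((Primrec.eq.comp (Primrec.nat_mod.comp
      (Primrec.nat_sub.comp Primrec.fst (Primrec.const 5)) (Primrec.const 2)) (Primrec.const 1)).decide)).to₂

/-! ### Atoms and the parse -/

theorem primrec_flTok : Primrec (flTok : Parse.FL Idx → TTok nG ⊕ Fin 4) :=
  (Primrec.sumCasesOn Primrec.id (Primrec.sumInr.comp Primrec.snd).to₂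
    (Primrec.option_casesOn
      (g := fun (q : Parse.FL Idx × Option Idx) (i : Idx) =>
        ((.inl (.inr (.inr (.inr (.inr (i, false))))) : TTok nG ⊕ Fin 4)))
      Primrec.snd (Primrec.const _)
      (Primrec.sumInl.comp (Primrec.sumInr.comp (Primrec.sumInr.comp (Primrec.sumInr.comp
        (Primrec.sumInr.comp (Primrec.snd.pair (Primrec.const false))))))).to₂).to₂).of_eq
    fun x => by rcases x with j | _ | i <;> rfl

theorem primrec_symTok : Primrec (symTok : Sy nG → EmbData.SW (TTok nG)) :=
  (Primrec.sumCasesOn Primrec.id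
    ((primrec_mapLetters (Primrec.sumInl.comp Primrec.sumInl)).comp Primrec.snd).to₂
    (Primrec.sumCasesOn Primrec.snd
      ((primrec_mapLetters (Primrec.sumInl.comp (Primrec.sumInr.comp Primrec.sumInl))).comp Primrec.snd).to₂
      (Primrec.list_cons.comp
        ((primrec_flTok.comp (Primrec.fst.comp Primrec.snd)).pair (Primrec.snd.comp Primrec.snd))
        (Primrec.const [])).to₂).to₂).of_eq
    fun x => by rcases x with w | w | x <;> rfl

theorem primrec_toSW : Primrec (toSW : List (Sy nG) → EmbData.SW (TTok nG)) :=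
  Primrec.list_flatMap Primrec.id (primrec_symTok.comp Primrec.snd).to₂

/-- The kind of an atom, and its letter. -/
def kind : Sy nG → ℕ × Option (Parse.FL Idx × Bool)
  | .inl _ => (0, none)
  | .inr (.inl _) => (1, none)
  | .inr (.inr x) => (2, some x)

theorem primrec_kind : Primrec (kind : Sy nG → _) :=
  (Primrec.sumCasesOn Primrec.id (Primrec.const (0, none)).to₂
    (Primrec.sumCasesOn Primrec.snd (Primrec.const (1, none)).to₂
      ((Primrec.const 2).pair (Primrec.option_some.comp Primrec.snd)).to₂).to₂).of_eq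
    fun x => by rcases x with w | w | x <;> rfl

theorem sOk_iff (s t : Sy nG) : SOk s t ↔ (kind s).1 ≠ (kind t).1 ∨
    ((kind s).1 = 2 ∧ ((kind s).2.map Prod.fst ≠ (kind t).2.map Prod.fst ∨ (kind s).2 = (kind t).2)) := by
  rcases s with w | w | x <;> rcases t with w' | w' | y <;> simp [SOk, kind]
  rw [imp_iff_not_or, Prod.ext_iff]
  tauto

theorem primrec_sOk : PrimrecPred fun q : Sy nG × Sy nG => SOk q.1 q.2 := by
  have hs : Primrec fun q : Sy nG × Sy nG => kind q.1 := primrec_kind.comp Primrec.fst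
  have ht : Primrec fun q : Sy nG × Sy nG => kind q.2 := primrec_kind.comp Primrec.snd
  have hm : Primrec fun o : Option (Parse.FL Idx × Bool) => o.map Prod.fst :=
    Primrec.option_map Primrec.id (Primrec.fst.comp Primrec.snd).to₂
  refine ((((Primrec.eq.comp (Primrec.fst.comp hs) (Primrec.fst.comp ht)).not).or
    ((Primrec.eq.comp (Primrec.fst.comp hs) (Primrec.const 2)).and
      (((Primrec.eq.comp (hm.comp (Primrec.snd.comp hs)) (hm.comp (Primrec.snd.comp ht))).not).or
        (Primrec.eq.comp (Primrec.snd.comp hs) (Primrec.snd.comp ht)))))).of_eq fun q => (sOk_iff q.1 q.2).symm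

/-- The options from a coset. -/
def optA (b : Wd (Fin 5)) : Sy nG → List (Option (Wd (Fin 5)) × StW)
  | .inl w => [(none, some (b ++ w))]
  | .inr (.inl _) => []
  | .inr (.inr (.inl _, _)) => [(some b, some [])]
  | .inr (.inr (.inr none, p)) => bif p then [] else [(some b, none)]
  | .inr (.inr (.inr (some i), p)) =>
    bif p then [(some b, some []), (some (b ++ i.1), none)] else [(some b, some [])]

/-- The options behind `x⁻¹`. -/
def optB : Sy nG → List (Option (Wd (Fin 5)) × StW)
  | .inr (.inr (.inr none, p)) => bif p then [(none, some [])] else []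
  | .inr (.inr (.inr (some i), p)) => bif p then [] else [(none, some (winv i.1))]
  | _ => []

theorem optsW_eq (st : StW) (s : Sy nG) :
    optsW st s = st.elim (optB s) (fun b => optA b s) := by
  rcases st with _ | b <;> rcases s with w | w | ⟨j | _ | i, _ | _⟩ <;> rfl

theorem primrec_optA : Primrec₂ (optA : Wd (Fin 5) → Sy nG → _) := by
  have one : Primrec fun b : Wd (Fin 5) => [((some b : Option (Wd (Fin 5))), (some [] : StW))] :=
    Primrec.list_cons.comp ((Primrec.option_some.comp Primrec.id).pair (Primrec.const _)) (Primrec.const [])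
  refine (Primrec.sumCasesOn (f := fun q : Wd (Fin 5) × Sy nG => q.2)
    (g := fun q w => [((none : Option (Wd (Fin 5))), (some (q.1 ++ w) : StW))])
    (h := fun q r => Sum.casesOn (motive := fun _ => List (Option (Wd (Fin 5)) × StW)) r (fun _ => [])
      fun x => Sum.casesOn (motive := fun _ => List (Option (Wd (Fin 5)) × StW)) x.1
        (fun _ => [(some q.1, some [])]) fun o => Option.casesOn o (bif x.2 then [] else [(some q.1, none)])
          fun i => bif x.2 then [(some q.1, some []), (some (q.1 ++ i.1), none)] else [(some q.1, some [])])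
    Primrec.snd ?_ ?_).of_eq fun q => ?_
  · exact Primrec.list_cons.comp ((Primrec.const none).pair (Primrec.option_some.comp
      (Primrec.list_append.comp (Primrec.fst.comp Primrec.fst) Primrec.snd))) (Primrec.const [])
  · refine Primrec.sumCasesOn Primrec.snd (Primrec.const []).to₂ ?_
    refine Primrec.sumCasesOn (Primrec.fst.comp Primrec.snd)
      (one.comp (Primrec.fst.comp (Primrec.fst.comp (Primrec.fst.comp Primrec.fst)))).to₂ ?_
    refine Primrec.option_casesOn Primrec.snd ?_ ?_
    · exact Primrec.cond (Primrec.snd.comp (Primrec.snd.comp Primrec.fst)) (Primrec.const [])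
        (Primrec.list_cons.comp ((Primrec.option_some.comp
          (Primrec.fst.comp (Primrec.fst.comp (Primrec.fst.comp Primrec.fst)))).pair (Primrec.const none))
          (Primrec.const []))
    · exact Primrec.cond (Primrec.snd.comp (Primrec.snd.comp (Primrec.fst.comp Primrec.fst)))
        (Primrec.list_cons.comp
          ((Primrec.option_some.comp
            (Primrec.fst.comp (Primrec.fst.comp (Primrec.fst.comp (Primrec.fst.comp Primrec.fst))))).pair
              (Primrec.const _))
          (Primrec.list_cons.comp ((Primrec.option_some.comp (Primrec.list_append.comp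
            (Primrec.fst.comp (Primrec.fst.comp (Primrec.fst.comp (Primrec.fst.comp Primrec.fst))))
            (Primrec.fst.comp Primrec.snd))).pair (Primrec.const none)) (Primrec.const [])))
        (one.comp (Primrec.fst.comp (Primrec.fst.comp (Primrec.fst.comp (Primrec.fst.comp Primrec.fst)))))
  · rcases q with ⟨b, w | w | ⟨j | _ | i, p⟩⟩ <;> rfl

theorem primrec_optB : Primrec (optB : Sy nG → _) := by
  have hw : Primrec (winv : Wd (Fin 5) → Wd (Fin 5)) := RE.primrec_invRev.of_eq fun _ => rfl
  refine (Primrec.sumCasesOn (f := fun s : Sy nG => s)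
    (g := fun _ _ => ([] : List (Option (Wd (Fin 5)) × StW)))
    (h := fun _ r => Sum.casesOn (motive := fun _ => List (Option (Wd (Fin 5)) × StW)) r (fun _ => [])
      fun x => Sum.casesOn (motive := fun _ => List (Option (Wd (Fin 5)) × StW)) x.1 (fun _ => [])
        fun o => Option.casesOn o (bif x.2 then [(none, some [])] else [])
          fun i => bif x.2 then [] else [(none, some (winv i.1))])
    Primrec.id (Primrec.const []).to₂ ?_).of_eq fun q => ?_
  · refine Primrec.sumCasesOn Primrec.snd (Primrec.const []).to₂ ?_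
    refine Primrec.sumCasesOn (Primrec.fst.comp Primrec.snd) (Primrec.const []).to₂ ?_
    refine Primrec.option_casesOn Primrec.snd ?_ ?_
    · exact Primrec.cond (Primrec.snd.comp (Primrec.snd.comp Primrec.fst)) (Primrec.const _) (Primrec.const [])
    · exact Primrec.cond (Primrec.snd.comp (Primrec.snd.comp (Primrec.fst.comp Primrec.fst))) (Primrec.const [])
        (Primrec.list_cons.comp ((Primrec.const none).pair (Primrec.option_some.comp
          (hw.comp (Primrec.fst.comp Primrec.snd)))) (Primrec.const []))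
  · rcases q with w | w | ⟨j | _ | i, p⟩ <;> rfl

theorem primrec_optsW : Primrec₂ (optsW : StW → Sy nG → _) :=
  (Primrec.option_casesOn Primrec.fst (primrec_optB.comp Primrec.snd)
    (primrec_optA.comp Primrec.snd (Primrec.snd.comp Primrec.fst)).to₂).of_eq
    fun q => by rw [optsW_eq]; cases q.1 <;> rfl

theorem primrec_runs : Primrec (runs : List (Sy nG) → _) := by
  have hstep : Primrec₂ (stepR : List (List (Wd (Fin 5)) × StW) → Sy nG → _) := by
    refine Primrec.list_flatMap (f := fun q : List (List (Wd (Fin 5)) × StW) × Sy nG => q.1)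
      (g := fun q (c : List (Wd (Fin 5)) × StW) =>
        (optsW c.2 q.2).map fun o => (c.1 ++ o.1.toList, o.2)) Primrec.fst ?_
    unfold Primrec₂
    refine Primrec.list_map (primrec_optsW.comp (Primrec.snd.comp Primrec.snd)
      (Primrec.snd.comp Primrec.fst)) ?_
    exact ((Primrec.list_append.comp (Primrec.fst.comp (Primrec.snd.comp Primrec.fst))
      ((Primrec.optionToList (α := Wd (Fin 5))).comp (Primrec.fst.comp Primrec.snd))).pair
        (Primrec.snd.comp Primrec.snd)).to₂
  refine Primrec.listFilterMap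
    (Primrec.list_foldl (h := fun (_ : List (Sy nG)) q => stepR q.1 q.2) Primrec.id (Primrec.const _)
      (hstep.comp (Primrec.fst.comp Primrec.snd) (Primrec.snd.comp Primrec.snd)).to₂) ?_
  exact (Primrec.option_map (Primrec.snd.comp Primrec.snd)
    (Primrec.list_append.comp (Primrec.fst.comp (Primrec.snd.comp Primrec.fst))
      (Primrec.list_cons.comp Primrec.snd (Primrec.const []))).to₂).to₂

/-! ### Substitution into the input letters -/

theorem primrec_xW : Primrec (xW : Wd (Fin (11 + nG)) → _) :=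
  primrec_mapLetters (Primrec.dom_finite xTok)

end TRE

open TPar TRE

attribute [local instance 10000] certAtDec

variable {nG : ℕ} (M : Mach (Fin (11 + nG))) (L0 : ℕ) {G : Type} [Group G] (gG : Fin nG → G)

theorem primrec_certAt_decide : Primrec₂ fun (e : ℕ) (i : Idx) => decide (CertAt e i) :=
  (primrec_CertAt.decide).to₂

/-- The weight of a token, with the program left out. -/
def tokW0 : TTok nG → ℕ
  | .inl j => if j = 2 ∨ j = 3 then 1 else 0
  | .inr (.inl _) => 1
  | .inr (.inr (.inl _)) => 1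
  | .inr (.inr (.inr (.inl _))) => L0
  | .inr (.inr (.inr (.inr (i, _)))) => 1 + 8 * mu5 i.1

theorem tokW_eq (e : ℕ) : (tpar M L0 gG e).tokW = tokW0 L0 := by
  funext x
  rcases x with j | a | u | j | ⟨i, b⟩ <;> rfl

theorem primrec_tokW0 : Primrec (tokW0 L0 : TTok nG → ℕ) :=
  (Primrec.sumCasesOn Primrec.id
    ((Primrec.dom_finite fun j : Fin 5 => if j = 2 ∨ j = 3 then 1 else 0).comp Primrec.snd).to₂
    (Primrec.sumCasesOn Primrec.snd (Primrec.const 1).to₂
      (Primrec.sumCasesOn Primrec.snd (Primrec.const 1).to₂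
        (Primrec.sumCasesOn Primrec.snd (Primrec.const L0).to₂
          (Primrec.nat_add.comp (Primrec.const 1) (Primrec.nat_mul.comp (Primrec.const 8)
            (primrec_mu5'.comp (Primrec.fst.comp (Primrec.fst.comp Primrec.snd))))).to₂).to₂).to₂).to₂).of_eq
    fun x => by rcases x with j | a | u | j | ⟨i, b⟩ <;> rfl

theorem primrec_wt : Primrec₂ fun e n => (tpar M L0 gG e).codes.wt n := by
  refine (Primrec.ite (c := fun q : ℕ × ℕ => q.2 < 5)
    (g := fun q => (decEnt q.2).bind fun x =>
      bif decide (CertAt q.1 x.1) then some (1 + 8 * mu5 x.1.1) else none)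
    (Primrec.nat_lt.comp Primrec.snd (Primrec.const 5))
    (Primrec.const (some L0)) ?_).of_eq fun q => ?_
  · exact Primrec.option_bind (primrec_decEnt.comp Primrec.snd) (Primrec.cond
      (primrec_certAt_decide.comp (Primrec.fst.comp Primrec.fst) (Primrec.fst.comp Primrec.snd))
      (Primrec.option_some.comp (Primrec.nat_add.comp (Primrec.const 1) (Primrec.nat_mul.comp (Primrec.const 8)
        (primrec_mu5'.comp (Primrec.fst.comp (Primrec.fst.comp Primrec.snd)))))) (Primrec.const none)).to₂
  · simp only [TPar.codes]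
    split_ifs
    · rfl
    · congr 1
      funext x
      by_cases h : CertAt q.1 x.1 <;> simp [h]

theorem primrec_rep : Primrec₂ fun e n => (tpar M L0 gG e).codes.rep n := by
  refine (Primrec.ite (c := fun q : ℕ × ℕ => q.2 < 5)
    (f := fun q => [((.inr (.inr (.inr (.inl (⟨q.2 % 5, Nat.mod_lt _ (by omega)⟩ : Fin 5)))) : TTok nG), true)])
    (g := fun q => ((decEnt q.2).map fun x => [((.inr (.inr (.inr (.inr x))) : TTok nG), true)]).getD [])
    (Primrec.nat_lt.comp Primrec.snd (Primrec.const 5)) ?_ ?_).of_eq fun q => ?_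
  · have h5 : Primrec fun q : ℕ × ℕ => (⟨q.2 % 5, Nat.mod_lt _ (by omega)⟩ : Fin 5) :=
      Primrec.fin_val_iff.1 (Primrec.nat_mod.comp Primrec.snd (Primrec.const 5))
    exact Primrec.list_cons.comp ((Primrec.sumInr.comp (Primrec.sumInr.comp (Primrec.sumInr.comp
      (Primrec.sumInl.comp h5)))).pair (Primrec.const true)) (Primrec.const [])
  · exact Primrec.option_getD.comp (Primrec.option_map (primrec_decEnt.comp Primrec.snd)
      (Primrec.list_cons.comp ((Primrec.sumInr.comp (Primrec.sumInr.comp (Primrec.sumInr.comp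
        (Primrec.sumInr.comp Primrec.snd)))).pair (Primrec.const true)) (Primrec.const [])).to₂) (Primrec.const [])
  · simp only [TPar.codes]
    split_ifs with h
    · simp [Nat.mod_eq_of_lt h]
    · rfl

/-- The input word of an index letter. -/
def entIn (e : ℕ) (x : Idx × Bool) : Wd (Fin (11 + nG)) :=
  bif decide (CertAt e x.1) then
    inF (yWord (5 + (2 * Encodable.encode x.1 + x.2.toNat)) (1 + 8 * mu5 x.1.1)) else []

theorem primrec_entIn : Primrec₂ fun e x => (entIn e x : Wd (Fin (11 + nG))) := by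
  have hF : Primrec (inF : Wd (Fin 5) → Wd (Fin (11 + nG))) :=
    primrec_mapLetters (Primrec.dom_finite fun j : Fin 5 => (⟨6 + j, by omega⟩ : Fin (11 + nG)))
  exact (Primrec.cond (primrec_certAt_decide.comp Primrec.fst (Primrec.fst.comp Primrec.snd))
    (hF.comp (primrec_yWord'.comp
      (Primrec.nat_add.comp (Primrec.const 5) (Primrec.nat_add.comp
        (Primrec.nat_mul.comp (Primrec.const 2) (Primrec.encode.comp (Primrec.fst.comp Primrec.snd)))
        ((Primrec.dom_finite Bool.toNat).comp (Primrec.snd.comp Primrec.snd))))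
      (Primrec.nat_add.comp (Primrec.const 1) (Primrec.nat_mul.comp (Primrec.const 8)
        (primrec_mu5'.comp (Primrec.fst.comp (Primrec.fst.comp Primrec.snd)))))))
    (Primrec.const [])).to₂

/-- The input word of a letter of `T`. -/
def subL0 (qW : Fin 5 → Wd (Fin 5)) (e : ℕ) : EmbData.EL (TTok nG) → Wd (Fin (11 + nG))
  | .inr j => inF [(j, true)]
  | .inl (.inl j) => inA [(j, true)]
  | .inl (.inr (.inl a)) => [(⟨11 + a, by omega⟩, true)]
  | .inl (.inr (.inr (.inl _))) => [(⟨5, by omega⟩, true)]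
  | .inl (.inr (.inr (.inr (.inl j)))) => inA (qW j)
  | .inl (.inr (.inr (.inr (.inr x)))) => entIn e x

theorem subL_eq (qW : Fin 5 → Wd (Fin 5)) (e : ℕ) (τ : EmbData.EL (TTok nG)) :
    (tpar M L0 gG e).subL qW τ = subL0 qW e τ := by
  rcases τ with (j | a | u | j | ⟨i, b⟩) | j
  · rfl
  · rfl
  · rfl
  · rfl
  · simp only [TPar.subL, subL0, entIn]
    by_cases h : CertAt e i
    · simp [h]
    · simp [h]
  · rfl

theorem primrec_rest (f : Fin 5 → Wd (Fin (11 + nG))) {g : ℕ → Idx × Bool → Wd (Fin (11 + nG))}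
    (hg : Primrec₂ g) : Primrec₂ fun (e : ℕ) (t : Fin nG ⊕ (Unit ⊕ (Fin 5 ⊕ (Idx × Bool)))) =>
      t.elim (fun a : Fin nG => [((⟨11 + a, by omega⟩ : Fin (11 + nG)), true)]) fun t =>
        t.elim (fun _ => [((⟨5, by omega⟩ : Fin (11 + nG)), true)]) fun t => t.elim f (g e) := by
  refine (Primrec.sumCasesOn Primrec.snd
    ((Primrec.dom_finite fun a : Fin nG => [((⟨11 + a, by omega⟩ : Fin (11 + nG)), true)]).comp
      Primrec.snd).to₂
    (Primrec.sumCasesOn Primrec.snd (Primrec.const [((⟨5, by omega⟩ : Fin (11 + nG)), true)]).to₂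
      (Primrec.sumCasesOn Primrec.snd ((Primrec.dom_finite f).comp Primrec.snd).to₂
        (hg.comp (Primrec.fst.comp (Primrec.fst.comp (Primrec.fst.comp Primrec.fst)))
          Primrec.snd).to₂).to₂).to₂).of_eq fun q => ?_
  rcases q with ⟨e, a | u | j | x⟩ <;> rfl

theorem primrec_sub (qW : Fin 5 → Wd (Fin 5)) :
    Primrec₂ fun e w => (tpar M L0 gG e).sub qW w := by
  have hL : Primrec₂ fun e τ => (tpar M L0 gG e).subL qW τ := by
    have h : Primrec₂ fun (e : ℕ) (τ : EmbData.EL (TTok nG)) => subL0 qW e τ := by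
      refine (Primrec.sumCasesOn Primrec.snd
        (Primrec.sumCasesOn Primrec.snd
          ((Primrec.dom_finite fun j : Fin 5 => (inA [(j, true)] : Wd (Fin (11 + nG)))).comp Primrec.snd).to₂
          ((primrec_rest (fun j => inA (qW j)) primrec_entIn).comp
            (Primrec.fst.comp (Primrec.fst.comp Primrec.fst)) Primrec.snd).to₂).to₂
        ((Primrec.dom_finite fun j : Fin 5 => (inF [(j, true)] : Wd (Fin (11 + nG)))).comp
          Primrec.snd).to₂).of_eq fun q => ?_
      rcases q with ⟨e, (j | a | u | j | x) | j⟩ <;> rfl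
    exact h.of_eq fun e τ => (subL_eq M L0 gG qW e τ).symm
  refine Primrec.list_flatMap Primrec.snd ?_
  have hw : Primrec (winv : Wd (Fin (11 + nG)) → _) := RE.primrec_invRev.of_eq fun _ => rfl
  unfold Primrec₂
  refine (Primrec.cond (Primrec.snd.comp Primrec.snd)
    (hL.comp (Primrec.fst.comp Primrec.fst) (Primrec.fst.comp Primrec.snd))
    (hw.comp (hL.comp (Primrec.fst.comp Primrec.fst) (Primrec.fst.comp Primrec.snd)))).of_eq fun q => ?_
  obtain ⟨q, τ, b⟩ := q
  cases b <;> rfl

/-! ### The atoms are r.e. -/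

section Atoms

variable {P : Type} [Primcodable P] {e : P → ℕ} {O1 O2 : P → Wd (Fin 5) → Prop}
  {Dr : P → Wd (EmbData.EL (TTok nG)) → Prop}

theorem re_sNe (he : Computable e) (hO1 : REPred fun x : P × Wd (Fin 5) => O1 x.1 x.2)
    (hG : ComputablePred fun w : Wd (Fin nG) => wev gG w = 1) :
    REPred fun x : P × Sy nG => (tpar M L0 gG (e x.1)).SNe (O1 x.1) x.2 := by
  classical
  have h1 : REPred fun x : P × Sy nG => ∃ w : Wd (Fin 5), x.2 = .inl w ∧ O1 x.1 w :=
    RE.exists_ (p := fun (x : P × Sy nG) (w : Wd (Fin 5)) => x.2 = .inl w ∧ O1 x.1 w)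
      (RE.and (RE.eq (Computable.snd.comp Computable.fst) (Primrec.sumInl.to_comp.comp Computable.snd))
        (RE.comp (g := fun q : (P × Sy nG) × Wd (Fin 5) => (q.1.1, q.2)) hO1
          ((Computable.fst.comp Computable.fst).pair Computable.snd)))
  have h2 : REPred fun x : P × Sy nG => ∃ w : Wd (Fin nG), x.2 = .inr (.inl w) ∧ wev gG w ≠ 1 :=
    RE.exists_ (p := fun (x : P × Sy nG) (w : Wd (Fin nG)) => x.2 = .inr (.inl w) ∧ wev gG w ≠ 1)
      (RE.and (RE.eq (Computable.snd.comp Computable.fst)
          ((Primrec.sumInr.comp Primrec.sumInl).to_comp.comp Computable.snd))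
        (RE.comp hG.not.to_re Computable.snd))
  have hfl : REPred fun q : ℕ × Parse.FL Idx =>
      (q.2.elim (fun _ => true) fun o => o.elim true fun i => decide (CertAt q.1 i)) = true := by
    refine RE.eq (Primrec.to_comp ?_) (Computable.const true)
    refine (Primrec.sumCasesOn Primrec.snd (Primrec.const true).to₂
      (Primrec.option_casesOn Primrec.snd (Primrec.const true)
        (primrec_certAt_decide.comp (Primrec.fst.comp (Primrec.fst.comp Primrec.fst))
          Primrec.snd).to₂).to₂).of_eq fun q => ?_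
    rcases q with ⟨k, j | _ | i⟩ <;> rfl
  have h3 : REPred fun x : P × Sy nG => ∃ y : Parse.FL Idx × Bool, x.2 = .inr (.inr y) ∧
      (y.1.elim (fun _ => true) fun o => o.elim true fun i => decide (CertAt (e x.1) i)) = true :=
    RE.exists_ (p := fun (x : P × Sy nG) (y : Parse.FL Idx × Bool) => x.2 = .inr (.inr y) ∧
        (y.1.elim (fun _ => true) fun o => o.elim true fun i => decide (CertAt (e x.1) i)) = true)
      (RE.and (RE.eq (Computable.snd.comp Computable.fst)
          ((Primrec.sumInr.comp Primrec.sumInr).to_comp.comp Computable.snd))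
        (RE.comp (g := fun q : (P × Sy nG) × (Parse.FL Idx × Bool) => (e q.1.1, q.2.1)) hfl
          ((he.comp (Computable.fst.comp Computable.fst)).pair (Computable.fst.comp Computable.snd))))
  refine (RE.or h1 (RE.or h2 h3)).of_eq fun x => ?_
  rcases x with ⟨a, w | w | ⟨j | _ | i, b⟩⟩ <;> simp [TPar.SNe]

theorem re_sNorm (he : Computable e) (hO1 : REPred fun x : P × Wd (Fin 5) => O1 x.1 x.2)
    (hDr : REPred fun x : P × Wd (EmbData.EL (TTok nG)) => Dr x.1 x.2)
    (hG : ComputablePred fun w : Wd (Fin nG) => wev gG w = 1) :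
    REPred fun x : (P × EmbData.SW (TTok nG)) × List (Sy nG) =>
      (tpar M L0 gG (e x.1.1)).SNorm (O1 x.1.1) (Dr x.1.1) x.1.2 x.2 := by
  refine RE.and ?_ (RE.and ?_ ?_)
  · exact RE.forall_mem (p := fun (_ : (P × EmbData.SW (TTok nG)) × List (Sy nG)) (q : Sy nG × Sy nG) =>
      SOk q.1 q.2) (RE.comp (RE.of_primrec primrec_sOk) Computable.snd)
      (l := fun x => x.2.zip x.2.tail) ((primrec_zipTail.comp Primrec.snd).to_comp)
  · exact RE.forall_mem (p := fun (x : (P × EmbData.SW (TTok nG)) × List (Sy nG)) (a : Sy nG) =>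
      (tpar M L0 gG (e x.1.1)).SNe (O1 x.1.1) a)
      (RE.comp (g := fun q : ((P × EmbData.SW (TTok nG)) × List (Sy nG)) × Sy nG => (q.1.1.1, q.2))
        (re_sNe M L0 gG he hO1 hG) ((Computable.fst.comp (Computable.fst.comp Computable.fst)).pair Computable.snd))
      (l := fun x => x.2) Computable.snd
  · exact RE.comp (g := fun x : (P × EmbData.SW (TTok nG)) × List (Sy nG) =>
      (x.1.1, weq (EmbData.up x.1.2) (EmbData.up (toSW x.2)))) hDr
      ((Primrec.fst.comp Primrec.fst).pair (primrec_weq.comp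
        (EmbData.primrec_up.comp (Primrec.snd.comp Primrec.fst))
        (EmbData.primrec_up.comp (primrec_toSW.comp Primrec.snd)))).to_comp

theorem re_npt (he : Computable e) (hO1 : REPred fun x : P × Wd (Fin 5) => O1 x.1 x.2)
    (hDr : REPred fun x : P × Wd (EmbData.EL (TTok nG)) => Dr x.1 x.2)
    (hG : ComputablePred fun w : Wd (Fin nG) => wev gG w = 1) :
    REPred fun x : P × Wd (TTok nG) => (tpar M L0 gG (e x.1)).NPT (O1 x.1) (Dr x.1) x.2 :=
  RE.exists_ (p := fun (x : P × Wd (TTok nG)) (l : List (Sy nG)) =>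
      (tpar M L0 gG (e x.1)).SNorm (O1 x.1) (Dr x.1) (EmbData.inT x.2) l ∧ l ≠ [])
    (RE.and
      (RE.comp (g := fun q : (P × Wd (TTok nG)) × List (Sy nG) => ((q.1.1, EmbData.inT q.1.2), q.2))
        (re_sNorm M L0 gG he hO1 hDr hG)
        (((Primrec.fst.comp Primrec.fst).pair (EmbData.primrec_inT.comp (Primrec.snd.comp Primrec.fst))).pair
          Primrec.snd).to_comp)
      (RE.of_primrec (Primrec.eq.comp Primrec.snd (Primrec.const [])).not))

theorem re_segFail (he : Computable e) (hO1 : REPred fun x : P × Wd (Fin 5) => O1 x.1 x.2)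
    (hO2 : REPred fun x : P × Wd (Fin 5) => O2 x.1 x.2)
    (hDr : REPred fun x : P × Wd (EmbData.EL (TTok nG)) => Dr x.1 x.2)
    (hG : ComputablePred fun w : Wd (Fin nG) => wev gG w = 1) :
    REPred fun x : P × EmbData.SW (TTok nG) =>
      (tpar M L0 gG (e x.1)).SegFail (O1 x.1) (O2 x.1) (Dr x.1) x.2 :=
  RE.exists_ (p := fun (x : P × EmbData.SW (TTok nG)) (l : List (Sy nG)) =>
      (tpar M L0 gG (e x.1)).SNorm (O1 x.1) (Dr x.1) x.2 l ∧ Fail (O2 x.1) l)
    (RE.and (re_sNorm M L0 gG he hO1 hDr hG)
      (RE.forall_mem (p := fun (q : (P × EmbData.SW (TTok nG)) × List (Sy nG)) (r : List (Wd (Fin 5))) =>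
          ∃ a ∈ r, O2 q.1.1 a)
        (RE.exists_mem
          (p := fun (z : ((P × EmbData.SW (TTok nG)) × List (Sy nG)) × List (Wd (Fin 5))) (a : Wd (Fin 5)) =>
            O2 z.1.1.1 a)
          (RE.comp (g := fun y : (((P × EmbData.SW (TTok nG)) × List (Sy nG)) × List (Wd (Fin 5))) × Wd (Fin 5) =>
            (y.1.1.1.1, y.2)) hO2
            ((Computable.fst.comp (Computable.fst.comp (Computable.fst.comp Computable.fst))).pair Computable.snd))
          (l := fun z => z.2) Computable.snd)
        (l := fun q => runs q.2) (primrec_runs.to_comp.comp Computable.snd)))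

/-- The codes are primitive recursive in the program. -/
theorem codesPrim : EmbData.CodesPrim fun q : ℕ × P => (tpar M L0 gG q.1).codes where
  tw := ((primrec_tokW0 L0).comp Primrec.snd).to₂.of_eq fun q k => (congrFun (tokW_eq M L0 gG q.1) k).symm
  wt := ((primrec_wt M L0 gG).comp (Primrec.fst.comp Primrec.fst) Primrec.snd).to₂
  rep := ((primrec_rep M L0 gG).comp (Primrec.fst.comp Primrec.fst) Primrec.snd).to₂

theorem re_negT (he : Computable e) (hO1 : REPred fun x : P × Wd (Fin 5) => O1 x.1 x.2)
    (hDr : REPred fun x : P × Wd (EmbData.EL (TTok nG)) => Dr x.1 x.2)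
    (hG : ComputablePred fun w : Wd (Fin nG) => wev gG w = 1) :
    REPred fun x : P × Wd (EmbData.EL (TTok nG)) =>
      (tpar M L0 gG (e x.1)).NegT (O1 x.1) (Dr x.1) x.2 := by
  have hD' : REPred fun x : (ℕ × P) × Wd (EmbData.EL (TTok nG)) => Dr x.1.2 x.2 :=
    RE.comp (g := fun x : (ℕ × P) × Wd (EmbData.EL (TTok nG)) => (x.1.2, x.2)) hDr
      ((Computable.snd.comp Computable.fst).pair Computable.snd)
  have hO' : REPred fun x : (ℕ × P) × Wd (Fin 5) => O1 x.1.2 x.2 :=
    RE.comp (g := fun x : (ℕ × P) × Wd (Fin 5) => (x.1.2, x.2)) hO1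
      ((Computable.snd.comp Computable.fst).pair Computable.snd)
  have hN := re_npt M L0 gG (P := ℕ × P) (e := fun q => q.1) (O1 := fun q => O1 q.2) (Dr := fun q => Dr q.2)
    Computable.fst hO' hD' hG
  have h := EmbData.re_negE (C := fun q : ℕ × P => (tpar M L0 gG q.1).codes)
    (NP := fun q => (tpar M L0 gG q.1).NPT (O1 q.2) (Dr q.2)) (Dr := fun q => Dr q.2)
    (codesPrim M L0 gG) hN hD'
  exact (RE.comp (g := fun x : P × Wd (EmbData.EL (TTok nG)) => ((e x.1, x.1), x.2)) h
    (((he.comp Computable.fst).pair Computable.fst).pair Computable.snd)).of_eq fun _ => Iff.rfl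

theorem re_notQT (he : Computable e) (hO1 : REPred fun x : P × Wd (Fin 5) => O1 x.1 x.2)
    (hO2 : REPred fun x : P × Wd (Fin 5) => O2 x.1 x.2)
    (hDr : REPred fun x : P × Wd (EmbData.EL (TTok nG)) => Dr x.1 x.2)
    (hG : ComputablePred fun w : Wd (Fin nG) => wev gG w = 1) :
    REPred fun x : P × Wd (EmbData.EL (TTok nG)) =>
      (tpar M L0 gG (e x.1)).NotQT (O1 x.1) (O2 x.1) (Dr x.1) x.2 := by
  let Q : Type := ℕ × P × Wd (EmbData.EL (TTok nG))
  have hg : Computable fun x : Q × Wd (EmbData.EL (TTok nG)) => (x.1.2.1, x.2) :=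
    (Computable.fst.comp (Computable.snd.comp Computable.fst)).pair Computable.snd
  have hg5 : Computable fun x : Q × Wd (Fin 5) => (x.1.2.1, x.2) :=
    (Computable.fst.comp (Computable.snd.comp Computable.fst)).pair Computable.snd
  have hD' : REPred fun x : Q × Wd (EmbData.EL (TTok nG)) => Dr x.1.2.1 x.2 :=
    RE.comp (p := fun y : P × Wd (EmbData.EL (TTok nG)) => Dr y.1 y.2)
      (g := fun x : Q × Wd (EmbData.EL (TTok nG)) => (x.1.2.1, x.2)) hDr hg
  have h1 : REPred fun x : Q × Wd (Fin 5) => O1 x.1.2.1 x.2 :=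
    RE.comp (p := fun y : P × Wd (Fin 5) => O1 y.1 y.2) (g := fun x : Q × Wd (Fin 5) => (x.1.2.1, x.2)) hO1 hg5
  have h2 : REPred fun x : Q × Wd (Fin 5) => O2 x.1.2.1 x.2 :=
    RE.comp (p := fun y : P × Wd (Fin 5) => O2 y.1 y.2) (g := fun x : Q × Wd (Fin 5) => (x.1.2.1, x.2)) hO2 hg5
  have hW : Primrec₂ fun (_ : Unit) (w : Wd (EmbData.EL (TTok nG))) =>
      wsum (EmbData.wE (tokW0 L0)) w :=
    EmbData.primrec_wsum (f := fun (_ : Unit) => EmbData.wE (tokW0 L0))
      ((Primrec.sumCasesOn Primrec.snd ((primrec_tokW0 L0).comp Primrec.snd).to₂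
        ((Primrec.dom_finite EmbData.w5).comp Primrec.snd).to₂).of_eq fun q => by
          rcases q with ⟨u, k | j⟩ <;> rfl)
  have hB : Primrec fun u : EmbData.SW (TTok nG) => wsum (EmbData.wB (tokW0 L0)) u :=
    (EmbData.primrec_wsum (f := fun (_ : Unit) => EmbData.wB (tokW0 L0))
      ((Primrec.sumCasesOn Primrec.snd ((primrec_tokW0 L0).comp Primrec.snd).to₂
        ((Primrec.dom_finite EmbData.w4).comp Primrec.snd).to₂).of_eq fun q => by
          rcases q with ⟨u, k | j⟩ <;> rfl)).comp (Primrec.const ()) Primrec.id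
  have hF : Primrec fun f : EmbData.EForm (TTok nG) => EmbData.formW (tokW0 L0) f :=
    EmbData.primrec_sumList (Primrec.list_map EmbData.primrec_segs (hB.comp Primrec.snd).to₂)
  have hPz : REPred fun x : Q × EmbData.EForm (TTok nG) =>
      EmbData.formW (tpar M L0 gG x.1.1).tokW x.2 ≤ wsum (EmbData.wE (tpar M L0 gG x.1.1).tokW) x.1.2.2 ∧
        ∃ s ∈ EmbData.segs x.2, (tpar M L0 gG x.1.1).SegFail (O1 x.1.2.1) (O2 x.1.2.1) (Dr x.1.2.1) s := by
    refine RE.and ((RE.of_primrec (Primrec.nat_le.comp (hF.comp Primrec.snd)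
      (hW.comp (Primrec.const ()) (Primrec.snd.comp (Primrec.snd.comp Primrec.fst))))).of_eq fun x => ?_)
      (RE.exists_mem (p := fun (x : Q × EmbData.EForm (TTok nG)) (s : EmbData.SW (TTok nG)) =>
        (tpar M L0 gG x.1.1).SegFail (O1 x.1.2.1) (O2 x.1.2.1) (Dr x.1.2.1) s)
        (RE.comp (g := fun y : (Q × EmbData.EForm (TTok nG)) × EmbData.SW (TTok nG) => (y.1.1, y.2))
          (re_segFail M L0 gG (P := Q) (e := fun q => q.1) (O1 := fun q => O1 q.2.1) (O2 := fun q => O2 q.2.1)
            (Dr := fun q => Dr q.2.1) Computable.fst h1 h2 hD' hG)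
          ((Computable.fst.comp Computable.fst).pair Computable.snd))
        (l := fun x => EmbData.segs x.2) (EmbData.primrec_segs.to_comp.comp Computable.snd))
    rw [tokW_eq]
  have hN := re_npt M L0 gG (P := Q) (e := fun q => q.1) (O1 := fun q => O1 q.2.1) (Dr := fun q => Dr q.2.1)
    Computable.fst h1 hD' hG
  have h := EmbData.re_formCert (C := fun q : Q => (tpar M L0 gG q.1).codes)
    (NP := fun q => (tpar M L0 gG q.1).NPT (O1 q.2.1) (Dr q.2.1)) (Dr := fun q => Dr q.2.1)
    (codesPrim M L0 gG) hN hD'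
    (Pz := fun q f =>
      EmbData.formW (tpar M L0 gG q.1).tokW f ≤ wsum (EmbData.wE (tpar M L0 gG q.1).tokW) q.2.2 ∧
        ∃ s ∈ EmbData.segs f, (tpar M L0 gG q.1).SegFail (O1 q.2.1) (O2 q.2.1) (Dr q.2.1) s) hPz
  exact (RE.comp (g := fun x : P × Wd (EmbData.EL (TTok nG)) => ((e x.1, x.1, x.2), x.2)) h
    (((he.comp Computable.fst).pair (Computable.fst.pair Computable.snd)).pair Computable.snd)).of_eq
      fun _ => Iff.rfl

end Atoms

end

end Vale.P193
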