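import Vale.Agent.P193.Layer.MainAsm
import Vale.Agent.P193.Layer.TFactsProof

/-!
P193, M9: the token level gives the facts used by the fixed point.
-/

namespace Vale.P193

noncomputable section

variable {nG : ℕ} (M : Mach (Fin (11 + nG))) (L0 : ℕ) {G : Type} [Group G] (gG : Fin nG → G)
  (F : HForm (11 + nG)) {e : ℕ}

theorem piT_tIdx (j : Fin 5) :
    (tpar M L0 gG e).piT (FreeGroup.of (tIdx j)) = (tpar M L0 gG e).emb.five j :=
  FreeGroup.lift_apply_of.trans (tVal_t _ j)

/-- The lower bound on the weight of a word equal to some `q`. -/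
theorem q_lb (H : HFacts M L0 gG F e) (j : Fin 5) (u : Wd (Fin 5))
    (hu : wev (tpar M L0 gG e).five u = (tpar M L0 gG e).qv j) : L0 ≤ mu5 u := by
  refine H.th_lb ((tpar M L0 gG e).emb.five j) u ?_ (hu.trans (th_five M L0 gG F H j).symm)
  rw [← piT_tIdx]
  exact H.piT_ne _

/-- The facts about `Q'` when exactly the words outside `Q` are certified. -/
theorem qFacts (hcert : ∀ g, (∃ s, CertAt e (g, s)) ↔ wev (tpar M L0 gG e).five g ∉ Qe M L0 gG e) :
    QFacts M L0 gG e := by
  have hvalid : ∀ i, (tpar M L0 gG e).C i → wev (tpar M L0 gG e).five i.1 ∉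
      Subgroup.closure (Set.range (tpar M L0 gG e).qv) := fun i hi => (hcert i.1).1 ⟨i.2, hi⟩
  exact ⟨fun a => (tpar M L0 gG e).inl_mem_Qsub_iff hvalid a,
    fun a _ ha => (tpar M L0 gG e).conj_x_notMem_Qsub hvalid ha⟩

end

end Vale.P193
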