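import Vale.Agent.P193.Layer.TForm
import Vale.Agent.P193.Layer.Parse
import Vale.Agent.P193.Gen.EmbRed

/-!
P193, M9: the syntactic parse of `T`: values of atom lists, runs against the abstract parse, and the passage between
the big group (a letter for every index) and the base of `T` (letters for certified indices only).
-/

namespace Vale.P193

noncomputable section

open Monoid

namespace TPar

variable {nG : ℕ} (p : TPar nG)

/-- Values of the indices in `A`. -/
def gI (i : Idx) : p.A := wev p.five i.1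

/-- Values of the certified indices in `A`. -/
def gC (i : {i : Idx // p.C i}) : p.A := wev p.five i.1.1

theorem syEval_toSW : ∀ {l : List (Sy nG)}, p.syOk l → p.syEval l = p.toBig (wev p.segLet (toSW l))
  | [], _ => by simp [toSW]
  | s :: l, h => by
    have ih := syEval_toSW (l := l) fun i b hi => h i b (List.mem_cons_of_mem _ hi)
    rw [syEval_cons, ih, show toSW (s :: l) = symTok s ++ toSW l from rfl, wev_append, map_mul]
    congr 1
    rcases s with w | w | ⟨x, b⟩
    · simp only [symTok, syAt, At.val]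
      rw [wev_map p.segLet (fun j : Fin 5 => (Sum.inl (Sum.inl j) : TTok nG ⊕ Fin 4)),
        hom_wev p.toBig, hom_wev (Coprod.inl : p.A →* p.Big)]
      congr 1
    · simp only [symTok, syAt, At.val]
      rw [wev_map p.segLet (fun j : Fin nG => (Sum.inl (Sum.inr (Sum.inl j)) : TTok nG ⊕ Fin 4)),
        hom_wev p.toBig, hom_wev (Coprod.inl : p.G →* Coprod p.G (FreeGroup (Parse.FL Idx))),
        hom_wev (Coprod.inr : Coprod p.G (FreeGroup (Parse.FL Idx)) →* p.Big)]
      congr 1
    · have key : p.toBig (p.segLet (flTok x)) = p.bigL x := by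
        rcases x with j | _ | i
        · simp [flTok, segLet, EmbData.bl, toBig]
        · simp [flTok, segLet, EmbData.bl, toBig, p2Big, tokVal, xP]
        · simp [flTok, segLet, EmbData.bl, toBig, p2Big, tokVal, entVal, yP, h i b List.mem_cons_self]
      cases b
      · have e : FreeGroup.mk [(x, false)] = (FreeGroup.of x)⁻¹ := rfl
        simp [symTok, syAt, At.val, wev_neg, key, bigL, e]
      · have e : FreeGroup.mk [(x, true)] = FreeGroup.of x := rfl
        simp [symTok, syAt, At.val, wev_pos, key, bigL, e]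

/-! ### Runs -/

/-- A word state as a state. -/
def stA (s : StW) : Parse.State p.A := s.map (wev p.five)

/-- An option on words as an option. -/
def optA (o : Option (Wd (Fin 5)) × StW) : Option p.A × Parse.State p.A :=
  (o.1.map (wev p.five), p.stA o.2)

theorem opts_optsW (s : StW) (a : Sy nG) :
    Parse.opts p.gI (p.stA s) (p.syAt a) = (optsW s a).map p.optA := by
  rcases s with _ | b <;> rcases a with w | w | ⟨j | _ | i, c⟩ <;> (try cases c) <;>
    simp [Parse.opts, optsW, optA, stA, syAt, gI, wev_append, wev_winv]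

theorem run_iff (S : Set p.A) : ∀ (l : List (Sy nG)) (cs : List (List (Wd (Fin 5)) × StW)),
    (∃ r ∈ (l.foldl stepR cs).filterMap (fun c => c.2.map fun b => c.1 ++ [b]),
        ∀ a ∈ r, wev p.five a ∈ S) ↔
      ∃ c ∈ cs, (∀ a ∈ c.1, wev p.five a ∈ S) ∧ Parse.Pass p.gI S (p.stA c.2) (l.map p.syAt)
  | [], cs => by
    simp only [List.foldl_nil, List.mem_filterMap, Option.map_eq_some_iff, List.map_nil]
    constructor
    · rintro ⟨r, ⟨c, hc, b, hb, rfl⟩, hr⟩
      refine ⟨c, hc, fun a ha => hr a (List.mem_append_left _ ha), ?_⟩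
      rw [hb]
      exact hr b (by simp)
    · rintro ⟨⟨t, s⟩, hc, ht, hp⟩
      rcases s with _ | b
      · exact hp.elim
      · refine ⟨t ++ [b], ⟨(t, some b), hc, b, rfl, rfl⟩, fun a ha => ?_⟩
        rcases List.mem_append.1 ha with ha | ha
        · exact ht a ha
        · rw [List.mem_singleton] at ha
          subst ha
          exact hp
  | a :: l, cs => by
    have hpass : ∀ s, Parse.Pass p.gI S (p.stA s) ((a :: l).map p.syAt) ↔
        ∃ o ∈ optsW s a, (∀ x ∈ o.1, wev p.five x ∈ S) ∧
          Parse.Pass p.gI S (p.stA o.2) (l.map p.syAt) := by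
      intro s
      have : Parse.Pass p.gI S (p.stA s) (p.syAt a :: l.map p.syAt) ↔
          ∃ o ∈ Parse.opts p.gI (p.stA s) (p.syAt a), (∀ x ∈ o.1, x ∈ S) ∧
            Parse.Pass p.gI S o.2 (l.map p.syAt) := by
        cases s <;> exact Iff.rfl
      rw [List.map_cons, this, p.opts_optsW]
      simp only [List.mem_map]
      constructor
      · rintro ⟨_, ⟨o, ho, rfl⟩, ht, hp⟩
        exact ⟨o, ho, fun x hx => ht _ (by simp only [optA, Option.mem_def] at *; simp [hx]), hp⟩
      · rintro ⟨o, ho, ht, hp⟩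
        refine ⟨_, ⟨o, ho, rfl⟩, ?_, hp⟩
        intro x hx
        simp only [optA, Option.mem_def, Option.map_eq_some_iff] at hx
        obtain ⟨y, hy, rfl⟩ := hx
        exact ht y hy
    rw [List.foldl_cons, run_iff S l]
    simp only [stepR, List.mem_flatMap, List.mem_map]
    constructor
    · rintro ⟨_, ⟨c, hc, o, ho, rfl⟩, ht, hp⟩
      refine ⟨c, hc, fun x hx => ht x (List.mem_append_left _ hx), (hpass _).2 ⟨o, ho, ?_, hp⟩⟩
      intro x hx
      exact ht x (List.mem_append_right _ (Option.mem_toList.2 hx))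
    · rintro ⟨c, hc, ht, hp⟩
      obtain ⟨o, ho, ht', hp⟩ := (hpass _).1 hp
      refine ⟨_, ⟨c, hc, o, ho, rfl⟩, ?_, hp⟩
      intro x hx
      rcases List.mem_append.1 hx with hx | hx
      · exact ht x hx
      · exact ht' x (Option.mem_toList.1 hx)

/-- The syntactic runs agree with the parse. -/
theorem pass_iff_runs (S : Set p.A) (l : List (Sy nG)) :
    Parse.Pass p.gI S (some 1) (l.map p.syAt) ↔ ∃ r ∈ runs l, ∀ a ∈ r, wev p.five a ∈ S := by
  rw [runs, p.run_iff S l]
  simp [stA]

/-- Weight of a word state. -/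
def stWt : StW → ℕ
  | some b => mu5 b
  | none => 0

theorem runs_weight_aux (B : ℕ) : ∀ (l : List (Sy nG)) (cs : List (List (Wd (Fin 5)) × StW)),
    (∀ c ∈ cs, stWt c.2 + syA l ≤ B ∧ ∀ a ∈ c.1, mu5 a ≤ B) →
      ∀ r ∈ (l.foldl stepR cs).filterMap (fun c => c.2.map fun b => c.1 ++ [b]), ∀ a ∈ r, mu5 a ≤ B
  | [], cs, h, r, hr, a, ha => by
    simp only [List.foldl_nil, List.mem_filterMap, Option.map_eq_some_iff] at hr
    obtain ⟨c, hc, b, hb, rfl⟩ := hr
    rcases List.mem_append.1 ha with ha | ha
    · exact (h c hc).2 a ha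
    · rw [List.mem_singleton] at ha
      subst ha
      have h1 := (h c hc).1
      rw [hb] at h1
      simp only [stWt] at h1
      omega
  | p :: l, cs, h, r, hr, a, ha => by
    rw [List.foldl_cons] at hr
    refine runs_weight_aux B l _ (fun c hc => ?_) r hr a ha
    simp only [stepR, List.mem_flatMap, List.mem_map] at hc
    obtain ⟨⟨t, s⟩, hts, o, ho, rfl⟩ := hc
    obtain ⟨h1, h2⟩ := h _ hts
    have key : stWt o.2 + syA l ≤ stWt s + syA (p :: l) ∧ ∀ x ∈ o.1, mu5 x ≤ stWt s + syA (p :: l) := by
      rcases s with _ | b <;> rcases p with w | w | ⟨j | _ | i, c⟩ <;> (try cases c) <;>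
        simp [optsW] at ho <;> (try rcases ho with rfl | rfl) <;> (try subst ho) <;>
        simp [stWt, syA, flW, mu5_append, mu5_winv] <;> (try omega)
      all_goals first | omega | (simp [mu5] <;> omega) | simp [mu5]
    refine ⟨le_trans key.1 h1, fun x hx => ?_⟩
    rcases List.mem_append.1 hx with hx | hx
    · exact h2 x hx
    · exact le_trans (key.2 x (Option.mem_toList.1 hx)) h1

/-- Every test on a run weighs at most the list. -/
theorem runs_weight {l : List (Sy nG)} {r : List (Wd (Fin 5))} (hr : r ∈ runs l) {a : Wd (Fin 5)}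
    (ha : a ∈ r) : mu5 a ≤ syA l :=
  runs_weight_aux (syA l) l _ (by simp [stWt, mu5]) r hr a ha

/-! ### Certified indices only -/

/-- An atom over the certified indices, read among all indices. -/
def atUp : Parse.Atom p.A p.G {i : Idx // p.C i} → Parse.Atom p.A p.G Idx
  | .a x => .a x
  | .g x => .g x
  | .l x => .l (Sum.map id (Option.map Subtype.val) x.1, x.2)

theorem opts_up (s : Parse.State p.A) (a : Parse.Atom p.A p.G {i : Idx // p.C i}) :
    Parse.opts p.gI s (p.atUp a) = Parse.opts p.gC s a := by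
  rcases s with _ | b <;> rcases a with x | x | ⟨j | _ | i, c⟩ <;> (try cases c) <;>
    simp [Parse.opts, atUp, gI, gC]

theorem pass_up (S : Set p.A) : ∀ (l : List (Parse.Atom p.A p.G {i : Idx // p.C i})) (s : Parse.State p.A),
    Parse.Pass p.gI S s (l.map p.atUp) ↔ Parse.Pass p.gC S s l
  | [], some _ => Iff.rfl
  | [], none => Iff.rfl
  | a :: l, some b => by
    show (∃ o ∈ Parse.opts p.gI (some b) (p.atUp a), _) ↔ (∃ o ∈ Parse.opts p.gC (some b) a, _)
    rw [p.opts_up]
    simp only [pass_up S l]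
  | a :: l, none => by
    show (∃ o ∈ Parse.opts p.gI none (p.atUp a), _) ↔ (∃ o ∈ Parse.opts p.gC none a, _)
    rw [p.opts_up]
    simp only [pass_up S l]

/-- The atom list over certified indices inside the base of `T`. -/
def ofCert : At.N3 p.A p.G (Parse.FL {i : Idx // p.C i}) →* EmbData.Base p.P2 :=
  Coprod.lift (Coprod.inl.comp Coprod.inl) (Coprod.lift (Coprod.inl.comp (Coprod.inr.comp Coprod.inl))
    (FreeGroup.lift fun x => match x with
      | .inl j => Coprod.inr (FreeGroup.of j)
      | .inr o => Coprod.inl (Coprod.inr (Coprod.inr (FreeGroup.of o)))))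

theorem toBig_ofCert : ∀ l : List (Parse.Atom p.A p.G {i : Idx // p.C i}),
    p.toBig (p.ofCert (At.eval l)) = At.eval (l.map p.atUp)
  | [] => by simp [At.eval]
  | a :: l => by
    rw [List.map_cons, Parse.eval_cons, Parse.eval_cons, map_mul, map_mul, toBig_ofCert l]
    congr 1
    rcases a with x | x | ⟨x, b⟩
    · simp [At.val, atUp, ofCert, toBig, p2Big]
    · simp [At.val, atUp, ofCert, toBig, p2Big]
    · have hf : ∀ y, (FreeGroup.mk [(y, false)] : FreeGroup (Parse.FL {i : Idx // p.C i})) =
          (FreeGroup.of y)⁻¹ := fun _ => rfl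
      have ht : ∀ y, (FreeGroup.mk [(y, true)] : FreeGroup (Parse.FL {i : Idx // p.C i})) =
          FreeGroup.of y := fun _ => rfl
      have hf' : ∀ y, (FreeGroup.mk [(y, false)] : FreeGroup (Parse.FL Idx)) = (FreeGroup.of y)⁻¹ :=
        fun _ => rfl
      have ht' : ∀ y, (FreeGroup.mk [(y, true)] : FreeGroup (Parse.FL Idx)) = FreeGroup.of y :=
        fun _ => rfl
      rcases x with j | o <;> cases b <;>
        simp [At.val, atUp, ofCert, toBig, p2Big, bigL, hf, ht, hf', ht']

theorem exists_down {l : List (Sy nG)} (h : p.syOk l) :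
    ∃ l' : List (Parse.Atom p.A p.G {i : Idx // p.C i}), l'.map p.atUp = l.map p.syAt := by
  induction l with
  | nil => exact ⟨[], rfl⟩
  | cons a l ih =>
    obtain ⟨l', hl⟩ := ih fun i b hi => h i b (List.mem_cons_of_mem _ hi)
    rcases a with w | w | ⟨j | _ | i, b⟩
    · exact ⟨.a (wev p.five w) :: l', by simp [atUp, syAt, hl]⟩
    · exact ⟨.g (wev p.gG w) :: l', by simp [atUp, syAt, hl]⟩
    · exact ⟨.l (.inl j, b) :: l', by simp [atUp, syAt, hl]⟩
    · exact ⟨.l (.inr none, b) :: l', by simp [atUp, syAt, hl]⟩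
    · exact ⟨.l (.inr (some ⟨i, h i b List.mem_cons_self⟩), b) :: l', by simp [atUp, syAt, hl]⟩

/-- A passing list gives an element of the base generated by the entries and the free letters. -/
theorem pass_withQ {l : List (Sy nG)} (hok : p.syOk l)
    (hp : Parse.Pass p.gI (Subgroup.closure (Set.range p.qv) : Set p.A) (some 1) (l.map p.syAt))
    {x : EmbData.Base p.P2} (hx : p.syEval l = p.toBig x) :
    x ∈ CoprodNF.withQ (Q := EmbData.F4) p.emb.valSub := by
  obtain ⟨l', hl⟩ := p.exists_down hok
  rw [← hl, p.pass_up] at hp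
  have hm := Parse.pass_mem p.gC p.qv (le_refl _) hp
  have e : x = p.ofCert (At.eval l') := by
    refine p.toBig_injective ?_
    rw [p.toBig_ofCert, hl, ← hx]
    rfl
  rw [e]
  refine (Subgroup.closure_le (K := (CoprodNF.withQ (Q := EmbData.F4) p.emb.valSub).comap p.ofCert)).2
    ?_ hm
  have gen : ∀ i : p.Ent, (Coprod.inl (p.entVal i) : EmbData.Base p.P2) ∈
      CoprodNF.withQ p.emb.valSub :=
    fun i => Subgroup.subset_closure (Or.inl ⟨_, Subgroup.subset_closure ⟨i, rfl⟩, rfl⟩)
  rintro _ ⟨n, rfl⟩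
  rw [SetLike.mem_coe, Subgroup.mem_comap]
  rcases n with j | i | i | j
  · simpa [Parse.gnVal, ofCert, entVal] using gen (.inl j)
  · simpa [Parse.gnVal, ofCert, entVal, yP] using gen (.inr (i, false))
  · simpa [Parse.gnVal, ofCert, entVal, yP, xP, gP, gC, mul_assoc] using gen (.inr (i, true))
  · exact Subgroup.subset_closure (Or.inr ⟨FreeGroup.of j, by simp [Parse.gnVal, ofCert]⟩)

/-- A letter of entries and free letters as a generator of the parse. -/
def entGn : p.Ent ⊕ Fin 4 → Parse.Gn Idx
  | .inr j => .f j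
  | .inl (.inl j) => .q j
  | .inl (.inr (i, false)) => .y i.1
  | .inl (.inr (i, true)) => .z i.1

/-- A word in entries and free letters as a word in generators of the parse. -/
def entWd (W : Wd (p.Ent ⊕ Fin 4)) : Wd (Parse.Gn Idx) := W.map fun l => (p.entGn l.1, l.2)

theorem wev_entWd (W : Wd (p.Ent ⊕ Fin 4)) :
    wev (Parse.gnVal (G := p.G) p.gI p.qv) (p.entWd W) =
      p.toBig (wev (EmbData.bl p.entVal) W) := by
  rw [entWd, wev_map, hom_wev p.toBig]
  congr 1
  funext c
  rcases c with (j | ⟨i, b⟩) | j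
  · simp [entGn, Parse.gnVal, EmbData.bl, entVal, toBig, p2Big]
  · cases b <;>
      simp [entGn, Parse.gnVal, EmbData.bl, entVal, toBig, p2Big, yP, xP, gP, gI, bigL, mul_assoc]
  · simp [entGn, Parse.gnVal, EmbData.bl, toBig, bigL]

theorem qCount_entWd (W : Wd (p.Ent ⊕ Fin 4)) :
    Parse.qCount (p.entWd W) * p.L0 ≤ wsum (EmbData.wB p.entW) W ∧
      ∀ i ∈ Parse.indices (p.entWd W), p.C i ∧
        8 * mu5 i.1 + Parse.qCount (p.entWd W) * p.L0 ≤ wsum (EmbData.wB p.entW) W := by
  induction W with
  | nil => simp [entWd, Parse.qCount, Parse.indices]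
  | cons a W ih =>
    obtain ⟨ih1, ih2⟩ := ih
    obtain ⟨c, b⟩ := a
    rcases c with (j | ⟨i, d⟩) | j
    · have hq : Parse.qCount (p.entWd ((Sum.inl (Sum.inl j), b) :: W)) =
          Parse.qCount (p.entWd W) + 1 := by simp [entWd, entGn, Parse.qCount]
      have hw : wsum (EmbData.wB p.entW) ((Sum.inl (Sum.inl j), b) :: W) =
          p.L0 + wsum (EmbData.wB p.entW) W := by simp [EmbData.wB, entW]
      rw [hq, hw, Nat.add_mul, Nat.one_mul]
      refine ⟨by omega, fun k hk => ?_⟩
      obtain ⟨h1, h2⟩ := ih2 k (by simpa [entWd, entGn, Parse.indices] using hk)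
      exact ⟨h1, by omega⟩
    · have hq : Parse.qCount (p.entWd ((Sum.inl (Sum.inr (i, d)), b) :: W)) =
          Parse.qCount (p.entWd W) := by cases d <;> simp [entWd, entGn, Parse.qCount]
      have hw : wsum (EmbData.wB p.entW) ((Sum.inl (Sum.inr (i, d)), b) :: W) =
          1 + 8 * mu5 i.1.1 + wsum (EmbData.wB p.entW) W := by simp [EmbData.wB, entW]
      rw [hq, hw]
      refine ⟨by omega, fun k hk => ?_⟩
      have hk' : k = i.1 ∨ k ∈ Parse.indices (p.entWd W) := by
        cases d <;> simpa [entWd, entGn, Parse.indices] using hk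
      rcases hk' with rfl | hk'
      · exact ⟨i.2, by omega⟩
      · obtain ⟨h1, h2⟩ := ih2 k hk'
        exact ⟨h1, by omega⟩
    · have hq : Parse.qCount (p.entWd ((Sum.inr j, b) :: W)) = Parse.qCount (p.entWd W) := by
        simp [entWd, entGn, Parse.qCount]
      rw [hq, wsum_cons]
      refine ⟨by omega, fun k hk => ?_⟩
      obtain ⟨h1, h2⟩ := ih2 k (by simpa [entWd, entGn, Parse.indices] using hk)
      exact ⟨h1, by omega⟩

end TPar

end

end Vale.P193
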