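import Vale.Agent.P193.Layer.TWords
import Vale.Agent.P193.Gen.EmbRedDefs

/-!
P193, M9: the tokens of `T` as an instance of the embedding interface, with the lower bound on the weights, and
the translation of token words into words in the input letters.
-/

namespace Vale.P193

noncomputable section

open Monoid

/-- Input letters as letters of `T`: five of `A`, `x`, five of `T`, generators of `G`. -/
def xTok {nG : ℕ} (a : Fin (11 + nG)) : EmbData.EL (TTok nG) :=
  if h : (a : ℕ) < 5 then .inl (.inl ⟨a, h⟩)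
  else if (a : ℕ) = 5 then .inl (.inr (.inr (.inl ())))
  else if h2 : (a : ℕ) < 11 then .inr ⟨(a : ℕ) - 6, by omega⟩
  else .inl (.inr (.inl ⟨(a : ℕ) - 11, by omega⟩))

/-- A letter among the five of `A`. -/
def inA {nG : ℕ} (w : Wd (Fin 5)) : Wd (Fin (11 + nG)) := w.map fun l => (⟨l.1, by omega⟩, l.2)

/-- A letter among the five of `T`. -/
def inF {nG : ℕ} (w : Wd (Fin 5)) : Wd (Fin (11 + nG)) := w.map fun l => (⟨6 + l.1, by omega⟩, l.2)

/-- The entry with the given code, when it comes from an index. -/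
def decEnt (n : ℕ) : Option (Idx × Bool) :=
  (Encodable.decode₂ Idx ((n - 5) / 2)).map fun i => (i, decide ((n - 5) % 2 = 1))

theorem decEnt_code (i : Idx) (b : Bool) :
    decEnt (5 + (2 * Encodable.encode i + b.toNat)) = some (i, b) := by
  have h1 : (5 + (2 * Encodable.encode i + b.toNat) - 5) / 2 = Encodable.encode i := by
    cases b <;> simp <;> omega
  have h2 : decide ((5 + (2 * Encodable.encode i + b.toNat) - 5) % 2 = 1) = b := by
    cases b <;> simp
  rw [decEnt, h1, h2, Encodable.decode₂_encode]; rfl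

theorem code_decEnt {n : ℕ} (hn : ¬ n < 5) {i : Idx} {b : Bool} (h : decEnt n = some (i, b)) :
    5 + (2 * Encodable.encode i + b.toNat) = n := by
  simp only [decEnt, Option.map_eq_some_iff] at h
  obtain ⟨j, hj, he⟩ := h
  rw [Encodable.decode₂_eq_some] at hj
  simp only [Prod.mk.injEq] at he
  obtain ⟨rfl, rfl⟩ := he
  rw [hj]
  by_cases h2 : (n - 5) % 2 = 1 <;> simp [h2] <;> omega

namespace TPar

variable {nG : ℕ} (p : TPar nG) [DecidablePred p.C] (qW : Fin 5 → Wd (Fin 5))

/-- Weights and tokens of the entries, from their codes. -/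
def codes : EmbData.Codes (TTok nG) where
  tw := p.tokW
  wt n := if n < 5 then some p.L0 else (decEnt n).bind fun x => if p.C x.1 then some (1 + 8 * mu5 x.1.1) else none
  rep n := if h : n < 5 then [(.inr (.inr (.inr (.inl ⟨n, h⟩))), true)]
    else ((decEnt n).map fun x => [((.inr (.inr (.inr (.inr x))) : TTok nG), true)]).getD []

theorem wt_iff (n k : ℕ) :
    p.codes.wt n = some k ↔ ∃ i : p.Ent, p.entCode i = n ∧ p.entW i = k := by
  constructor
  · intro h
    by_cases hn : n < 5
    · simp [codes, hn] at h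
      exact ⟨.inl ⟨n, hn⟩, rfl, h⟩
    · simp only [codes, if_neg hn, Option.bind_eq_some_iff] at h
      obtain ⟨⟨i, b⟩, hd, h⟩ := h
      by_cases hC : p.C i
      · rw [if_pos hC, Option.some_inj] at h
        exact ⟨.inr (⟨i, hC⟩, b), code_decEnt hn hd, h⟩
      · simp [hC] at h
  · rintro ⟨j | ⟨⟨i, hC⟩, b⟩, rfl, rfl⟩
    · simp [codes, entCode, entW]
    · have hn : ¬ p.entCode (.inr (⟨i, hC⟩, b)) < 5 := by simp [entCode]
      simp only [codes, if_neg hn]
      simp [entCode, decEnt_code, hC, entW]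

theorem rep_val (i : p.Ent) : wev p.tokVal (p.codes.rep (p.entCode i)) = p.entVal i := by
  rcases i with j | ⟨⟨i, hC⟩, b⟩
  · simp [codes, entCode, wev_pos, tokVal, entVal]
  · have hn : ¬ p.entCode (.inr (⟨i, hC⟩, b)) < 5 := by simp [entCode]
    simp only [codes, dif_neg hn]
    simp [entCode, decEnt_code, wev_pos, tokVal, hC]

theorem rep_w (i : p.Ent) : wsum p.tokW (p.codes.rep (p.entCode i)) ≤ p.entW i := by
  rcases i with j | ⟨⟨i, hC⟩, b⟩
  · simp [codes, entCode, tokW, entW]
  · have hn : ¬ p.entCode (.inr (⟨i, hC⟩, b)) < 5 := by simp [entCode]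
    simp only [codes, dif_neg hn]
    simp [entCode, decEnt_code, tokW, entW]

/-- Projection to `A`. -/
def toA : p.P2 →* p.A := Coprod.lift (MonoidHom.id _) 1

/-- A token read in `A`. -/
def tokA : TTok nG → Wd (Fin 5)
  | .inl j => [(j, true)]
  | .inr (.inr (.inr (.inr (i, true)))) => if p.C i then i.1 else []
  | _ => []

theorem lbound (hq : ∀ j u, wev p.five u = p.qv j → p.L0 ≤ mu5 u) (i : p.Ent) (v : Wd (TTok nG))
    (hv : wev p.tokVal v = p.entVal i) : p.entW i ≤ wsum p.tokW v := by
  classical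
  rcases i with j | ⟨⟨i, hC⟩, b⟩
  · suffices ∀ v : Wd (TTok nG), wsum p.tokW v < p.L0 →
        ∃ u, wev p.five u = p.toA (wev p.tokVal v) ∧ mu5 u ≤ wsum p.tokW v by
      by_contra hlt
      rw [not_le] at hlt
      obtain ⟨u, hu, hw⟩ := this v hlt
      rw [hv] at hu
      have := hq j u (by simpa [toA, entVal] using hu)
      simp only [entW] at hlt
      omega
    intro v
    induction v with
    | nil => exact fun _ => ⟨[], by simp, by simp [mu5]⟩
    | cons l v ih =>
      intro h
      rw [wsum_cons] at h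
      obtain ⟨u, hu, hw⟩ := ih (by omega)
      obtain ⟨τ, c⟩ := l
      have hτ : wev p.five (p.tokA τ) = p.toA (p.tokVal τ) ∧ mu5 (p.tokA τ) ≤ p.tokW τ := by
        rcases τ with j | a | x | j | ⟨k, d⟩
        · constructor
          · simp [tokA, toA, tokVal, wev_pos]
          · simp only [tokA, tokW, mu5]
            by_cases h : j = 2 ∨ j = 3
            · rcases h with rfl | rfl <;> simp
            · simp [not_or.1 h]
        · simp [tokA, toA, tokVal, mu5]
        · simp [tokA, toA, tokVal, mu5, xP]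
        · simp only [tokW] at h; omega
        · by_cases hk : p.C k <;> cases d <;> simp [tokA, tokVal, tokW, hk, toA, entVal, yP, xP, gP, mu5]
          have := k.1.countP_le_length (p := fun l => l.1 == 2 || l.1 == 3)
          omega
      cases c
      · refine ⟨winv (p.tokA τ) ++ u, ?_, ?_⟩
        · rw [wev_append, wev_winv, hτ.1, hu, wev_cons p.tokVal, map_mul, wev_neg, map_inv]
        · rw [mu5_append, mu5_winv, wsum_cons]; dsimp only; omega
      · refine ⟨p.tokA τ ++ u, ?_, ?_⟩
        · rw [wev_append, hτ.1, hu, wev_cons p.tokVal, map_mul, wev_pos]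
        · rw [mu5_append, wsum_cons]; dsimp only; omega
  · let χ : p.P2 →* Multiplicative ℤ := Coprod.lift 1 (Coprod.lift 1 (FreeGroup.lift fun k =>
      if k = some (⟨i, hC⟩ : {i : Idx // p.C i}) then Multiplicative.ofAdd (1 : ℤ) else 1))
    have hne : χ (p.entVal (.inr (⟨i, hC⟩, b))) ≠ 1 := by
      cases b <;> simp [χ, entVal, yP, xP, gP]
    suffices ∀ v : Wd (TTok nG), χ (wev p.tokVal v) ≠ 1 → 1 + 8 * mu5 i.1 ≤ wsum p.tokW v from
      this v (hv ▸ hne)
    intro v
    induction v with
    | nil => simp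
    | cons l v ih =>
      intro h
      rw [wsum_cons]
      rw [wev_cons p.tokVal, map_mul] at h
      by_cases h0 : χ (wev p.tokVal [l]) = 1
      · rw [h0, one_mul] at h
        have := ih h
        omega
      · obtain ⟨τ, c⟩ := l
        have hc : χ (p.tokVal τ) ≠ 1 := fun e => h0 (by cases c <;> simp [wev_pos, wev_neg, e])
        rcases τ with j | a | x | j | ⟨k, d⟩
        · simp [χ, tokVal] at hc
        · simp [χ, tokVal] at hc
        · simp [χ, tokVal, xP] at hc
        · simp [χ, tokVal] at hc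
        · by_cases hk : p.C k
          · have : k = i := by
              by_contra hne'
              cases d <;> simp [χ, tokVal, hk, entVal, yP, xP, gP, hne'] at hc
            subst this
            simp [tokW]
          · simp [tokVal, hk] at hc

/-- The tokens of `T`. -/
def toks (hq : ∀ j u, wev p.five u = p.qv j → p.L0 ≤ mu5 u) : EmbData.Toks p.emb (TTok nG) where
  tv := p.tokVal
  C := p.codes
  wt_iff := p.wt_iff
  rep_val := p.rep_val
  rep_w := p.rep_w
  lb := p.lbound hq

/-- A letter of the token alphabet as an input word. -/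
def subL : EmbData.EL (TTok nG) → Wd (Fin (11 + nG))
  | .inr j => inF [(j, true)]
  | .inl (.inl j) => inA [(j, true)]
  | .inl (.inr (.inl a)) => [(⟨11 + a, by omega⟩, true)]
  | .inl (.inr (.inr (.inl _))) => [(⟨5, by omega⟩, true)]
  | .inl (.inr (.inr (.inr (.inl j)))) => inA (qW j)
  | .inl (.inr (.inr (.inr (.inr (i, b))))) =>
    if p.C i then inF (yWord (5 + (2 * Encodable.encode i + b.toNat)) (1 + 8 * mu5 i.1)) else []

/-- Substitution into the input letters. -/
def sub (w : Wd (EmbData.EL (TTok nG))) : Wd (Fin (11 + nG)) :=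
  w.flatMap fun l => if l.2 then p.subL qW l.1 else winv (p.subL qW l.1)

/-- Derivably trivial in `T`. -/
def DrT (w : Wd (EmbData.EL (TTok nG))) : Prop := p.piT (FreeGroup.mk (p.sub qW w)) = 1

omit [DecidablePred p.C] in
theorem eVal_xTok (a : Fin (11 + nG)) : p.emb.eVal p.tokVal (xTok a) = p.tVal a := by
  simp only [xTok, tVal]
  split_ifs <;> rfl

omit [DecidablePred p.C] in
theorem wev_yWord (i : p.Ent) :
    wev p.emb.five (yWord (p.entCode i) (p.entW i)) = p.emb.inP (p.entVal i) := by
  have h := p.emb.t_conj i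
  have e5 : ∀ j : Fin 4, p.emb.five j.castSucc = HNNExtension.of (Coprod.inr (FreeGroup.of j)) := by
    intro j; simp [EmbData.five, j.isLt]
  have e0 := e5 0; have e1 := e5 1; have e2 := e5 2; have e3 := e5 3
  simp only [Fin.castSucc_zero] at e0
  have e4 : p.emb.five 4 = HNNExtension.t := by simp [EmbData.five]
  have hr : ∀ (j : Fin 5) (k : ℕ) (b : Bool),
      wev p.emb.five (List.replicate k (j, b)) = cond b (p.emb.five j) (p.emb.five j)⁻¹ ^ k :=
    fun j k b => wev_replicate _ k j b
  simp only [yWord, wev_append, hr, wev_pos, wev_neg, cond_true, cond_false]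
  rw [e0, show p.emb.five 1 = _ from e1, show p.emb.five 2 = _ from e2, show p.emb.five 3 = _ from e3, e4]
  simp only [inv_pow]
  have hf : ∀ (x : p.emb.Emb) (a e c f v : p.emb.Emb), x * a = c * f * v * f * c⁻¹ * x →
      e = a → f⁻¹ * c⁻¹ * x * e * x⁻¹ * c * f⁻¹ = v := by
    rintro x a e c f v h rfl
    have he : e = x⁻¹ * (c * f * v * f * c⁻¹ * x) := by rw [← h]; group
    rw [he]; group
  have ha : (HNNExtension.of (p.emb.aGen i) : p.emb.Emb) =
      HNNExtension.of (Coprod.inr (FreeGroup.of 0)) ^ p.entCode i *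
        HNNExtension.of (Coprod.inr (FreeGroup.of 2)) ^ (p.entW i + 2) *
        (HNNExtension.of (Coprod.inr (FreeGroup.of 0)) ^ p.entCode i)⁻¹ := by
    show ((HNNExtension.of : EmbData.Base p.P2 →* p.emb.Emb).comp Coprod.inr) _ = _
    simp only [map_mul, map_inv, map_pow]; rfl
  have hb : (HNNExtension.of (p.emb.bGen i) : p.emb.Emb) =
      HNNExtension.of (Coprod.inr (FreeGroup.of 1)) ^ p.entCode i * HNNExtension.of (Coprod.inr (FreeGroup.of 3)) *
        p.emb.inP (p.entVal i) * HNNExtension.of (Coprod.inr (FreeGroup.of 3)) *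
        (HNNExtension.of (Coprod.inr (FreeGroup.of 1)) ^ p.entCode i)⁻¹ := by
    have e : ∀ (x y : FreeGroup (Fin 4)) (v : p.P2),
        (HNNExtension.of (Coprod.inr x * Coprod.inl v * Coprod.inr y) : p.emb.Emb) =
          (HNNExtension.of.comp Coprod.inr) x * p.emb.inP v * (HNNExtension.of.comp Coprod.inr) y := by
      intro x y v; rw [map_mul, map_mul]; rfl
    refine (e _ _ _).trans ?_
    simp only [map_mul, map_inv, map_pow, mul_assoc]; rfl
  rw [hb] at h
  rw [← hf _ _ _ _ _ _ h ha.symm]
  simp [mul_assoc]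

theorem piT_sub (hqv : ∀ j, wev p.five (qW j) = p.qv j) (w : Wd (EmbData.EL (TTok nG))) :
    p.piT (FreeGroup.mk (p.sub qW w)) = wev (p.emb.eVal p.tokVal) w := by
  show wev p.tVal (p.sub qW w) = _
  refine wev_flatMap p.tVal _ (p.emb.eVal p.tokVal) (fun l => ?_) w
  have hA : ∀ u, wev p.tVal (inA (nG := nG) u) = p.emb.inP (Coprod.inl (wev p.five u)) := by
    intro u
    rw [inA, wev_map p.tVal (fun j : Fin 5 => (⟨j, by omega⟩ : Fin (11 + nG)))]
    rw [hom_wev (Coprod.inl : p.A →* p.P2), hom_wev]
    congr 1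
    funext j
    simp [tVal]
  have hF : ∀ u, wev p.tVal (inF (nG := nG) u) = wev p.emb.five u := by
    intro u
    rw [inF, wev_map p.tVal (fun j : Fin 5 => (⟨6 + j, by omega⟩ : Fin (11 + nG)))]
    congr 1
    funext j
    have hj := j.isLt
    simp [tVal, show 6 + (j : ℕ) < 11 from by omega, show ¬ 6 + (j : ℕ) = 5 from by omega,
      show ¬ 6 + (j : ℕ) < 5 from by omega]
  obtain ⟨τ, c⟩ := l
  have key : wev p.tVal (p.subL qW τ) = p.emb.eVal p.tokVal τ := by
    rcases τ with (j | a | x | j | ⟨i, b⟩) | j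
    · simp [subL, hA, wev_pos, EmbData.eVal, tokVal]
    · simp [subL, wev_pos, EmbData.eVal, tokVal, tVal, show ¬ 11 + (a : ℕ) < 5 from by omega,
        show ¬ 11 + (a : ℕ) = 5 from by omega, show ¬ 11 + (a : ℕ) < 11 from by omega]
    · simp [subL, wev_pos, EmbData.eVal, tokVal, tVal]
    · simp [subL, hA, EmbData.eVal, tokVal, hqv]
    · by_cases h : p.C i
      · simp only [subL, if_pos h, hF, EmbData.eVal, tokVal, dif_pos h]
        exact p.wev_yWord (.inr (⟨i, h⟩, b))
      · simp [subL, h, EmbData.eVal, tokVal]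
    · simp [subL, hF, wev_pos, EmbData.eVal]
  cases c
  · rw [if_neg (by simp), wev_winv, key, wev_neg]
  · rw [if_pos rfl, key, wev_pos]

theorem drT_iff (hqv : ∀ j, wev p.five (qW j) = p.qv j) (w : Wd (EmbData.EL (TTok nG))) :
    p.DrT qW w ↔ wev (p.emb.eVal p.tokVal) w = 1 := by
  rw [DrT, p.piT_sub qW hqv]

end TPar

end

end Vale.P193
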