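import Vale.Agent.P193.Layer.TDefs
import Vale.Agent.P193.Layer.ParseDefs
import Vale.Agent.P193.Gen.EmbWeight
import Mathlib.Tactic.Group

/-!
P193, M9: words of a segment of `T` expanded into atoms of `A ∗ G ∗ F(Fin 4 ⊕ Option Idx)`, with weights, and
the existence of normal lists of no bigger weight.
-/

namespace Vale.P193

noncomputable section

open Monoid

/-- Tokens of `T`: five letters of `A`, letters of `G`, the letter `x`, entries (`q_j`, `y_i`, `z_i`). -/
abbrev TTok (nG : ℕ) := Fin 5 ⊕ (Fin nG ⊕ (Unit ⊕ (Fin 5 ⊕ (Idx × Bool))))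

/-- Syntactic atoms. -/
abbrev Sy (nG : ℕ) := Wd (Fin 5) ⊕ (Wd (Fin nG) ⊕ (Parse.FL Idx × Bool))

/-- Inverse of an atom. -/
def Sy.inv {nG : ℕ} : Sy nG → Sy nG
  | .inl w => .inl (winv w)
  | .inr (.inl w) => .inr (.inl (winv w))
  | .inr (.inr x) => .inr (.inr (x.1, !x.2))

namespace TPar

variable {nG : ℕ} (p : TPar nG)

/-- The big group `A ∗ G ∗ F(Fin 4 ⊕ Option Idx)`: every index has its letter. -/
abbrev Big : Type := At.N3 p.A p.G (Parse.FL Idx)

/-- The letter of the big group. -/
def bigL (x : Parse.FL Idx) : p.Big := Coprod.inr (Coprod.inr (FreeGroup.of x))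

/-- `P2` inside the big group. -/
def p2Big : p.P2 →* p.Big :=
  Coprod.lift Coprod.inl (Coprod.lift (Coprod.inr.comp Coprod.inl)
    (FreeGroup.lift fun i => p.bigL (.inr (i.map Subtype.val))))

/-- The base of `T` inside the big group. -/
def toBig : EmbData.Base p.P2 →* p.Big :=
  Coprod.lift p.p2Big (FreeGroup.lift fun j => p.bigL (.inl j))

open Classical in
/-- The retraction. -/
def fromBig : p.Big →* EmbData.Base p.P2 :=
  Coprod.lift (Coprod.inl.comp Coprod.inl) (Coprod.lift (Coprod.inl.comp (Coprod.inr.comp Coprod.inl))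
    (FreeGroup.lift fun x => match x with
      | .inl j => Coprod.inr (FreeGroup.of j)
      | .inr none => Coprod.inl p.xP
      | .inr (some i) => if h : p.C i then Coprod.inl (p.yP ⟨i, h⟩) else 1))

theorem fromBig_toBig : p.fromBig.comp p.toBig = MonoidHom.id _ := by
  refine Coprod.hom_ext (Coprod.hom_ext ?_ (Coprod.hom_ext ?_ (FreeGroup.ext_hom _ _ fun i => ?_)))
    (FreeGroup.ext_hom _ _ fun j => ?_)
  · ext a; simp [toBig, p2Big, fromBig]
  · ext a; simp [toBig, p2Big, fromBig]
  · rcases i with _ | ⟨i, h⟩
    · simp [toBig, p2Big, fromBig, bigL, xP]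
    · simp [toBig, p2Big, fromBig, bigL, yP, h]
  · simp [toBig, fromBig, bigL]

theorem toBig_injective : Function.Injective p.toBig := fun a b h => by
  have h' := congrArg p.fromBig h
  simpa [← MonoidHom.comp_apply, p.fromBig_toBig] using h'

/-- The atom of a syntactic atom. -/
def syAt : Sy nG → Parse.Atom p.A p.G Idx
  | .inl w => .a (wev p.five w)
  | .inr (.inl w) => .g (wev p.gG w)
  | .inr (.inr x) => .l x

/-- Value of a syntactic list. -/
def syEval (l : List (Sy nG)) : p.Big := At.eval (l.map p.syAt)

@[simp] theorem syEval_nil : p.syEval [] = 1 := by simp [syEval, At.eval]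

theorem syEval_cons (s : Sy nG) (l : List (Sy nG)) : p.syEval (s :: l) = At.val (p.syAt s) * p.syEval l := by
  simp [syEval, At.eval]

theorem syEval_append (l l' : List (Sy nG)) : p.syEval (l ++ l') = p.syEval l * p.syEval l' := by
  simp [syEval, At.eval]

theorem syEval_inv (l : List (Sy nG)) : p.syEval ((l.map Sy.inv).reverse) = (p.syEval l)⁻¹ := by
  induction l with
  | nil => simp
  | cons s l ih =>
    rw [List.map_cons, List.reverse_cons, syEval_append, ih, syEval_cons, syEval_cons, syEval_nil, mul_inv_rev,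
      mul_one]
    congr 1
    rcases s with w | w | ⟨x, b⟩
    · simp [Sy.inv, syAt, At.val, wev_winv]
    · simp [Sy.inv, syAt, At.val, wev_winv]
    · simp only [Sy.inv, syAt, At.val, ← map_inv, FreeGroup.inv_mk]
      simp [FreeGroup.invRev]

end TPar

/-- Weight of a letter: twice that of its certified word. -/
def flW : Parse.FL Idx × Bool → ℕ
  | (.inr (some i), _) => 2 * mu5 i.1
  | _ => 0

/-- Total weight: the `A` atoms and the indices of the letters. -/
def syA {nG : ℕ} : List (Sy nG) → ℕ
  | [] => 0
  | .inl w :: l => mu5 w + syA l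
  | .inr (.inl _) :: l => syA l
  | .inr (.inr x) :: l => flW x + syA l

theorem flW_bool (i : Parse.FL Idx) (b c : Bool) : flW (i, b) = flW (i, c) := by
  rcases i with j | _ | i <;> rfl

/-- Total `G` length. -/
def syG {nG : ℕ} : List (Sy nG) → ℕ
  | [] => 0
  | .inr (.inl w) :: l => w.length + syG l
  | _ :: l => syG l

theorem syA_append {nG : ℕ} (l l' : List (Sy nG)) : syA (l ++ l') = syA l + syA l' := by
  induction l with
  | nil => simp [syA]
  | cons s l ih => rcases s with w | w | x <;> simp [syA, ih, Nat.add_assoc]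

theorem syG_append {nG : ℕ} (l l' : List (Sy nG)) : syG (l ++ l') = syG l + syG l' := by
  induction l with
  | nil => simp [syG]
  | cons s l ih => rcases s with w | w | x <;> simp [syG, ih, Nat.add_assoc]

theorem mu5_append (u v : Wd (Fin 5)) : mu5 (u ++ v) = mu5 u + mu5 v := by simp [mu5]

theorem mu5_winv (u : Wd (Fin 5)) : mu5 (winv u) = mu5 u := by
  simp [mu5, winv, List.countP_map, Function.comp_def]

namespace TPar

variable {nG : ℕ} (p : TPar nG)

/-- The certified letters of a list. -/
def syOk (l : List (Sy nG)) : Prop := ∀ i b, (.inr (.inr (.inr (some i), b)) : Sy nG) ∈ l → p.C i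

theorem exists_normal (l : List (Sy nG)) :
    ∃ l', At.Normal (l'.map p.syAt) ∧ p.syEval l' = p.syEval l ∧ syA l' ≤ syA l ∧ syG l' ≤ syG l ∧
      (p.syOk l → p.syOk l') := by
  classical
  induction l with
  | nil => exact ⟨[], trivial, rfl, le_rfl, le_rfl, id⟩
  | cons s l ih =>
    obtain ⟨l', hn, he, ha, hg, hok⟩ := ih
    have okc : ∀ (s : Sy nG) (m : List (Sy nG)), (∀ t ∈ m, t ∈ l' ∨ t = s ∨ ¬ ∃ x, t = .inr (.inr x)) →
        p.syOk (s :: l) → p.syOk m := by
      intro s m hm h i b hi
      rcases hm _ hi with h1 | rfl | h3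
      · exact hok (fun i b hi => h i b (List.mem_cons_of_mem _ hi)) i b h1
      · exact h i b List.mem_cons_self
      · exact absurd ⟨_, rfl⟩ h3
    rcases s with w | w | x
    · by_cases hw : ∃ w' l'', l' = .inl w' :: l''
      · obtain ⟨w', l'', rfl⟩ := hw
        by_cases h1 : wev p.five (w ++ w') = 1
        · refine ⟨l'', hn.tail, ?_, ?_, ?_, okc _ _ fun t ht => Or.inl (List.mem_cons_of_mem _ ht)⟩
          · rw [syEval_cons, ← he, syEval_cons, ← mul_assoc]
            simp [syAt, At.val, ← map_mul, ← wev_append, h1]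
          · simp [syA] at ha ⊢; omega
          · simp [syG] at hg ⊢; omega
        · refine ⟨.inl (w ++ w') :: l'', ?_, ?_, ?_, ?_, okc _ _ ?_⟩
          · exact ⟨h1, fun q hq => by have := hn.2.1 q hq; cases q <;> exact this, hn.tail⟩
          · rw [syEval_cons, syEval_cons, ← he, syEval_cons, ← mul_assoc]
            simp [syAt, At.val, ← map_mul, ← wev_append]
          · simp [syA, mu5_append] at ha ⊢; omega
          · simp [syG] at hg ⊢; omega
          · intro t ht
            rcases List.mem_cons.1 ht with rfl | ht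
            · exact Or.inr (Or.inr (by simp))
            · exact Or.inl (List.mem_cons_of_mem _ ht)
      · by_cases h1 : wev p.five w = 1
        · refine ⟨l', hn, ?_, by simp [syA]; omega, by simpa [syG] using hg, okc _ _ fun t ht => Or.inl ht⟩
          rw [syEval_cons, ← he]; simp [syAt, At.val, h1]
        · refine ⟨.inl w :: l', ⟨h1, ?_, hn⟩, by rw [syEval_cons, syEval_cons, he], ?_, ?_, okc _ _ ?_⟩
          · intro q hq
            rcases l' with _ | ⟨s', l''⟩
            · simp at hq
            · simp at hq; subst hq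
              rcases s' with w' | w' | x'
              · exact absurd ⟨w', l'', rfl⟩ hw
              all_goals simp [syAt, At.Ok]
          · simp [syA]; omega
          · simpa [syG] using hg
          · intro t ht; rcases List.mem_cons.1 ht with rfl | ht
            · exact Or.inr (Or.inl rfl)
            · exact Or.inl ht
    · by_cases hw : ∃ w' l'', l' = .inr (.inl w') :: l''
      · obtain ⟨w', l'', rfl⟩ := hw
        by_cases h1 : wev p.gG (w ++ w') = 1
        · refine ⟨l'', hn.tail, ?_, ?_, ?_, okc _ _ fun t ht => Or.inl (List.mem_cons_of_mem _ ht)⟩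
          · rw [syEval_cons, ← he, syEval_cons, ← mul_assoc]
            simp [syAt, At.val, ← map_mul, ← wev_append, h1]
          · simp [syA] at ha ⊢; omega
          · simp [syG] at hg ⊢; omega
        · refine ⟨.inr (.inl (w ++ w')) :: l'', ?_, ?_, ?_, ?_, okc _ _ ?_⟩
          · exact ⟨h1, fun q hq => by have := hn.2.1 q hq; cases q <;> exact this, hn.tail⟩
          · rw [syEval_cons, syEval_cons, ← he, syEval_cons, ← mul_assoc]
            simp [syAt, At.val, ← map_mul, ← wev_append]
          · simp [syA] at ha ⊢; omega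
          · simp [syG] at hg ⊢; omega
          · intro t ht
            rcases List.mem_cons.1 ht with rfl | ht
            · exact Or.inr (Or.inr (by simp))
            · exact Or.inl (List.mem_cons_of_mem _ ht)
      · by_cases h1 : wev p.gG w = 1
        · refine ⟨l', hn, ?_, by simpa [syA] using ha, by simp [syG]; omega, okc _ _ fun t ht => Or.inl ht⟩
          rw [syEval_cons, ← he]; simp [syAt, At.val, h1]
        · refine ⟨.inr (.inl w) :: l', ⟨h1, ?_, hn⟩, by rw [syEval_cons, syEval_cons, he], ?_, ?_, okc _ _ ?_⟩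
          · intro q hq
            rcases l' with _ | ⟨s', l''⟩
            · simp at hq
            · simp at hq; subst hq
              rcases s' with w' | w' | x'
              · simp [syAt, At.Ok]
              · exact absurd ⟨w', l'', rfl⟩ hw
              · simp [syAt, At.Ok]
          · simpa [syA] using ha
          · simp [syG]; omega
          · intro t ht; rcases List.mem_cons.1 ht with rfl | ht
            · exact Or.inr (Or.inl rfl)
            · exact Or.inl ht
    · obtain ⟨i, b⟩ := x
      by_cases hw : ∃ l'', l' = .inr (.inr (i, !b)) :: l''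
      · obtain ⟨l'', rfl⟩ := hw
        refine ⟨l'', hn.tail, ?_, by simp only [syA] at ha ⊢; omega, by simpa [syG] using hg,
          okc _ _ fun t ht => Or.inl (List.mem_cons_of_mem _ ht)⟩
        rw [syEval_cons, ← he, syEval_cons, ← mul_assoc]
        simp only [syAt, At.val, ← map_mul, FreeGroup.mul_mk]
        rw [show FreeGroup.mk ([(i, b)] ++ [(i, !b)]) = (1 : FreeGroup (Parse.FL Idx)) from by
          rw [FreeGroup.one_eq_mk]; exact Quot.sound (FreeGroup.Red.Step.not (L₁ := []) (L₂ := []))]
        simp
      · refine ⟨.inr (.inr (i, b)) :: l', ⟨trivial, ?_, hn⟩, by rw [syEval_cons, syEval_cons, he],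
          by simp only [syA] at ha ⊢; omega, by simpa [syG] using hg, okc _ _ ?_⟩
        · intro q hq
          rcases l' with _ | ⟨s', l''⟩
          · simp at hq
          · simp at hq; subst hq
            rcases s' with w' | w' | ⟨j, c⟩
            · simp [syAt, At.Ok]
            · simp [syAt, At.Ok]
            · simp only [syAt, At.Ok]
              rintro rfl
              by_contra hbc
              exact hw ⟨l'', by cases b <;> cases c <;> simp_all⟩
        · intro t ht; rcases List.mem_cons.1 ht with rfl | ht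
          · exact Or.inr (Or.inl rfl)
          · exact Or.inl ht

end TPar

/-- Expansion of a token. -/
def expTok {nG : ℕ} (p : TPar nG) [DecidablePred p.C] (qW : Fin 5 → Wd (Fin 5)) :
    TTok nG ⊕ Fin 4 → List (Sy nG)
  | .inl (.inl j) => [.inl [(j, true)]]
  | .inl (.inr (.inl a)) => [.inr (.inl [(a, true)])]
  | .inl (.inr (.inr (.inl _))) => [.inr (.inr (.inr none, true))]
  | .inl (.inr (.inr (.inr (.inl j)))) => [.inl (qW j)]
  | .inl (.inr (.inr (.inr (.inr (i, false))))) =>
    if p.C i then [.inr (.inr (.inr (some i), true))] else []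
  | .inl (.inr (.inr (.inr (.inr (i, true))))) =>
    if p.C i then [.inr (.inr (.inr none, false)), .inr (.inr (.inr (some i), false)), .inl i.1] else []
  | .inr j => [.inr (.inr (.inl j, true))]

/-- Expansion of a segment word. -/
def expWd {nG : ℕ} (p : TPar nG) [DecidablePred p.C] (qW : Fin 5 → Wd (Fin 5))
    (s : Wd (TTok nG ⊕ Fin 4)) : List (Sy nG) :=
  s.flatMap fun l => if l.2 then expTok p qW l.1 else ((expTok p qW l.1).map Sy.inv).reverse

namespace TPar

variable {nG : ℕ} (p : TPar nG)

open Classical in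
/-- Value of a token. -/
def tokVal : TTok nG → p.P2
  | .inl j => Coprod.inl (p.five j)
  | .inr (.inl a) => Coprod.inr (Coprod.inl (p.gG a))
  | .inr (.inr (.inl _)) => p.xP
  | .inr (.inr (.inr (.inl j))) => Coprod.inl (p.qv j)
  | .inr (.inr (.inr (.inr (i, b)))) => if h : p.C i then p.entVal (.inr (⟨i, h⟩, b)) else 1

/-- Weight of a token. -/
def tokW : TTok nG → ℕ
  | .inl j => if j = 2 ∨ j = 3 then 1 else 0
  | .inr (.inl _) => 1
  | .inr (.inr (.inl _)) => 1
  | .inr (.inr (.inr (.inl _))) => p.L0
  | .inr (.inr (.inr (.inr (i, _)))) => 1 + 8 * mu5 i.1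

/-- Value of a segment letter. -/
abbrev segLet : TTok nG ⊕ Fin 4 → EmbData.Base p.P2 := EmbData.bl p.tokVal

/-- Weight of a segment. -/
abbrev segW (s : Wd (TTok nG ⊕ Fin 4)) : ℕ := wsum (EmbData.wB p.tokW) s

variable [DecidablePred p.C] (qW : Fin 5 → Wd (Fin 5))

theorem syEval_expTok (hq : ∀ j, wev p.five (qW j) = p.qv j) (τ : TTok nG ⊕ Fin 4) :
    p.syEval (expTok p qW τ) = p.toBig (p.segLet τ) := by
  rcases τ with (j | a | u | j | ⟨i, b⟩) | j
  · simp [expTok, syEval_cons, syAt, At.val, segLet, EmbData.bl, tokVal, toBig, p2Big, wev_pos]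
  · simp [expTok, syEval_cons, syAt, At.val, segLet, EmbData.bl, tokVal, toBig, p2Big, wev_pos]
  · simp [expTok, syEval_cons, syAt, At.val, segLet, EmbData.bl, tokVal, toBig, p2Big, xP, bigL, FreeGroup.of]
  · simp [expTok, syEval_cons, syAt, At.val, segLet, EmbData.bl, tokVal, toBig, p2Big, hq]
  · by_cases h : p.C i
    · cases b
      · simp [expTok, h, syEval_cons, syAt, At.val, segLet, EmbData.bl, tokVal, toBig, p2Big, entVal, yP, bigL, FreeGroup.of]
      · simp [expTok, h, syEval_cons, syAt, At.val, segLet, EmbData.bl, tokVal, toBig, p2Big, entVal, yP, xP, gP, bigL,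
          mul_assoc]
        congr 1
    · cases b <;> simp [expTok, h, segLet, EmbData.bl, tokVal]
  · simp [expTok, syEval_cons, syAt, At.val, segLet, EmbData.bl, toBig, bigL, FreeGroup.of]

theorem syEval_expWd (hq : ∀ j, wev p.five (qW j) = p.qv j) (s : Wd (TTok nG ⊕ Fin 4)) :
    p.syEval (expWd p qW s) = p.toBig (wev p.segLet s) := by
  induction s with
  | nil => simp [expWd]
  | cons l s ih =>
    have : expWd p qW (l :: s) =
        (if l.2 then expTok p qW l.1 else ((expTok p qW l.1).map Sy.inv).reverse) ++ expWd p qW s := rfl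
    rw [this, syEval_append, ih, wev_cons, map_mul]
    congr 1
    obtain ⟨τ, b⟩ := l
    cases b
    · rw [if_neg (by simp), syEval_inv, syEval_expTok p qW hq, wev_neg, map_inv]
    · rw [if_pos rfl, syEval_expTok p qW hq, wev_pos]

theorem syA_inv_list (l : List (Sy nG)) : syA ((l.map Sy.inv).reverse) = syA l := by
  induction l with
  | nil => rfl
  | cons s l ih =>
    rcases s with w | w | ⟨i, b⟩ <;> simp [syA_append, syA, Sy.inv, ih, mu5_winv, Nat.add_comm]
    exact flW_bool i (!b) b

theorem syA_expWd (hqμ : ∀ j, mu5 (qW j) ≤ 2 * p.L0) (s : Wd (TTok nG ⊕ Fin 4)) :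
    syA (expWd p qW s) ≤ 2 * p.segW s := by
  induction s with
  | nil => simp [expWd, syA]
  | cons l s ih =>
    have : expWd p qW (l :: s) =
        (if l.2 then expTok p qW l.1 else ((expTok p qW l.1).map Sy.inv).reverse) ++ expWd p qW s := rfl
    rw [this, syA_append]
    have h1 : syA (expTok p qW l.1) ≤ 2 * p.segW [l] := by
      obtain ⟨(j | a | u | j | ⟨i, b⟩) | j, c⟩ := l
      · simp only [expTok, syA, wsum, EmbData.wB, tokW, mu5, List.map_cons, List.map_nil, List.sum_cons, List.sum_nil]
        by_cases h : j = 2 ∨ j = 3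
        · rcases h with rfl | rfl <;> simp
        · simp [not_or.1 h]
      · simp [expTok, syA]
      · simp [expTok, syA, flW]
      · simp [expTok, syA, EmbData.wB, tokW]; exact hqμ j
      · simp only [expTok, wsum, EmbData.wB, tokW, List.map_cons, List.map_nil, List.sum_cons, List.sum_nil]
        cases b <;> dsimp only <;> split_ifs <;> simp [syA, flW] <;> omega
      · simp [expTok, syA, flW]
    have h2 : p.segW (l :: s) = p.segW [l] + p.segW s := by simp
    split_ifs
    · omega
    · rw [syA_inv_list]; omega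

theorem syOk_expWd (s : Wd (TTok nG ⊕ Fin 4)) : p.syOk (expWd p qW s) := by
  intro i b hi
  simp only [expWd, List.mem_flatMap] at hi
  obtain ⟨⟨τ, c⟩, -, hi⟩ := hi
  rcases τ with (j | a | u | j | ⟨k, d⟩) | j <;> cases c <;> simp [expTok, Sy.inv] at hi
  all_goals
    by_cases h : p.C k <;> cases d <;> simp [h, Sy.inv] at hi
    all_goals
      obtain ⟨rfl, -⟩ := hi
      exact h

end TPar

end

end Vale.P193
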