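import Vale.Agent.P193.Layer.TGlue
import Vale.Agent.P193.Layer.HFacts
import Vale.Agent.P193.Layer.HFormRE
import Vale.Agent.P193.Layer.Pad

/-!
P193, M10: Theorem A. An infinite group with nontrivial generators and decidable word problem has a nice envelope.
-/

namespace Vale.P193

noncomputable section

/-- The weight of the letters of `H0`. -/
def bigL : ℕ := 20 * CH + 8

theorem nice_of_re {G : Type} [Group G] [Infinite G] {nG : ℕ} (gG : Fin nG → G)
    (hgG : Function.Surjective (FreeGroup.lift gG)) (hne : ∀ a, gG a ≠ 1)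
    (hre : ∀ (M : Mach (Fin (11 + nG))) (S : M.Spec),
      REPred fun p : ℕ × ℕ => SysF M bigL gG (hForm M S bigL) p.1 p.2) : NiceEnvelope G := by
  obtain ⟨M, ⟨S⟩⟩ := exists_mach (11 + nG)
  refine nice_of_layers M bigL gG (hForm M S bigL) le_rfl (hre M S) (fun e hG => ?_) (fun e H => ?_)
    (fun e _ h => qFacts M bigL gG h)
  · exact ⟨hFacts M S bigL gG hgG hne (by unfold bigL; omega) hG⟩
  · exact tFacts M bigL gG e (q_lb M bigL gG _ H) (by unfold bigL; omega)

/-- What is left for the hand-in: the formulas are r.e., and a nice envelope gives a simple one. -/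
theorem simpleEnvelope_of_parts
    (hre : ∀ {G : Type} [Group G] {nG : ℕ} (gG : Fin nG → G),
      Function.Surjective (FreeGroup.lift gG) → ComputablePred (fun w : Wd (Fin nG) => wev gG w = 1) →
      ∀ (M : Mach (Fin (11 + nG))) (S : M.Spec),
        REPred fun p : ℕ × ℕ => SysF M bigL gG (hForm M S bigL) p.1 p.2)
    (hSV : ∀ (G : Type) [Group G], NiceEnvelope G → SimpleEnvelope G)
    {G : Type} [Group G] {n : ℕ} (f : FreeGroup (Fin n) →* G) (hf : Function.Surjective f)
    (hd : DecidableWP f) : SimpleEnvelope G := by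
  obtain ⟨g, hg, hne, hwp⟩ := exists_pad f hf hd
  refine simpleEnvelope_mono (MonoidHom.inl G (Multiplicative ℤ)) ?_
    (hSV _ (nice_of_re g hg hne (hre g hg hwp)))
  exact fun a b h => congrArg Prod.fst h

end

end Vale.P193
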